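import Crest.Agent.R3.B1AuxB

set_option autoImplicit false

noncomputable section

namespace Crest.Agent.R3

open Matrix Filter Topology

/-! Closed surfaces: reduction to simple representations. -/

variable {O : Subring ℂ}

/-- Lifting an extension when all maps from the sub to the quotient lift. -/
theorem ext_lift (L : LR O) (ζ : Oˣ) {g w q n : ℕ} (e : Ex ℂ w q n) (T : Fin g × Bool → G n ℂ)
    (W : Fin g × Bool → G w L.A) (Q : Fin g × Bool → G q L.A)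
    (hW : cprod W = scal L.A w ζ) (hQ : cprod Q = scal L.A q ζ) (hT : cprod T = scal ℂ n ζ)
    (hi : Eqv e.i (fun v => gmap L.t (W v)) T) (hp : Eqv e.p T fun v => gmap L.t (Q v))
    (hφ : ∀ φ : Mat ℂ q w, Eqv φ (fun v => gmap L.t (W v)) (fun v => gmap L.t (Q v)) →
      ∃ φ' : Mat L.A q w, φ'.map L.t = φ ∧ Eqv φ' W Q) :
    ∃ (e' : Ex L.A w q n) (T' : Fin g × Bool → G n L.A), e'.map L.t = e ∧
      (∀ v, gmap L.t (T' v) = T v) ∧ cprod T' = scal L.A n ζ ∧ Eqv e'.p T' Q := by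
  obtain ⟨e', he'⟩ := L.lift_ex e
  have hTv : ∀ v, (T v).val = e.i * (gmap L.t (W v)).val * e.r + e.s * (gmap L.t (Q v)).val * e.p
      + e.i * (e.r * (T v).val * e.s) * e.p := fun v => B1_decomp e _ _ _ (hi v) (hp v)
  have hb := fox_block e _ _ (fun v => e.r * (T v).val * e.s) T hTv
  have hc : fox (fun v => gmap L.t (W v)) (fun v => gmap L.t (Q v))
      (fun v => e.r * (T v).val * e.s) = 0 := by
    rw [← cprod_map, ← cprod_map, hT, hW, hQ, gmap_scal, gmap_scal, mat_mul_scal, mat_mul_scal,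
      Matrix.smul_mul, Matrix.smul_mul, ← smul_add, e.tot, scal_val, left_eq_add] at hb
    refine e.i_cancel (e.p_cancel ?_)
    rw [hb, Matrix.mul_zero, Matrix.zero_mul]
  obtain ⟨c', hc1, hc2⟩ := B1_lift_cocycle L ζ W Q hW hQ hφ _ hc
  refine ⟨e', fun v => B1_blk e' (W v) (Q v) (c' v), he', fun v => ?_, ?_, fun v => ?_⟩
  · ext1
    rw [hTv v, gmap_val, B1_blk_val, ← hc1 v, ← he']
    simp only [Matrix.map_add _ (map_add L.t), Matrix.map_mul, Ex.map_i, Ex.map_r, Ex.map_s,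
      Ex.map_p, gmap_val]
  · ext1
    rw [fox_block e' W Q c' _ fun v => B1_blk_val e' (W v) (Q v) (c' v), hW, hQ, hc2,
      mat_mul_scal, mat_mul_scal, Matrix.smul_mul, Matrix.smul_mul, ← smul_add, e'.tot, scal_val,
      Matrix.mul_zero, Matrix.zero_mul, add_zero]
  · rw [B1_blk_val]
    simp only [Matrix.mul_add, ← Matrix.mul_assoc, e'.pi, e'.ps, Matrix.zero_mul, Matrix.one_mul,
      zero_add, add_zero]

theorem B1_main {m g : ℕ} (h : ∀ k ≤ m, PBs O k) (ζ : Oˣ) (n : ℕ) : n ≤ m →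
    ∀ (L : LR O) (X : Set (B1_Rp (Fin g × Bool) L.A)), B1_Fam L ζ X →
      ∀ T : Fin g × Bool → G n ℂ, cprod T = scal ℂ n ζ →
        ∃ (L' : LR O) (f : L.A →ₐ[O] L'.A) (T' : Fin g × Bool → G n L'.A),
          L'.t.comp (f : L.A →+* L'.A) = L.t ∧ (∀ v, gmap L'.t (T' v) = T v) ∧
          cprod T' = scal L'.A n ζ ∧
          ∀ x ∈ X, B1_Coh L'.t T' fun v => gmap (f : L.A →+* L'.A) (x.2 v) := by
  induction n using Nat.strong_induction_on with
  | _ n ih =>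
  intro hnm L X hX T hT
  rcases Nat.eq_zero_or_pos n with rfl | hn
  · refine ⟨L, AlgHom.id O L.A, fun _ => 1, rfl, fun v => Units.ext (Subsingleton.elim _ _),
      Units.ext (Subsingleton.elim _ _), fun x _ => B1_Coh.of_zero fun φ _ => ?_⟩
    exact Subsingleton.elim _ _
  obtain ⟨w, q, e, W, Q, hw, hi, hp, hQ, hrad⟩ := exists_rad T hn
  obtain ⟨N, d, D, U, hU, hQU⟩ := exists_dec hQ
  have hWr : cprod W = scal ℂ w ζ := Units.ext (e.i_cancel (by
    rw [hi.cprod, hT, scal_mul_mat, mat_mul_scal]))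
  have hQr : cprod Q = scal ℂ q ζ := Units.ext (e.p_cancel (by
    rw [← hp.cprod, hT, scal_mul_mat, mat_mul_scal]))
  have hprj : ∀ t, Eqv (D.prj t) Q (U t) := fun t v => by
    rw [hQU v]
    exact D.prj_sum (fun t => U t v) t
  have hinj : ∀ t, Eqv (D.inj t) (U t) Q := fun t v => by
    rw [hQU v]
    exact (D.sum_inj (fun t => U t v) t).symm
  have hUr : ∀ t, cprod (U t) = scal ℂ (d t) ζ := fun t => Units.ext (by
    have h1 := congrArg (· * D.inj t) (hprj t).cprod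
    rw [hQr, mat_mul_scal, Matrix.smul_mul, Matrix.mul_assoc, D.pi, Matrix.mul_one] at h1
    rw [← h1, scal_val])
  have hd : ∀ t, d t ≤ m := fun t => by
    have h1 := D.le t
    have h2 := e.dim
    omega
  obtain ⟨L₁, f₁, X₁, hf₁, hX₁, hXX, hs⟩ :=
    B1_steps hX (fun t => h _ (hd t)) U hU hUr Finset.univ
  choose U' hU'1 hU'2 using fun t => hs t (Finset.mem_univ t)
  obtain ⟨L₂, f₂, W', hf₂, hW'1, hW'2, hW'3⟩ := ih w hw (by omega) L₁ X₁ hX₁ W hWr
  obtain ⟨D', hD'⟩ := L₂.lift_dec D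
  have hU'' : ∀ t v, gmap L₂.t (gmap (f₂ : L₁.A →+* L₂.A) (U' t v)) = U t v := fun t v => by
    rw [gmap_gmap, hf₂, hU'1]
  obtain ⟨Q', hQ'⟩ : ∃ Q' : Fin g × Bool → G q L₂.A,
      ∀ v, Q' v = D'.sum fun t => gmap (f₂ : L₁.A →+* L₂.A) (U' t v) := ⟨_, fun _ => rfl⟩
  have hQ'1 : ∀ v, gmap L₂.t (Q' v) = Q v := fun v => by
    rw [hQ', Dec.map_sum, hD', hQU v]
    simp only [hU'']
  have hprj' : ∀ t, Eqv (D'.prj t) Q' fun v => gmap (f₂ : L₁.A →+* L₂.A) (U' t v) :=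
    fun t v => by
      rw [hQ' v]
      exact D'.prj_sum (fun t => gmap (f₂ : L₁.A →+* L₂.A) (U' t v)) t
  have hinj' : ∀ t, Eqv (D'.inj t) (fun v => gmap (f₂ : L₁.A →+* L₂.A) (U' t v)) Q' :=
    fun t v => by
      rw [hQ' v]
      exact (D'.sum_inj (fun t => gmap (f₂ : L₁.A →+* L₂.A) (U' t v)) t).symm
  have hDi : ∀ t, (D'.inj t).map L₂.t = D.inj t := fun t => by
    rw [← hD']
    rfl
  have hDp : ∀ t, (D'.prj t).map L₂.t = D.prj t := fun t => by
    rw [← hD']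
    rfl
  have hQ'2 : cprod Q' = scal L₂.A q ζ := Units.ext (by
    have h1 : ∀ t, (cprod Q').val * (D'.inj t * D'.prj t) =
        algebraMap O L₂.A ζ • (D'.inj t * D'.prj t) := fun t => by
      have h2 : cprod (U' t) = scal L₁.A (d t) ζ := hX₁.rel _ (hU'2 t)
      rw [← Matrix.mul_assoc, ← (hinj' t).cprod, ← cprod_map, h2, gmap_scal, mat_mul_scal,
        Matrix.smul_mul]
    rw [scal_val, ← D'.tot, Finset.smul_sum, ← Matrix.mul_one (cprod Q').val, ← D'.tot,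
      Matrix.mul_sum]
    exact Finset.sum_congr rfl fun t _ => h1 t)
  obtain ⟨e', T', he', hT'1, hT'2, hT'3⟩ := ext_lift L₂ ζ e T W' Q' hW'2 hQ'2 hT
    (by rw [funext hW'1]; exact hi) (by rw [funext hQ'1]; exact hp) (fun φ hφ => by
      rw [funext hQ'1] at hφ
      have h1 : ∀ t, ∃ φ' : Mat L₂.A (d t) w, φ'.map L₂.t = D.prj t * φ ∧
          Eqv φ' W' fun v => gmap (f₂ : L₁.A →+* L₂.A) (U' t v) := fun t => by
        refine hW'3 _ (hU'2 t) _ ?_
        have := B1_eqv_mul hφ (hprj t)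
        rw [← funext (hU'' t)] at this
        exact this
      choose φ' h2 h3 using h1
      refine ⟨∑ t, D'.inj t * φ' t, ?_, B1_eqv_sum fun t => B1_eqv_mul (h3 t) (hinj' t)⟩
      rw [B1_map_sum]
      simp only [Matrix.map_mul, h2, hDi, ← Matrix.mul_assoc]
      rw [← Matrix.sum_mul, D.tot, Matrix.one_mul])
  refine ⟨L₂, f₂.comp f₁, T', ?_, hT'1, hT'2, fun x hx φ hφ => ?_⟩
  · rw [← hf₁, ← hf₂]
    rfl
  have hx' : (fun v => gmap L₂.t (gmap (f₂.comp f₁ : L.A →+* L₂.A) (x.2 v))) =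
      fun v => gmap L.t (x.2 v) := by
    rw [← hf₁, ← hf₂]
    rfl
  have hx'' : (fun v => gmap L₁.t (gmap (f₁ : L.A →+* L₁.A) (x.2 v))) =
      fun v => gmap L.t (x.2 v) := by
    rw [← hf₁]
    rfl
  rw [funext hT'1, hx'] at hφ
  have h0 := e.fac_p φ (hrad _ _ φ (hX.sim x hx) hφ)
  have hψ : Eqv (φ * e.s) Q fun v => gmap L.t (x.2 v) := fun v => e.p_cancel (by
    rw [Matrix.mul_assoc, ← hp v, ← Matrix.mul_assoc, ← h0, hφ v, Matrix.mul_assoc, ← h0])
  have h1 : ∀ t, ∃ χ : Mat L₁.A x.1 (d t), χ.map L₁.t = φ * e.s * D.inj t ∧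
      Eqv χ (U' t) fun v => gmap (f₁ : L.A →+* L₁.A) (x.2 v) := fun t => by
    refine hX₁.coh _ (hU'2 t) _ (hXX x hx) _ ?_
    have := B1_eqv_mul (hinj t) hψ
    rw [← funext (hU'1 t), ← hx''] at this
    exact this
  choose χ h2 h3 using h1
  refine ⟨∑ t, (χ t).map (f₂ : L₁.A →+* L₂.A) * D'.prj t * e'.p, ?_,
    B1_eqv_sum fun t => B1_eqv_mul hT'3 (B1_eqv_mul (hprj' t) (B1_eqv_map _ (h3 t)))⟩
  have h4 : ∀ t, ((χ t).map (f₂ : L₁.A →+* L₂.A)).map L₂.t = φ * e.s * D.inj t := fun t => by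
    rw [← h2 t, ← hf₂]
    rfl
  have h5 : e'.p.map L₂.t = e.p := by
    rw [← he']
    rfl
  rw [B1_map_sum]
  simp only [Matrix.map_mul, h4, hDp, h5]
  rw [← Matrix.sum_mul]
  simp only [Matrix.mul_assoc _ (D.inj _)]
  rw [← Matrix.mul_sum, D.tot, Matrix.mul_one, ← h0]

theorem pb_of_simple (L₀ : LR O) {m : ℕ} (h : ∀ k ≤ m, PBs O k) : PB O m := by
  intro g ζ T hT
  obtain ⟨L', -, T', -, h1, h2, -⟩ := B1_main h ζ m le_rfl L₀ ∅
    ⟨fun _ hx => hx.elim, fun _ hx => hx.elim, fun _ hx => hx.elim⟩ T hT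
  exact ⟨L', T', h1, h2⟩

end Crest.Agent.R3

end
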