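import Crest.Agent.R3.Rep

set_option autoImplicit false

noncomputable section

namespace Crest.Agent.R3

open Matrix Filter Topology

/-! Auxiliary lemmas for `B1`: block matrices and the matrix of the Fox derivative. -/

section Blk
variable {R S : Type*} [CommRing R] [CommRing S] {g w q n : ℕ}

theorem B1_mul (e : Ex R w q n) (a a' : Mat R w w) (b b' : Mat R q q) (c c' : Mat R w q) :
    (e.i * a * e.r + e.s * b * e.p + e.i * c * e.p) *
        (e.i * a' * e.r + e.s * b' * e.p + e.i * c' * e.p) =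
      e.i * (a * a') * e.r + e.s * (b * b') * e.p + e.i * (a * c' + c * b') * e.p := by
  have h1 : ∀ {k : ℕ} (X : Mat R w k), e.r * (e.i * X) = X := fun X => by
    rw [← Matrix.mul_assoc, e.ri, Matrix.one_mul]
  have h2 : ∀ {k : ℕ} (X : Mat R q k), e.p * (e.s * X) = X := fun X => by
    rw [← Matrix.mul_assoc, e.ps, Matrix.one_mul]
  have h3 : ∀ {k : ℕ} (X : Mat R w k), e.p * (e.i * X) = 0 := fun X => by
    rw [← Matrix.mul_assoc, e.pi, Matrix.zero_mul]
  have h4 : ∀ {k : ℕ} (X : Mat R q k), e.r * (e.s * X) = 0 := fun X => by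
    rw [← Matrix.mul_assoc, e.rs, Matrix.zero_mul]
  simp only [Matrix.add_mul, Matrix.mul_add, Matrix.mul_assoc, h1, h2, h3, h4, Matrix.mul_zero,
    add_zero, zero_add]
  abel

/-- The block upper triangular unit. -/
def B1_blk (e : Ex R w q n) (a : G w R) (b : G q R) (c : Mat R w q) : G n R :=
  ⟨e.i * a.val * e.r + e.s * b.val * e.p + e.i * c * e.p,
    e.i * (a⁻¹).val * e.r + e.s * (b⁻¹).val * e.p +
      e.i * (-((a⁻¹).val * c * (b⁻¹).val)) * e.p,
    by
      rw [B1_mul, Units.mul_inv, Units.mul_inv, Matrix.mul_neg, ← Matrix.mul_assoc,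
        ← Matrix.mul_assoc, Units.mul_inv, Matrix.one_mul, neg_add_cancel, Matrix.mul_one,
        Matrix.mul_one, Matrix.mul_zero, Matrix.zero_mul, add_zero, e.tot],
    by
      rw [B1_mul, Units.inv_mul, Units.inv_mul, Matrix.neg_mul, Matrix.mul_assoc _ _ b.val,
        Units.inv_mul, Matrix.mul_one, Matrix.mul_one, Matrix.mul_one, add_neg_cancel,
        Matrix.mul_zero, Matrix.zero_mul, add_zero, e.tot]⟩

theorem B1_blk_val (e : Ex R w q n) (a : G w R) (b : G q R) (c : Mat R w q) :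
    (B1_blk e a b c).val = e.i * a.val * e.r + e.s * b.val * e.p + e.i * c * e.p := rfl

/-- A matrix compatible with the sequence is block upper triangular. -/
theorem B1_decomp (e : Ex R w q n) (t : Mat R n n) (a : Mat R w w) (b : Mat R q q)
    (hi : e.i * a = t * e.i) (hp : e.p * t = b * e.p) :
    t = e.i * a * e.r + e.s * b * e.p + e.i * (e.r * t * e.s) * e.p := by
  have h1 : e.s * b * e.p = e.s * e.p * t * (e.s * e.p) := by
    rw [Matrix.mul_assoc e.s e.p t, hp]
    simp only [Matrix.mul_assoc]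
    rw [← Matrix.mul_assoc e.p e.s, e.ps, Matrix.one_mul]
  have h2 : e.i * (e.r * t * e.s) * e.p = e.i * e.r * t * (e.s * e.p) := by
    simp only [Matrix.mul_assoc]
  rw [hi, h1, h2, add_assoc, ← Matrix.add_mul, ← Matrix.add_mul, add_comm (e.s * e.p), e.tot,
    Matrix.one_mul, Matrix.mul_assoc, ← Matrix.mul_add, e.tot, Matrix.mul_one]

/-- Coordinates of a cochain. -/
def B1_co (x : (Fin g × Bool) × Fin w × Fin q → R) : Fin g × Bool → Mat R w q :=
  fun v => Matrix.of fun k l => x (v, k, l)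

/-- The matrix of the Fox derivative. -/
def B1_d (W : Fin g × Bool → G w R) (Q : Fin g × Bool → G q R) :
    Matrix (Fin w × Fin q) ((Fin g × Bool) × Fin w × Fin q) R :=
  Matrix.of fun b a => fox W Q (B1_co (Pi.single a 1)) b.1 b.2

theorem B1_d_mulVec (W : Fin g × Bool → G w R) (Q : Fin g × Bool → G q R)
    (x : (Fin g × Bool) × Fin w × Fin q → R) (b : Fin w × Fin q) :
    (B1_d W Q *ᵥ x) b = fox W Q (B1_co x) b.1 b.2 := by
  have hx : B1_co x = ∑ a, x a • B1_co (Pi.single a (1 : R)) := by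
    funext v
    ext k l
    simp only [B1_co, Matrix.of_apply, Finset.sum_apply, Matrix.sum_apply, Pi.smul_apply,
      Matrix.smul_apply, smul_eq_mul]
    rw [Finset.sum_eq_single (v, k, l)]
    · simp
    · intro a _ ha
      rw [Pi.single_eq_of_ne (Ne.symm ha), mul_zero]
    · simp
  have h := congrArg (foxL W Q) hx
  rw [map_sum] at h
  simp only [map_smul, foxL_apply] at h
  rw [h]
  simp only [Matrix.mulVec, dotProduct, B1_d, Matrix.of_apply, Matrix.sum_apply,
    Matrix.smul_apply, smul_eq_mul]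
  exact Finset.sum_congr rfl fun a _ => mul_comm _ _

theorem B1_d_map (f : R →+* S) (W : Fin g × Bool → G w R) (Q : Fin g × Bool → G q R) :
    (B1_d W Q).map f = B1_d (fun v => gmap f (W v)) (fun v => gmap f (Q v)) := by
  ext b a
  have h := congrFun (congrFun (fox_map f W Q (B1_co (Pi.single a 1))) b.1) b.2
  rw [Matrix.map_apply] at h
  simp only [Matrix.map_apply, B1_d, Matrix.of_apply]
  rw [h]
  congr 1
  funext v
  ext k l
  simp only [B1_co, Matrix.map_apply, Matrix.of_apply]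
  by_cases hv : (v, k, l) = a
  · subst hv
    simp
  · rw [Pi.single_eq_of_ne hv, Pi.single_eq_of_ne hv, map_zero]

theorem B1_trace (W : Fin g × Bool → G w R) (Q : Fin g × Bool → G q R) (φ : Mat R q w)
    (x : (Fin g × Bool) × Fin w × Fin q → R) :
    (φ * fox W Q (B1_co x)).trace = ((fun b : Fin w × Fin q => φ b.2 b.1) ᵥ* B1_d W Q) ⬝ᵥ x := by
  rw [← Matrix.dotProduct_mulVec]
  simp only [dotProduct, B1_d_mulVec, Matrix.trace, Matrix.diag, Matrix.mul_apply]
  rw [Fintype.sum_prod_type, Finset.sum_comm]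

omit [CommRing R] in
theorem B1_co_surj (c : Fin g × Bool → Mat R w q) : ∃ x, B1_co x = c :=
  ⟨fun a => c a.1 a.2.1 a.2.2, rfl⟩

end Blk

variable {O : Subring ℂ}

theorem B1_unit_cancel {R : Type*} [CommRing R] [Algebra O R] (ζ : Oˣ) {M : Type*}
    [AddCommGroup M] [Module R M] {x y : M} (h : algebraMap O R ζ • x = algebraMap O R ζ • y) :
    x = y :=
  ((ζ.isUnit.map (algebraMap O R)).smul_left_cancel).1 h

/-- The cocycle of an extension lifts. -/
theorem B1_lift_cocycle (L : LR O) (ζ : Oˣ) {g w q : ℕ}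
    (W : Fin g × Bool → G w L.A) (Q : Fin g × Bool → G q L.A)
    (hW : cprod W = scal L.A w ζ) (hQ : cprod Q = scal L.A q ζ)
    (hφ : ∀ φ : Mat ℂ q w, Eqv φ (fun v => gmap L.t (W v)) (fun v => gmap L.t (Q v)) →
      ∃ φ' : Mat L.A q w, φ'.map L.t = φ ∧ Eqv φ' W Q)
    (c : Fin g × Bool → Mat ℂ w q)
    (hc : fox (fun v => gmap L.t (W v)) (fun v => gmap L.t (Q v)) c = 0) :
    ∃ c' : Fin g × Bool → Mat L.A w q, (∀ v, (c' v).map L.t = c v) ∧ fox W Q c' = 0 := by
  obtain ⟨x, rfl⟩ := B1_co_surj c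
  have hW' : cprod (fun v => gmap L.t (W v)) = scal ℂ w ζ := by
    rw [← cprod_map, hW, gmap_scal]
  obtain ⟨x', hx', hd⟩ := lemmaK L.t L.surj (B1_d W Q) (fun φ h => by
    rw [B1_d_map] at h
    have h1 : ∀ c, ((Matrix.of fun j i => φ (i, j) : Mat ℂ q w) *
        fox (fun v => gmap L.t (W v)) (fun v => gmap L.t (Q v)) c).trace = 0 := fun c => by
      obtain ⟨y, rfl⟩ := B1_co_surj c
      rw [B1_trace]
      have : (fun b : Fin w × Fin q => (Matrix.of fun j i => φ (i, j) : Mat ℂ q w) b.2 b.1) = φ :=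
        rfl
      rw [this, h, zero_dotProduct]
    have h2 := fox_ann h1
    rw [hW', mat_mul_scal] at h2
    obtain ⟨φ', hφ1, hφ2⟩ := hφ (Matrix.of fun j i => φ (i, j)) fun v => by
      have := h2 v
      rw [Matrix.smul_mul, Matrix.mul_smul] at this
      exact B1_unit_cancel ζ this
    refine ⟨fun b => φ' b.2 b.1, fun b => congrFun (congrFun hφ1 b.2) b.1, ?_⟩
    funext a
    have h3 := fox_trace hφ2 (B1_co (Pi.single a 1))
    rw [hQ, ← scal_inv, mat_mul_scal, Matrix.trace_smul, B1_trace, dotProduct_single_one] at h3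
    exact B1_unit_cancel ζ⁻¹ (h3.trans (smul_zero _).symm)) x (by
      funext b
      rw [B1_d_map, B1_d_mulVec, hc]
      rfl)
  refine ⟨B1_co x', fun v => ?_, ?_⟩
  · ext k l
    exact hx' _
  · ext i j
    rw [← B1_d_mulVec W Q x' (i, j), hd]
    rfl

end Crest.Agent.R3

end
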