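import Crest.Agent.R3.B1AuxA

set_option autoImplicit false

noncomputable section

namespace Crest.Agent.R3

open Matrix Filter Topology

/-! Auxiliary lemmas for `B1`: coherent families of lifts of simple representations. -/

section Coh
variable {R S : Type} [CommRing R] [CommRing S] {ι : Type} {a b : ℕ}

theorem B1_eqv_map (f : R →+* S) {φ : Mat R b a} {x : ι → G a R} {y : ι → G b R}
    (h : Eqv φ x y) : Eqv (φ.map f) (fun v => gmap f (x v)) fun v => gmap f (y v) := fun v => by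
  rw [gmap_val, gmap_val, ← Matrix.map_mul, ← Matrix.map_mul, h v]

theorem B1_eqv_mul {c : ℕ} {φ : Mat R b a} {ψ : Mat R c b} {x : ι → G a R} {y : ι → G b R}
    {z : ι → G c R} (h : Eqv φ x y) (h' : Eqv ψ y z) : Eqv (ψ * φ) x z := fun v => by
  rw [Matrix.mul_assoc, h v, ← Matrix.mul_assoc, h' v, Matrix.mul_assoc]

theorem B1_eqv_sum {κ : Type} [Fintype κ] {φ : κ → Mat R b a} {x : ι → G a R} {y : ι → G b R}
    (h : ∀ t, Eqv (φ t) x y) : Eqv (∑ t, φ t) x y := fun v => by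
  rw [Matrix.sum_mul, Matrix.mul_sum]
  exact Finset.sum_congr rfl fun t _ => h t v

theorem B1_eqv_conj (P : G a R) (x : ι → G a R) : Eqv P.val x fun v => P * x v * P⁻¹ :=
  fun v => by
    rw [← Units.val_mul, ← Units.val_mul, inv_mul_cancel_right]

theorem B1_eqv_conj' (P : G a R) (x : ι → G a R) : Eqv (P⁻¹).val (fun v => P * x v * P⁻¹) x :=
  fun v => by
    dsimp only
    rw [← Units.val_mul, ← Units.val_mul, mul_assoc, inv_mul_cancel_left]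

theorem B1_map_sum {κ : Type} [Fintype κ] (f : R →+* S) (φ : κ → Mat R b a) :
    (∑ t, φ t).map f = ∑ t, (φ t).map f := by
  ext i j
  simp only [Matrix.map_apply, Matrix.sum_apply, map_sum]

/-- Every intertwiner of the images lifts to an intertwiner. -/
def B1_Coh (θ : R →+* ℂ) (x : ι → G a R) (y : ι → G b R) : Prop :=
  ∀ φ : Mat ℂ b a, Eqv φ (fun v => gmap θ (x v)) (fun v => gmap θ (y v)) →
    ∃ φ' : Mat R b a, φ'.map θ = φ ∧ Eqv φ' x y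

theorem B1_Coh.bc {θ : R →+* ℂ} {x : ι → G a R} {y : ι → G b R} (h : B1_Coh θ x y)
    {θ' : S →+* ℂ} {f : R →+* S} (hf : θ'.comp f = θ) :
    B1_Coh θ' (fun v => gmap f (x v)) fun v => gmap f (y v) := by
  subst hf
  intro φ hφ
  obtain ⟨φ', h1, h2⟩ := h φ hφ
  exact ⟨φ'.map f, h1, B1_eqv_map f h2⟩

theorem B1_Coh.conj_l {θ : R →+* ℂ} {x : ι → G a R} {y : ι → G b R} (h : B1_Coh θ x y)
    (P : G a R) : B1_Coh θ (fun v => P * x v * P⁻¹) y := by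
  intro φ hφ
  obtain ⟨φ', h1, h2⟩ := h _ (B1_eqv_mul (B1_eqv_map θ (B1_eqv_conj P x)) hφ)
  refine ⟨φ' * (P⁻¹).val, ?_, B1_eqv_mul (B1_eqv_conj' P x) h2⟩
  rw [Matrix.map_mul, h1, Matrix.mul_assoc, ← Matrix.map_mul, Units.mul_inv,
    Matrix.map_one _ (map_zero θ) (map_one θ), Matrix.mul_one]

theorem B1_Coh.conj_r {θ : R →+* ℂ} {x : ι → G a R} {y : ι → G b R} (h : B1_Coh θ x y)
    (P : G b R) : B1_Coh θ x fun v => P * y v * P⁻¹ := by
  intro φ hφ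
  obtain ⟨φ', h1, h2⟩ := h _ (B1_eqv_mul hφ (B1_eqv_map θ (B1_eqv_conj' P y)))
  refine ⟨P.val * φ', ?_, B1_eqv_mul h2 (B1_eqv_conj P y)⟩
  rw [Matrix.map_mul, h1, ← Matrix.mul_assoc, ← Matrix.map_mul, Units.mul_inv,
    Matrix.map_one _ (map_zero θ) (map_one θ), Matrix.one_mul]

theorem B1_Coh.of_zero {θ : R →+* ℂ} {x : ι → G a R} {y : ι → G b R}
    (h : ∀ φ : Mat ℂ b a, Eqv φ (fun v => gmap θ (x v)) (fun v => gmap θ (y v)) → φ = 0) :
    B1_Coh θ x y := fun φ hφ =>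
  ⟨0, by rw [h φ hφ, Matrix.map_zero _ (map_zero θ)], fun v => by
    rw [Matrix.zero_mul, Matrix.mul_zero]⟩

theorem B1_Coh.of_scal {θ : R →+* ℂ} (hθ : Function.Surjective θ) {x : ι → G a R}
    (h : Scal fun v => gmap θ (x v)) : B1_Coh θ x x := fun φ hφ => by
  obtain ⟨c, rfl⟩ := h φ hφ
  obtain ⟨c', rfl⟩ := hθ c
  refine ⟨c' • 1, ?_, fun v => by rw [Matrix.smul_mul, Matrix.mul_smul, one_mul, mul_one]⟩
  ext i j
  by_cases hij : i = j
  · simp [hij]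
  · simp [hij]

/-- Representations of any rank. -/
abbrev B1_Rp (ι R : Type) [CommRing R] : Type := Σ k : ℕ, ι → G k R

def B1_bc (f : R →+* S) (x : B1_Rp ι R) : B1_Rp ι S := ⟨x.1, fun v => gmap f (x.2 v)⟩

end Coh

variable {O : Subring ℂ} {g : ℕ}

/-- A coherent family of lifts of simple representations. -/
structure B1_Fam (L : LR O) (ζ : Oˣ) (X : Set (B1_Rp (Fin g × Bool) L.A)) : Prop where
  rel : ∀ x ∈ X, cprod x.2 = scal L.A x.1 ζ
  sim : ∀ x ∈ X, Simple fun v => gmap L.t (x.2 v)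
  coh : ∀ x ∈ X, ∀ y ∈ X, B1_Coh L.t x.2 y.2

theorem B1_Fam.bc {L L' : LR O} {ζ : Oˣ} {X : Set (B1_Rp (Fin g × Bool) L.A)}
    (h : B1_Fam L ζ X) (f : L.A →ₐ[O] L'.A) (hf : L'.t.comp (f : L.A →+* L'.A) = L.t) :
    B1_Fam L' ζ (B1_bc (f : L.A →+* L'.A) '' X) where
  rel := by
    rintro _ ⟨x, hx, rfl⟩
    change cprod (fun v => gmap (f : L.A →+* L'.A) (x.2 v)) = scal L'.A x.1 ζ
    rw [← cprod_map, h.rel x hx, gmap_scal]
  sim := by
    rintro _ ⟨x, hx, rfl⟩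
    have := h.sim x hx
    rw [← hf] at this
    exact this
  coh := by
    rintro _ ⟨x, hx, rfl⟩ _ ⟨y, hy, rfl⟩
    exact (h.coh x hx y hy).bc hf

theorem B1_Fam.insert {L : LR O} {ζ : Oˣ} {X : Set (B1_Rp (Fin g × Bool) L.A)}
    (h : B1_Fam L ζ X) {k : ℕ} (U : Fin g × Bool → G k L.A) (h1 : cprod U = scal L.A k ζ)
    (h2 : Simple fun v => gmap L.t (U v)) (h3 : B1_Coh L.t U U)
    (h4 : ∀ x ∈ X, B1_Coh L.t U x.2) (h5 : ∀ x ∈ X, B1_Coh L.t x.2 U) :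
    B1_Fam L ζ (insert ⟨k, U⟩ X) where
  rel := by
    rintro x (rfl | hx)
    · exact h1
    · exact h.rel x hx
  sim := by
    rintro x (rfl | hx)
    · exact h2
    · exact h.sim x hx
  coh := by
    rintro x (rfl | hx) y (rfl | hy)
    · exact h3
    · exact h4 y hy
    · exact h5 x hx
    · exact h.coh x hx y hy

/-- Add one simple representation to a coherent family. -/
theorem B1_step {L : LR O} {ζ : Oˣ} {X : Set (B1_Rp (Fin g × Bool) L.A)} (h : B1_Fam L ζ X)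
    {k : ℕ} (hk : PBs O k) (U : Fin g × Bool → G k ℂ) (hU : Simple U)
    (hr : cprod U = scal ℂ k ζ) :
    ∃ (L' : LR O) (f : L.A →ₐ[O] L'.A) (X' : Set (B1_Rp (Fin g × Bool) L'.A)),
      L'.t.comp (f : L.A →+* L'.A) = L.t ∧ B1_Fam L' ζ X' ∧
      (∀ x ∈ X, B1_bc (f : L.A →+* L'.A) x ∈ X') ∧
      ∃ U' : Fin g × Bool → G k L'.A, (∀ v, gmap L'.t (U' v) = U v) ∧ ⟨k, U'⟩ ∈ X' := by
  by_cases hA : ∃ x ∈ X, ∃ (φ : Mat ℂ k x.1) (ψ : Mat ℂ x.1 k),
      Eqv φ (fun v => gmap L.t (x.2 v)) U ∧ ψ * φ = 1 ∧ φ * ψ = 1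
  · obtain ⟨⟨k', y⟩, hx, φ, ψ, h1, h2, h3⟩ := hA
    dsimp only at φ ψ h1 h2 h3
    have hk' : k' = k := by
      have := Matrix.trace_mul_comm φ ψ
      rw [h2, h3, Matrix.trace_one, Matrix.trace_one, Fintype.card_fin, Fintype.card_fin] at this
      exact_mod_cast this.symm
    subst hk'
    obtain ⟨P, hP⟩ := L.lift_gl (⟨φ, ψ, h3, h2⟩ : G k' ℂ)
    have hl : ∀ v, gmap L.t (P * y v * P⁻¹) = U v := fun v => by
      rw [map_mul, map_mul, map_inv, hP, mul_inv_eq_iff_eq_mul]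
      exact Units.ext (h1 v)
    refine ⟨L, AlgHom.id O L.A, insert ⟨k', fun v => P * y v * P⁻¹⟩ X, rfl,
      h.insert _ ?_ ?_ ?_ (fun x hx' => ?_) (fun x hx' => ?_), fun x hx => Or.inr hx,
      _, hl, Or.inl rfl⟩
    · have := h.rel _ hx
      dsimp only at this
      rw [cprod_conj, this, mul_assoc, scal_comm, mul_inv_cancel_left]
    · rw [funext hl]
      exact hU
    · exact ((h.coh _ hx _ hx).conj_l P).conj_r P
    · exact (h.coh _ hx _ hx').conj_l P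
    · exact (h.coh _ hx' _ hx).conj_r P
  · obtain ⟨L₂, U₂, hU₂, hr₂⟩ := hk g ζ U hU hr
    obtain ⟨L', f₁, f₂, hf₁, hf₂⟩ := LR.prod L.toGR L₂
    have hf₁' : L'.t.comp (f₁ : L.A →+* L'.A) = L.t := RingHom.ext hf₁
    have hf₂' : L'.t.comp (f₂ : L₂.A →+* L'.A) = L₂.t := RingHom.ext hf₂
    have hl : ∀ v, gmap L'.t (gmap (f₂ : L₂.A →+* L'.A) (U₂ v)) = U v := fun v => by
      rw [gmap_gmap, hf₂', hU₂]
    have hl' : ∀ x : B1_Rp (Fin g × Bool) L.A,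
        (fun v => gmap L'.t ((B1_bc (f₁ : L.A →+* L'.A) x).2 v)) = fun v => gmap L.t (x.2 v) :=
      fun x => by
        rw [← hf₁']
        rfl
    refine ⟨L', f₁, insert ⟨k, fun v => gmap (f₂ : L₂.A →+* L'.A) (U₂ v)⟩
      (B1_bc (f₁ : L.A →+* L'.A) '' X), hf₁',
      (h.bc f₁ hf₁').insert _ ?_ ?_ ?_ ?_ ?_, fun x hx => Or.inr ⟨x, hx, rfl⟩,
      _, hl, Or.inl rfl⟩
    · rw [← cprod_map, hr₂, gmap_scal]
    · rw [funext hl]
      exact hU
    · refine B1_Coh.of_scal L'.surj ?_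
      rw [funext hl]
      exact schur_scal hU
    · rintro _ ⟨x, hx, rfl⟩
      refine B1_Coh.of_zero fun (φ : Mat ℂ x.1 k) hφ => ?_
      rw [funext hl, hl'] at hφ
      by_contra h0
      obtain ⟨ψ, h2, h3⟩ := schur_iso hU (h.sim x hx) hφ h0
      refine hA ⟨x, hx, ψ, φ, fun v => ?_, h3, h2⟩
      have hv : φ * (U v).val = (gmap L.t (x.2 v)).val * φ := hφ v
      calc ψ * (gmap L.t (x.2 v)).val = ψ * ((gmap L.t (x.2 v)).val * φ) * ψ := by
            rw [Matrix.mul_assoc, Matrix.mul_assoc, h3, Matrix.mul_one]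
        _ = (U v).val * ψ := by
            rw [← hv, ← Matrix.mul_assoc, h2, Matrix.one_mul]
    · rintro _ ⟨x, hx, rfl⟩
      refine B1_Coh.of_zero fun φ hφ => ?_
      rw [funext hl, hl'] at hφ
      by_contra h0
      obtain ⟨ψ, h2, h3⟩ := schur_iso (h.sim x hx) hU hφ h0
      exact hA ⟨x, hx, φ, ψ, hφ, h2, h3⟩

/-- Add finitely many simple representations to a coherent family. -/
theorem B1_steps {L : LR O} {ζ : Oˣ} {X : Set (B1_Rp (Fin g × Bool) L.A)} (h : B1_Fam L ζ X)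
    {N : ℕ} {d : Fin N → ℕ} (hk : ∀ t, PBs O (d t)) (U : ∀ t, Fin g × Bool → G (d t) ℂ)
    (hU : ∀ t, Simple (U t)) (hr : ∀ t, cprod (U t) = scal ℂ (d t) ζ) (s : Finset (Fin N)) :
    ∃ (L' : LR O) (f : L.A →ₐ[O] L'.A) (X' : Set (B1_Rp (Fin g × Bool) L'.A)),
      L'.t.comp (f : L.A →+* L'.A) = L.t ∧ B1_Fam L' ζ X' ∧
      (∀ x ∈ X, B1_bc (f : L.A →+* L'.A) x ∈ X') ∧
      ∀ t ∈ s, ∃ U' : Fin g × Bool → G (d t) L'.A, (∀ v, gmap L'.t (U' v) = U t v) ∧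
        ⟨d t, U'⟩ ∈ X' := by
  induction s using Finset.induction_on with
  | empty => exact ⟨L, AlgHom.id O L.A, X, rfl, h, fun x hx => hx, by simp⟩
  | insert t s _ ih =>
    obtain ⟨L₁, f₁, X₁, hf₁, h₁, hX₁, hs⟩ := ih
    obtain ⟨L₂, f₂, X₂, hf₂, h₂, hX₂, ht⟩ := B1_step h₁ (hk t) (U t) (hU t) (hr t)
    refine ⟨L₂, f₂.comp f₁, X₂, ?_, h₂, fun x hx => hX₂ _ (hX₁ x hx), fun t' ht' => ?_⟩
    · rw [← hf₁, ← hf₂]
      rfl
    · rcases Finset.mem_insert.1 ht' with rfl | ht'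
      · exact ht
      · obtain ⟨U', h1, h2⟩ := hs t' ht'
        refine ⟨fun v => gmap (f₂ : L₁.A →+* L₂.A) (U' v), fun v => ?_, hX₂ _ h2⟩
        rw [gmap_gmap, hf₂, h1]

end Crest.Agent.R3

end
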