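import Crest.Agent.R3.Rep

set_option autoImplicit false

noncomputable section

namespace Crest.Agent.R3

open Matrix Filter Topology

/-! Closed surfaces: genus `0`, genus `1`, rank `1`; conjugation. -/

variable {O : Subring ℂ}

theorem liftRep_conj {g m : ℕ} {ζ : Oˣ} {T : Fin g × Bool → G m ℂ} (h : LiftRep ζ T)
    (P : G m ℂ) : LiftRep ζ fun v => P * T v * P⁻¹ := by
  obtain ⟨L, T', h1, h2⟩ := h
  obtain ⟨P', hP⟩ := L.lift_gl P
  refine ⟨L, fun v => P' * T' v * P'⁻¹, fun v => ?_, ?_⟩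
  · rw [map_mul, map_mul, map_inv, hP, h1]
  · rw [cprod_conj, h2, ← scal_comm, mul_inv_cancel_right]

theorem scal_pow_eq_one {g m : ℕ} {ζ : Oˣ} {T : Fin g × Bool → G m ℂ}
    (h : cprod T = scal ℂ m ζ) : ζ ^ m = 1 := by
  have h1 := det_cprod T
  rw [h, scal_val, Matrix.det_smul, Matrix.det_one, mul_one, Fintype.card_fin, ← map_pow] at h1
  exact Units.ext (Subtype.ext h1)

theorem pbs_genus_zero (L₀ : LR O) {m : ℕ} (ζ : Oˣ) (T : Fin 0 × Bool → G m ℂ)
    (h : cprod T = scal ℂ m ζ) : LiftRep ζ T := by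
  refine ⟨L₀, fun v => v.1.elim0, fun v => v.1.elim0, ?_⟩
  rw [cprod_zero] at h ⊢
  ext i j
  have h1 := congrArg (fun M : G m ℂ => M.val i i) h
  simp only [scal_val, Units.val_one, Matrix.smul_apply, Matrix.one_apply_eq, smul_eq_mul,
    mul_one] at h1
  rw [show ζ = 1 from Units.ext (Subtype.ext h1.symm), scal_one]

theorem pbs_rank_one (L₀ : LR O) {g : ℕ} (ζ : Oˣ) (T : Fin g × Bool → G 1 ℂ)
    (h : cprod T = scal ℂ 1 ζ) : LiftRep ζ T := by
  have h1 := scal_pow_eq_one h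
  rw [pow_one] at h1
  choose T' hT' using fun v => L₀.lift_gl (T v)
  refine ⟨L₀, T', hT', ?_⟩
  rw [h1, scal_one]
  ext i j
  have h2 := det_cprod T'
  rw [Matrix.det_fin_one] at h2
  rw [Subsingleton.elim i 0, Subsingleton.elim j 0, h2]
  simp

section Clock
variable {R S : Type*} [CommRing R] [CommRing S]

/-- The clock matrix. -/
def B2_D (l z : R) (n : ℕ) : Mat R (n + 1) (n + 1) := diagonal fun j => l * z ^ (j : ℕ)

/-- The shift matrix. -/
def B2_C (u : R) (n : ℕ) : Mat R (n + 1) (n + 1) :=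
  Matrix.of fun i j => if i = j + 1 then (if j = Fin.last n then u else 1) else 0

theorem B2_mul_C (u : R) {n : ℕ} (P : Mat R (n + 1) (n + 1)) (i j : Fin (n + 1)) :
    (P * B2_C u n) i j = P i (j + 1) * if j = Fin.last n then u else 1 := by
  rw [Matrix.mul_apply, Finset.sum_eq_single (j + 1)]
  · simp [B2_C]
  · intro k _ hk
    simp [B2_C, hk]
  · simp

theorem B2_D_map (f : R →+* S) (l z : R) (n : ℕ) : (B2_D l z n).map f = B2_D (f l) (f z) n := by
  rw [B2_D, B2_D, Matrix.diagonal_map (map_zero f)]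
  simp

theorem B2_C_map (f : R →+* S) (u : R) (n : ℕ) : (B2_C u n).map f = B2_C (f u) n := by
  ext i j
  simp only [B2_C, Matrix.map_apply, Matrix.of_apply]
  split_ifs <;> simp

theorem B2_isUnit_D {l z : R} (hl : IsUnit l) (hz : IsUnit z) (n : ℕ) : IsUnit (B2_D l z n) := by
  rw [Matrix.isUnit_iff_isUnit_det, B2_D, Matrix.det_diagonal, IsUnit.prod_univ_iff]
  exact fun j => hl.mul (hz.pow _)

theorem B2_isUnit_C (u : Rˣ) (n : ℕ) : IsUnit (B2_C (u : R) n) := by
  refine IsUnit.of_mul_eq_one_right (B2_C ((u⁻¹ : Rˣ) : R) n)ᵀ ?_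
  ext i j
  rw [B2_mul_C]
  simp only [B2_C, Matrix.transpose_apply, Matrix.of_apply, add_left_inj, Matrix.one_apply]
  by_cases h : i = j
  · subst h
    split_ifs <;> simp_all
  · simp [h, Ne.symm h]

theorem B2_rel (l u : R) {z : R} {n : ℕ} (hz : z ^ (n + 1) = 1) :
    B2_D l z n * B2_C u n = z • (B2_C u n * B2_D l z n) := by
  ext i j
  rw [Matrix.smul_apply, B2_D, Matrix.diagonal_mul, Matrix.mul_diagonal, smul_eq_mul]
  simp only [B2_C, Matrix.of_apply]
  split_ifs with h1 h2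
  · rw [h1, h2, Fin.last_add_one, Fin.val_last, Fin.val_zero]
    linear_combination (-(l * u)) * hz
  · rw [h1, Fin.val_add_one, if_neg h2]
    ring
  · simp

end Clock

theorem pbs_genus_one (L₀ : LR O) {m : ℕ} (ζ : Oˣ) (T : Fin 1 × Bool → G m ℂ) (hS : Simple T)
    (h : cprod T = scal ℂ m ζ) : LiftRep ζ T := by
  obtain ⟨n, rfl⟩ : ∃ n, m = n + 1 := ⟨m - 1, by have := hS.1; omega⟩
  have hζ := scal_pow_eq_one h
  have hz : ∀ (R : Type) [CommRing R] [Algebra O R], algebraMap O R ζ ^ (n + 1) = 1 :=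
    fun R _ _ => by rw [← map_pow, ← Units.val_pow_eq_pow_val, hζ, Units.val_one, map_one]
  set a := T (0, false) with ha
  set b := T (0, true) with hb
  have hv : ∀ v : Fin 1 × Bool, v = (0, false) ∨ v = (0, true) := by decide
  have hab : a.val * b.val = algebraMap O ℂ ζ • (b.val * a.val) := by
    rw [cprod_succ, cprod_zero, mul_one, comm, mul_inv_eq_iff_eq_mul, mul_inv_eq_iff_eq_mul] at h
    have := congrArg Units.val h
    rwa [mul_assoc, Units.val_mul, Units.val_mul, scal_mul_mat, Units.val_mul] at this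
  have habk : ∀ k : ℕ, a.val * b.val ^ k = algebraMap O ℂ ζ ^ k • (b.val ^ k * a.val) := by
    intro k
    induction k with
    | zero => simp
    | succ k ih =>
      rw [pow_succ, ← Matrix.mul_assoc, ih, Matrix.smul_mul, Matrix.mul_assoc, hab, Matrix.mul_smul,
        smul_smul, ← pow_succ, Matrix.mul_assoc]
  obtain ⟨μ, hμ⟩ := schur_scal hS (b.val ^ (n + 1)) (mem_Com.2 fun v => by
    rcases hv v with rfl | rfl
    · rw [habk, hz, one_smul]
    · exact (Commute.pow_self _ _).eq)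
  have hμ0 : μ ≠ 0 := by
    rintro rfl
    rw [zero_smul, ← Units.val_pow_eq_pow_val] at hμ
    exact Units.ne_zero _ hμ
  obtain ⟨l, hl⟩ := Module.End.exists_eigenvalue (Matrix.toLin' a.val)
  obtain ⟨x, hx⟩ := hl.exists_hasEigenvector
  have hx1 : a.val *ᵥ x = l • x := hx.apply_eq_smul
  have hl0 : l ≠ 0 := by
    rintro rfl
    have := congrArg ((a⁻¹).val *ᵥ ·) hx1
    simp only [Matrix.mulVec_mulVec, Units.inv_mul, Matrix.one_mulVec, zero_smul,
      Matrix.mulVec_zero] at this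
    exact hx.2 this
  let P : Mat ℂ (n + 1) (n + 1) := Matrix.of fun i j => (b.val ^ (j : ℕ) *ᵥ x) i
  have hP1 : a.val * P = P * B2_D l (algebraMap O ℂ ζ) n := by
    ext i j
    have e : (a.val * P) i j = (a.val *ᵥ (b.val ^ (j : ℕ) *ᵥ x)) i := rfl
    rw [e, Matrix.mulVec_mulVec, habk, Matrix.smul_mulVec, ← Matrix.mulVec_mulVec, hx1,
      Matrix.mulVec_smul, B2_D, Matrix.mul_diagonal]
    simp only [P, Matrix.of_apply, Pi.smul_apply, smul_eq_mul]
    ring
  have hP2 : b.val * P = P * B2_C μ n := by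
    ext i j
    have e : (b.val * P) i j = (b.val *ᵥ (b.val ^ (j : ℕ) *ᵥ x)) i := rfl
    rw [e, Matrix.mulVec_mulVec, ← pow_succ', B2_mul_C]
    simp only [P, Matrix.of_apply]
    split_ifs with hj
    · rw [hj, Fin.last_add_one, Fin.val_last, hμ, Matrix.smul_mulVec]
      simp [mul_comm]
    · rw [Fin.val_add_one, if_neg hj, mul_one]
  have hP : IsUnit P := by
    rw [← Matrix.mulVec_surjective_iff_isUnit]
    refine LinearMap.range_eq_top (f := P.mulVecLin).1 ((hS.2 _ ?_).resolve_left fun h0 => hx.2 ?_)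
    · rintro v _ ⟨y, rfl⟩
      rcases hv v with rfl | rfl
      · exact ⟨B2_D l (algebraMap O ℂ ζ) n *ᵥ y, by
          simp only [Matrix.mulVecLin_apply, Matrix.mulVec_mulVec, ← hP1, ha]⟩
      · exact ⟨B2_C μ n *ᵥ y, by
          simp only [Matrix.mulVecLin_apply, Matrix.mulVec_mulVec, ← hP2, hb]⟩
    · rw [← Submodule.mem_bot ℂ, ← h0]
      exact ⟨Pi.single 0 1, by ext i; simp [P]⟩
  obtain ⟨l', hl'⟩ := L₀.rich l hl0
  obtain ⟨μ', hμ'⟩ := L₀.rich μ hμ0
  have uD := B2_isUnit_D l'.isUnit ((ζ.isUnit.map (algebraMap O L₀.A))) n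
  have uC := B2_isUnit_C μ' n
  let T' : Fin 1 × Bool → G (n + 1) L₀.A := fun v => if v.2 then uC.unit else uD.unit
  have hT' : LiftRep ζ fun v => gmap L₀.t (T' v) := by
    refine ⟨L₀, T', fun _ => rfl, ?_⟩
    rw [cprod_succ, cprod_zero, mul_one, comm, mul_inv_eq_iff_eq_mul, mul_inv_eq_iff_eq_mul]
    ext1
    rw [mul_assoc, Units.val_mul, Units.val_mul, scal_mul_mat, Units.val_mul]
    exact B2_rel _ _ (hz _)
  convert liftRep_conj hT' hP.unit with v
  rw [eq_mul_inv_iff_mul_eq]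
  ext1
  rcases hv v with rfl | rfl
  · refine hP1.trans (congrArg (P * ·) ?_)
    show _ = (B2_D _ _ n).map L₀.t
    rw [B2_D_map, ← hl']
    congr 1
    exact (L₀.θ.commutes _).symm
  · refine hP2.trans (congrArg (P * ·) ?_)
    show _ = (B2_C _ n).map L₀.t
    rw [B2_C_map, ← hμ']
    rfl

end Crest.Agent.R3

end
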