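import Crest.Agent.R3.B2

set_option autoImplicit false

noncomputable section

namespace Crest.Agent.R3

open Matrix Filter Topology

/-! Twist flows and limits preserve liftability. -/

variable {O : Subring ℂ}

theorem B3b_of_GR {g m : ℕ} {ζ : Oˣ} {T : Fin g × Bool → G m ℂ} (L₀ : LR O) (L : GR O)
    (T' : Fin g × Bool → G m L.A) (h1 : ∀ v, gmap L.t (T' v) = T v)
    (h2 : cprod T' = scal L.A m ζ) : LiftRep ζ T := by
  obtain ⟨L₂, f₁, -, e₁, -⟩ := LR.prod L L₀
  refine ⟨L₂, fun v => gmap (f₁ : L.A →+* L₂.A) (T' v), fun v => ?_, ?_⟩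
  · rw [gmap_gmap, ← h1]
    congr 2
    exact RingHom.ext e₁
  · rw [← cprod_map, h2, gmap_scal]

theorem B3b_cprod_update {H : Type*} [Group H] {g : ℕ} (T : Fin (g + 1) × Bool → H) (h : H)
    (hc : Commute h (T (0, true))) :
    cprod (Function.update T (0, false) (T (0, false) * h)) = cprod T := by
  have e : tail (Function.update T (0, false) (T (0, false) * h)) = tail T := by
    funext v
    rw [tail_apply, tail_apply, Function.update_of_ne]
    exact fun h => Fin.succ_ne_zero _ (congrArg Prod.fst h)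
  rw [cprod_succ, cprod_succ, e, Function.update_self, Function.update_of_ne (by simp), comm, comm,
    mul_assoc _ h, hc.eq]
  group

theorem B3b_res {m : ℕ} {f : Polynomial ℂ} (hf : f.Monic) (hm : f.natDegree = m) :
    f.resultant f.derivative m m ≠ 0 ↔ f.Separable := by
  subst hm
  obtain ⟨k, hk⟩ := Nat.exists_eq_add_of_le
    ((Polynomial.natDegree_derivative_le f).trans (Nat.sub_le _ _))
  have h := Polynomial.resultant_add_right_deg f f.derivative f.natDegree _ k le_rfl
  rw [← hk, hf.coeff_natDegree, one_pow, one_mul] at h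
  rw [h, ← isUnit_iff_ne_zero, Polynomial.isUnit_resultant_iff_isCoprime hf]
  rfl

theorem B3b_test {A : Type*} [CommRing A] {m : ℕ} (b : Mat A m m) : ∃ Δ : A, ∀ φ : A →+* ℂ,
    φ Δ ≠ 0 ↔ (b.map φ).charpoly.Separable := by
  refine ⟨b.charpoly.resultant b.charpoly.derivative m m, fun φ => ?_⟩
  rw [← Polynomial.resultant_map_map, ← Polynomial.derivative_map, ← Matrix.charpoly_map,
    B3b_res (Matrix.charpoly_monic _) (by simp)]

theorem B3b_Phi {A : Type*} [CommRing A] {m : ℕ} (c : Fin m → ℂ) (a : MvPolynomial (Fin m) A) :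
    ∃ Φ : MvPolynomial A ℂ, ∀ φ : A →+* ℂ,
      MvPolynomial.eval φ Φ = MvPolynomial.eval₂ φ c a := by
  induction a using MvPolynomial.induction_on with
  | C r => exact ⟨MvPolynomial.X r, fun φ => by simp⟩
  | add p q hp hq =>
    obtain ⟨P, hP⟩ := hp
    obtain ⟨Q, hQ⟩ := hq
    exact ⟨P + Q, fun φ => by simp [hP, hQ]⟩
  | mul_X p i hp =>
    obtain ⟨P, hP⟩ := hp
    exact ⟨P * MvPolynomial.C (c i), fun φ => by simp [hP]⟩

/-- The generic polynomial in the matrix `b`. -/
def B3b_p {A : Type*} [CommRing A] {m : ℕ} (b : Mat A m m) : Mat (MvPolynomial (Fin m) A) m m :=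
  ∑ k : Fin m, (MvPolynomial.X k : MvPolynomial (Fin m) A) • (b.map MvPolynomial.C) ^ (k : ℕ)

theorem B3b_p_map {A S : Type*} [CommRing A] [CommRing S] {m : ℕ} (b : Mat A m m)
    (ψ : MvPolynomial (Fin m) A →+* S) : (B3b_p b).map ψ =
      ∑ k : Fin m, ψ (MvPolynomial.X k) • (b.map (ψ.comp MvPolynomial.C)) ^ (k : ℕ) := by
  rw [← RingHom.mapMatrix_apply, B3b_p, map_sum]
  refine Finset.sum_congr rfl fun k _ => ?_
  rw [RingHom.mapMatrix_apply, Matrix.map_smul' _ _ _ (map_mul ψ), ← RingHom.mapMatrix_apply,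
    map_pow]
  rfl

theorem B3b_unit {R : Type*} [CommRing R] {m : ℕ} (b : Mat R m m) (c : Fin m → R)
    (p' : Polynomial R)
    (h : b.charpoly ∣ (∑ k : Fin m, Polynomial.C (c k) * Polynomial.X ^ (k : ℕ)) * p' - 1) :
    IsUnit (∑ k : Fin m, c k • b ^ (k : ℕ)).det := by
  obtain ⟨q, hq⟩ := h
  have h1 := congrArg (Polynomial.aeval b) hq
  simp only [map_sub, map_mul, map_sum, map_pow, map_one, Polynomial.aeval_C, Polynomial.aeval_X,
    Matrix.aeval_self_charpoly, zero_mul, sub_eq_zero, ← Algebra.smul_def] at h1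
  exact Matrix.isUnit_det_of_right_inverse h1

theorem B3b_zcl {r m : ℕ} (hN : Nice O r) (L : GR O) (b : Mat L.A m m)
    (hsep : (b.map L.t).charpoly.Separable) (c : Fin m → ℂ) :
    ZCl ((fun (π : MvPolynomial (Fin m) L.A →ₐ[O] O) (a : MvPolynomial (Fin m) L.A) => (π a : ℂ)) ''
      {π | ∀ s ∈ Submonoid.powers (B3b_p b).det, IsUnit (π s)})
      (MvPolynomial.aevalTower L.θ c) := by
  intro P hP
  obtain ⟨Δ, hΔ⟩ := B3b_test b
  choose Φ hΦ using B3b_Phi (A := L.A) c
  have key := L.good (MvPolynomial.X Δ * MvPolynomial.bind₁ Φ P) (by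
    rintro _ ⟨π, rfl⟩
    let φ : L.A →+* ℂ := (algebraMap O ℂ).comp (π : L.A →+* O)
    show MvPolynomial.eval φ _ = 0
    rw [map_mul, MvPolynomial.eval_X, ZarA.eval_bind]
    refine mul_eq_zero.2 (or_iff_not_imp_left.2 fun h0 => ?_)
    have hs : ((b.map (π : L.A →+* O)).charpoly.map (algebraMap O ℂ)).Separable := by
      rw [← Matrix.charpoly_map]
      exact (hΔ φ).1 h0
    have hz := hN.dd m _ (Matrix.charpoly_monic _)
      (by rw [Matrix.charpoly_natDegree_eq_dim, Fintype.card_fin]) hs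
      (MvPolynomial.bind₁ (fun a => MvPolynomial.map φ a) P) (by
        rintro c' ⟨p', hp'⟩
        rw [ZarA.eval_bind]
        refine hP _ ⟨MvPolynomial.aevalTower π c', ?_, ?_⟩
        · rintro _ ⟨k, rfl⟩
          simp only [map_pow]
          refine IsUnit.pow k ?_
          have e := RingHom.map_det (MvPolynomial.aevalTower π c' : _ →+* O) (B3b_p b)
          rw [RingHom.mapMatrix_apply, B3b_p_map] at e
          have e2 : (MvPolynomial.aevalTower π c' : MvPolynomial (Fin m) L.A →+* O).comp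
              MvPolynomial.C = (π : L.A →+* O) := by
            ext a
            simp
          simp only [e2, RingHom.coe_coe, MvPolynomial.aevalTower_X] at e
          rw [e]
          exact B3b_unit _ c' p' hp'
        · funext a
          induction a using MvPolynomial.induction_on with
          | C r =>
            simp only [MvPolynomial.aevalTower_C, MvPolynomial.map_C, MvPolynomial.eval_C]
            rfl
          | add p q hp hq =>
            simp only [map_add, Subring.coe_add] at hp hq ⊢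
            rw [hp, hq]
          | mul_X p i hp =>
            simp only [map_mul, Subring.coe_mul, MvPolynomial.aevalTower_X, MvPolynomial.map_X,
              MvPolynomial.eval_X] at hp ⊢
            rw [hp])
    have h3 := congrArg (MvPolynomial.eval c) hz
    rw [ZarA.eval_bind, map_zero] at h3
    simpa only [hΦ, MvPolynomial.eval_map] using h3)
  have key' : MvPolynomial.eval L.t (MvPolynomial.X Δ * MvPolynomial.bind₁ Φ P) = 0 := key
  rw [map_mul, MvPolynomial.eval_X, ZarA.eval_bind] at key'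
  have h4 := (mul_eq_zero.1 key').resolve_left ((hΔ L.t).2 hsep)
  simp only [hΦ] at h4
  exact h4

/-- The entries of a representation and of its inverses. -/
def B3b_ent {R : Type*} [CommRing R] {g m : ℕ} (T : Fin g × Bool → G m R) :
    (Fin g × Bool) × Bool × Fin m × Fin m → R
  | (v, true, i, j) => (T v).val i j
  | (v, false, i, j) => ((T v)⁻¹).val i j

theorem B3b_ent_map {R S : Type*} [CommRing R] [CommRing S] (f : R →+* S) {g m : ℕ}
    (T : Fin g × Bool → G m R) (s : (Fin g × Bool) × Bool × Fin m × Fin m) :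
    B3b_ent (fun v => gmap f (T v)) s = f (B3b_ent T s) := by
  obtain ⟨v, _ | _, i, j⟩ := s <;> rfl

theorem liftRep_flow {r g m : ℕ} (hN : Nice O r) (ζ : Oˣ) (T : Fin (g + 1) × Bool → G m ℂ)
    (hsep : (T (0, true)).val.charpoly.Separable) (c : Fin m → ℂ) (h : G m ℂ)
    (hh : h.val = ∑ k : Fin m, c k • (T (0, true)).val ^ (k : ℕ)) (hT : LiftRep ζ T) :
    LiftRep ζ (Function.update T (0, false) (T (0, false) * h)) := by
  obtain ⟨L, T', h1, h2⟩ := hT
  have hb : (T' (0, true)).val.map L.t = (T (0, true)).val := congrArg Units.val (h1 (0, true))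
  let θ' : MvPolynomial (Fin m) L.A →ₐ[O] ℂ := MvPolynomial.aevalTower L.θ c
  have e2 : (θ' : MvPolynomial (Fin m) L.A →+* ℂ).comp MvPolynomial.C = L.t := by
    ext a
    simp [θ']
  have hp : (B3b_p (T' (0, true)).val).map (θ' : MvPolynomial (Fin m) L.A →+* ℂ) = h.val := by
    rw [B3b_p_map, e2, hb, hh]
    simp [θ']
  obtain ⟨L₁, f, hf, hu⟩ := good_loc (Submonoid.powers (B3b_p (T' (0, true)).val).det) θ' (by
    rintro _ ⟨k, rfl⟩
    simp only [map_pow]
    refine pow_ne_zero k ?_
    have e := RingHom.map_det (θ' : MvPolynomial (Fin m) L.A →+* ℂ) (B3b_p (T' (0, true)).val)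
    rw [RingHom.mapMatrix_apply, hp] at e
    exact e.trans_ne (Matrix.isUnits_det_units h).ne_zero)
    (B3b_zcl hN L.toGR _ (by rwa [hb]) c)
  let ψ : L.A →ₐ[O] L₁.A := f.comp (IsScalarTower.toAlgHom O L.A (MvPolynomial (Fin m) L.A))
  have hψ : (f : MvPolynomial (Fin m) L.A →+* L₁.A).comp MvPolynomial.C = ψ := rfl
  have hf' : L₁.t.comp (f : MvPolynomial (Fin m) L.A →+* L₁.A) = θ' := RingHom.ext hf
  have u : IsUnit ((B3b_p (T' (0, true)).val).map (f : MvPolynomial (Fin m) L.A →+* L₁.A)) := by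
    rw [Matrix.isUnit_iff_isUnit_det, ← RingHom.mapMatrix_apply, ← RingHom.map_det]
    exact hu _ (Submonoid.mem_powers _)
  have h3 : ∀ v, gmap L₁.t (gmap (ψ : L.A →+* L₁.A) (T' v)) = T v := fun v => by
    rw [gmap_gmap, ← hψ, ← RingHom.comp_assoc, hf', e2, h1]
  have h4 : gmap L₁.t u.unit = h := by
    ext1
    rw [gmap_val, IsUnit.unit_spec, Matrix.map_map, ← RingHom.coe_comp, hf', hp]
  refine B3b_of_GR L L₁ (Function.update (fun v => gmap (ψ : L.A →+* L₁.A) (T' v)) (0, false)
    (gmap (ψ : L.A →+* L₁.A) (T' (0, false)) * u.unit)) (fun v => ?_) ?_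
  · by_cases hv : v = (0, false)
    · rw [hv, Function.update_self, Function.update_self, map_mul, h3, h4]
    · rw [Function.update_of_ne hv, Function.update_of_ne hv, h3]
  · rw [B3b_cprod_update (fun v => gmap (ψ : L.A →+* L₁.A) (T' v)), ← cprod_map, h2, gmap_scal]
    refine Units.ext ?_
    rw [Units.val_mul, Units.val_mul, IsUnit.unit_spec, B3b_p_map, hψ, gmap_val]
    exact (Commute.sum_left _ _ _ fun k _ => (Commute.pow_self _ _).smul_left _).eq

theorem liftRep_closed {g m : ℕ} (ζ : Oˣ) (T : Fin g × Bool → G m ℂ)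
    (h : T ∈ closure {T' : Fin g × Bool → G m ℂ | LiftRep ζ T'}) : LiftRep ζ T := by
  obtain ⟨T₀, L₀, -⟩ := closure_nonempty_iff.1 ⟨T, h⟩
  let X : Set ((Fin g × Bool) × Bool × Fin m × Fin m → O) :=
    {y | ∃ S : Fin g × Bool → G m O, cprod S = scal O m ζ ∧ y = B3b_ent S}
  have hZ := ZCl.of_closure (X := (fun (y : _ → O) s => (y s : ℂ)) '' X) B3b_ent (by
    rintro ⟨v, _ | _, i, j⟩
    · exact (Units.continuous_coe_inv.comp (continuous_apply v)).matrix_elem i j
    · exact (Units.continuous_val.comp (continuous_apply v)).matrix_elem i j) (by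
    rintro S ⟨L, S', h1, h2⟩
    refine ZarA.pull' L.good (fun s => MvPolynomial.X (B3b_ent S' s)) (fun s => ?_) ?_
    · rw [MvPolynomial.eval_X, ← funext h1, B3b_ent_map]
      rfl
    · rintro _ ⟨π, rfl⟩
      refine ⟨_, ⟨fun v => gmap (π : L.A →+* O) (S' v), ?_, rfl⟩, funext fun s => ?_⟩
      · rw [← cprod_map, h2, gmap_scal]
      · simp only [MvPolynomial.eval_X, B3b_ent_map, RingHom.coe_coe]) h
  obtain ⟨L, x', π, e1, e2, e3⟩ := exists_univ X _ hZ
  have hext : ∀ M N : Mat L.A m m,
      (∀ y, M.map (π y : L.A →+* O) = N.map (π y : L.A →+* O)) → M = N := by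
    intro M N hMN
    ext i j
    refine sub_eq_zero.1 (e3 _ fun y => ?_)
    rw [map_sub, sub_eq_zero]
    exact congrFun (congrFun (hMN y) i) j
  let A : Fin g × Bool → Bool → Mat L.A m m := fun v e => Matrix.of fun i j => x' (v, e, i, j)
  choose S hS1 hS2 using fun y : X => y.2
  have hA : ∀ y v, (A v true).map (π y : L.A →+* O) = (S y v).val := fun y v => by
    ext i j
    exact congrArg _ ((e2 y _).trans (congrFun (hS2 y) _))
  have hA' : ∀ y v, (A v false).map (π y : L.A →+* O) = ((S y v)⁻¹).val := fun y v => by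
    ext i j
    exact congrArg _ ((e2 y _).trans (congrFun (hS2 y) _))
  let T' : Fin g × Bool → G m L.A := fun v => ⟨A v true, A v false,
    hext _ _ fun y => by
      rw [Matrix.map_mul, hA, hA', Units.mul_inv, Matrix.map_one _ (map_zero _) (map_one _)],
    hext _ _ fun y => by
      rw [Matrix.map_mul, hA, hA', Units.inv_mul, Matrix.map_one _ (map_zero _) (map_one _)]⟩
  refine B3b_of_GR L₀ L T' (fun v => ?_) (Units.ext (hext _ _ fun y => ?_))
  · ext i j
    exact e1 (v, true, i, j)
  · rw [← gmap_val, ← gmap_val, cprod_map, gmap_scal, ← hS1 y]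
    congr 2
    exact funext fun v => Units.ext (hA y v)

end Crest.Agent.R3

end
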