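import Crest.Agent.R3.Rep

set_option autoImplicit false

noncomputable section

namespace Crest.Agent.R3

open Matrix Filter Topology

/-! Burnside's theorem; simplicity is an open condition. -/

variable {ι : Type*} {m : ℕ}

theorem Burn_alg (A : Subalgebra ℂ (Mat ℂ m m)) (hm : 0 < m)
    (h : ∀ W : Submodule ℂ (Fin m → ℂ), (∀ a ∈ A, ∀ x ∈ W, a *ᵥ x ∈ W) → W = ⊥ ∨ W = ⊤)
    (X : Mat ℂ m m) : X ∈ A := by
  classical
  have : Nonempty (Fin m) := ⟨⟨0, hm⟩⟩
  have hsimp : IsSimpleModule A (Fin m → ℂ) := by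
    rw [isSimpleModule_iff]
    refine ⟨fun W => ?_⟩
    rcases h (W.restrictScalars ℂ) (fun a ha x hx => W.smul_mem (⟨a, ha⟩ : A) hx) with h0 | h1
    · left
      rw [eq_bot_iff]
      intro x hx
      exact (h0.le hx : x ∈ (⊥ : Submodule ℂ (Fin m → ℂ)))
    · right
      rw [eq_top_iff]
      intro x _
      exact (h1.ge Submodule.mem_top : x ∈ W.restrictScalars ℂ)
  have hs := (IsSimpleModule.algebraMap_end_bijective_of_isAlgClosed (A := A)
    (V := Fin m → ℂ) ℂ).2
  let f : Module.End (Module.End A (Fin m → ℂ)) (Fin m → ℂ) :=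
    { toFun := fun x => X *ᵥ x
      map_add' := fun x y => Matrix.mulVec_add X x y
      map_smul' := fun g x => by
        obtain ⟨c, rfl⟩ := hs g
        simp [Matrix.mulVec_smul] }
  obtain ⟨r, hr⟩ := jacobson_density f (Finset.univ.image fun j : Fin m => Pi.single j (1 : ℂ))
  have : X = r.1 := by
    ext i j
    have h1 : X *ᵥ Pi.single j (1 : ℂ) = r.1 *ᵥ Pi.single j (1 : ℂ) :=
      hr _ (Finset.mem_image.2 ⟨j, Finset.mem_univ _, rfl⟩)
    simpa using congrFun h1 i
  rw [this]
  exact r.2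

theorem Burn_word_mem {T : ι → G m ℂ} {W : Submodule ℂ (Fin m → ℂ)} (hW : Inv T W) (w : List ι) :
    ∀ x ∈ W, (w.map fun v => (T v).val).prod *ᵥ x ∈ W := by
  induction w with
  | nil => intro x hx; simpa using hx
  | cons v w ih =>
    intro x hx
    rw [List.map_cons, List.prod_cons, ← Matrix.mulVec_mulVec]
    exact hW v _ (ih x hx)

theorem burnside {T : ι → G m ℂ} (h : Simple T) :
    Submodule.span ℂ (Set.range fun w : List ι => (w.map fun v => (T v).val).prod) = ⊤ := by
  rw [eq_top_iff]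
  intro X _
  have hX : X ∈ Algebra.adjoin ℂ (Set.range fun v => (T v).val) :=
    Burn_alg _ h.1 (fun W hW => h.2 W fun v x hx =>
      hW _ (Algebra.subset_adjoin (Set.mem_range_self v)) x hx) X
  have hX' : X ∈ Subalgebra.toSubmodule (Algebra.adjoin ℂ (Set.range fun v => (T v).val)) := hX
  rw [Algebra.adjoin_eq_span] at hX'
  refine Submodule.span_mono ?_ hX'
  intro Y hY
  induction hY using Submonoid.closure_induction with
  | mem Y hY =>
    obtain ⟨v, rfl⟩ := hY
    exact ⟨[v], by simp⟩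
  | one => exact ⟨[], by simp⟩
  | mul Y Z _ _ hY hZ =>
    obtain ⟨w, rfl⟩ := hY
    obtain ⟨w', rfl⟩ := hZ
    exact ⟨w ++ w', by simp⟩

theorem simple_of_span {T : ι → G m ℂ} (hm : 0 < m)
    (h : Submodule.span ℂ (Set.range fun w : List ι => (w.map fun v => (T v).val).prod) = ⊤) :
    Simple T := by
  refine ⟨hm, fun W hW => ?_⟩
  have hall : ∀ X : Mat ℂ m m, ∀ x ∈ W, X *ᵥ x ∈ W := by
    intro X x hx
    have hX : X ∈ Submodule.span ℂ
        (Set.range fun w : List ι => (w.map fun v => (T v).val).prod) := h.ge Submodule.mem_top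
    induction hX using Submodule.span_induction with
    | mem Y hY =>
      obtain ⟨w, rfl⟩ := hY
      exact Burn_word_mem hW w x hx
    | zero => rw [Matrix.zero_mulVec]; exact W.zero_mem
    | add Y Z _ _ hY hZ => rw [Matrix.add_mulVec]; exact W.add_mem hY hZ
    | smul c Y _ hY => rw [Matrix.smul_mulVec]; exact W.smul_mem c hY
  by_cases h0 : W = ⊥
  · exact Or.inl h0
  · right
    obtain ⟨x, hx, hne⟩ := Submodule.exists_mem_ne_zero_of_ne_bot h0
    obtain ⟨j, hj⟩ := Function.ne_iff.1 hne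
    have hj' : x j ≠ 0 := hj
    rw [eq_top_iff]
    intro y _
    have h1 := hall (Matrix.vecMulVec y (Pi.single j (x j)⁻¹)) x hx
    have h2 : Matrix.vecMulVec y (Pi.single j (x j)⁻¹) *ᵥ x = y := by
      rw [Matrix.vecMulVec_mulVec, single_dotProduct, inv_mul_cancel₀ hj']
      simp
    rwa [h2] at h1

theorem Burn_span_of_det (P : Submodule ℂ (Mat ℂ m m)) (B : Fin m × Fin m → Mat ℂ m m)
    (hB : ∀ p, B p ∈ P)
    (hdet : (Matrix.of fun p q : Fin m × Fin m => B p q.1 q.2).det ≠ 0) : P = ⊤ := by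
  set N : Matrix (Fin m × Fin m) (Fin m × Fin m) ℂ := Matrix.of fun p q => B p q.1 q.2 with hN
  have hinv : N⁻¹ * N = 1 := Matrix.nonsing_inv_mul N (Ne.isUnit hdet)
  rw [eq_top_iff]
  intro X _
  have hX : X = ∑ p, ((fun q : Fin m × Fin m => X q.1 q.2) ᵥ* N⁻¹) p • B p := by
    ext k l
    have h1 : ((fun q : Fin m × Fin m => X q.1 q.2) ᵥ* N⁻¹) ᵥ* N
        = fun q : Fin m × Fin m => X q.1 q.2 := by
      rw [Matrix.vecMul_vecMul, hinv, Matrix.vecMul_one]
    have h2 := congrFun h1 (k, l)
    rw [← h2, Matrix.sum_apply]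
    rfl
  rw [hX]
  exact P.sum_mem fun p _ => P.smul_mem _ (hB p)

theorem Burn_coeff {T : ι → G m ℂ} (h : Simple T) :
    ∃ (s : Fin m × Fin m → Finset (List ι)) (c : Fin m × Fin m → List ι → ℂ),
      ∀ p, ∑ w ∈ s p, c p w • (w.map fun v => (T v).val).prod = Matrix.single p.1 p.2 1 := by
  have h1 : ∀ p : Fin m × Fin m, ∃ c : List ι →₀ ℂ,
      (c.sum fun w a => a • (w.map fun v => (T v).val).prod) = Matrix.single p.1 p.2 1 :=
    fun p => Finsupp.mem_span_range_iff_exists_finsupp.1 ((burnside h).ge Submodule.mem_top)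
  choose c hc using h1
  exact ⟨fun p => (c p).support, fun p w => c p w, hc⟩

theorem Burn_det_single :
    (Matrix.of fun p q : Fin m × Fin m =>
      (Matrix.single p.1 p.2 (1 : ℂ) : Mat ℂ m m) q.1 q.2).det = 1 := by
  have : (Matrix.of fun p q : Fin m × Fin m =>
      (Matrix.single p.1 p.2 (1 : ℂ) : Mat ℂ m m) q.1 q.2) = 1 := by
    ext p q
    simp [Matrix.single, Matrix.one_apply, Prod.ext_iff]
  rw [this, Matrix.det_one]

theorem Burn_map_word {A : Type*} [CommRing A] (π : A →+* ℂ) (T : ι → G m A) (w : List ι) :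
    ((w.map fun v => (T v).val).prod).map π = (w.map fun v => (gmap π (T v)).val).prod := by
  induction w with
  | nil => simp
  | cons v w ih =>
    rw [List.map_cons, List.prod_cons, Matrix.map_mul, ih, List.map_cons, List.prod_cons,
      gmap_val]

theorem Burn_map_det {A : Type*} [CommRing A] (π : A →+* ℂ) (T : ι → G m A)
    (s : Fin m × Fin m → Finset (List ι)) (c : Fin m × Fin m → List ι → A) :
    π (Matrix.of fun p q : Fin m × Fin m =>
        (∑ w ∈ s p, c p w • (w.map fun v => (T v).val).prod) q.1 q.2).det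
      = (Matrix.of fun p q : Fin m × Fin m =>
        (∑ w ∈ s p, π (c p w) • (w.map fun v => (gmap π (T v)).val).prod) q.1 q.2).det := by
  rw [RingHom.map_det]
  congr 1
  ext p q
  simp only [RingHom.mapMatrix_apply, Matrix.map_apply, Matrix.of_apply, Matrix.sum_apply,
    Matrix.smul_apply, smul_eq_mul, map_sum, map_mul, ← Burn_map_word]

theorem Burn_simple_of_det {T : ι → G m ℂ} (hm : 0 < m)
    (s : Fin m × Fin m → Finset (List ι)) (c : Fin m × Fin m → List ι → ℂ)
    (h : (Matrix.of fun p q : Fin m × Fin m =>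
        (∑ w ∈ s p, c p w • (w.map fun v => (T v).val).prod) q.1 q.2).det ≠ 0) : Simple T :=
  simple_of_span hm (Burn_span_of_det _
    (fun p => ∑ w ∈ s p, c p w • (w.map fun v => (T v).val).prod)
    (fun _ => Submodule.sum_mem _ fun w _ =>
      Submodule.smul_mem _ _ (Submodule.subset_span ⟨w, rfl⟩)) h)

theorem simple_test {A : Type*} [CommRing A] (θ : A →+* ℂ) (hθ : Function.Surjective θ)
    (T : ι → G m A) (h : Simple fun v => gmap θ (T v)) :
    ∃ Δ : A, θ Δ ≠ 0 ∧ ∀ π : A →+* ℂ, π Δ ≠ 0 → Simple fun v => gmap π (T v) := by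
  obtain ⟨s, c, hc⟩ := Burn_coeff h
  choose g hg using hθ
  refine ⟨(Matrix.of fun p q : Fin m × Fin m =>
      (∑ w ∈ s p, g (c p w) • (w.map fun v => (T v).val).prod) q.1 q.2).det, ?_, fun π hπ => ?_⟩
  · rw [Burn_map_det θ T s fun p w => g (c p w)]
    simp only [hg, hc]
    rw [Burn_det_single]
    exact one_ne_zero
  · rw [Burn_map_det π T s fun p w => g (c p w)] at hπ
    exact Burn_simple_of_det h.1 s (fun p w => π (g (c p w))) hπ

theorem Burn_cont_word (w : List ι) :
    Continuous fun T : ι → G m ℂ => (w.map fun v => (T v).val).prod := by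
  induction w with
  | nil => simpa using continuous_const
  | cons v w ih =>
    simp only [List.map_cons, List.prod_cons]
    exact (Units.continuous_val.comp (continuous_apply v)).mul ih

theorem simple_open {T : ι → G m ℂ} (h : Simple T) : ∀ᶠ T' in 𝓝 T, Simple T' := by
  obtain ⟨s, c, hc⟩ := Burn_coeff h
  have hcont : Continuous fun T' : ι → G m ℂ => (Matrix.of fun p q : Fin m × Fin m =>
      (∑ w ∈ s p, c p w • (w.map fun v => (T' v).val).prod) q.1 q.2).det := by
    refine Continuous.matrix_det (continuous_matrix fun p q => ?_)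
    have h1 : Continuous fun T' : ι → G m ℂ =>
        ∑ w ∈ s p, c p w • (w.map fun v => (T' v).val).prod :=
      continuous_finsetSum _ fun w _ => (Burn_cont_word w).const_smul (c p w)
    exact h1.matrix_elem q.1 q.2
  have hne : (Matrix.of fun p q : Fin m × Fin m =>
      (∑ w ∈ s p, c p w • (w.map fun v => (T v).val).prod) q.1 q.2).det ≠ 0 := by
    simp only [hc]
    rw [Burn_det_single]
    exact one_ne_zero
  filter_upwards [hcont.continuousAt.eventually_ne hne] with T' hT'
  exact Burn_simple_of_det h.1 s c hT'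

end Crest.Agent.R3

end
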