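import Crest.Agent.R3.Defs

set_option autoImplicit false

noncomputable section

namespace Crest.Agent.R3

open Matrix Filter Topology

/-! Basic facts on split exact sequences and grids. -/

variable {R S : Type*} [CommRing R] [CommRing S] {a b n : ℕ}

theorem Ex.Sim.refl (e : Ex R a b n) : e.Sim e := ⟨rfl, rfl⟩
theorem Ex.Sim.symm {e e' : Ex R a b n} (h : e.Sim e') : e'.Sim e := ⟨h.1.symm, h.2.symm⟩
theorem Ex.Sim.trans {e e' e'' : Ex R a b n} (h : e.Sim e') (h' : e'.Sim e'') : e.Sim e'' :=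
  ⟨h.1.trans h'.1, h.2.trans h'.2⟩
theorem Ex.Sim.of_eq {e e' : Ex R a b n} (h : e = e') : e.Sim e' := h ▸ Ex.Sim.refl e
theorem Ex.Sim.map {e e' : Ex R a b n} (h : e.Sim e') (f : R →+* S) :
    (e.map f).Sim (e'.map f) := ⟨by simp [h.1], by simp [h.2]⟩
theorem Ex.Sim.twist {e e' : Ex R a b n} (h : e.Sim e') (m : G n R) (s : G a R) (q : G b R) :
    (e.twist m s q).Sim (e'.twist m s q) :=
  ⟨by rw [Ex.twist_i, Ex.twist_i, h.1], by rw [Ex.twist_p, Ex.twist_p, h.2]⟩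

theorem Ex.twist_one (e : Ex R a b n) : e.twist 1 1 1 = e := by
  ext1 <;> simp

theorem Ex.twist_twist (e : Ex R a b n) (m m' : G n R) (s s' : G a R) (q q' : G b R) :
    (e.twist m s q).twist m' s' q' = e.twist (m' * m) (s * s') (q * q') := by
  ext1 <;> simp only [Ex.twist_i, Ex.twist_p, Ex.twist_r, Ex.twist_s, _root_.mul_inv_rev,
    Units.val_mul, Matrix.mul_assoc]

theorem Ex.map_twist (f : R →+* S) (e : Ex R a b n) (m : G n R) (s : G a R) (q : G b R) :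
    (e.twist m s q).map f = (e.map f).twist (gmap f m) (gmap f s) (gmap f q) := by
  ext1 <;> simp only [Ex.twist_i, Ex.twist_p, Ex.twist_r, Ex.twist_s, Ex.map_i, Ex.map_p,
    Ex.map_r, Ex.map_s, Matrix.map_mul, gmap_val, gmap_inv_val]

theorem Ex.map_std (f : R →+* S) (h : a + b = n) : (Ex.std R h).map f = Ex.std S h := by
  ext x y <;> simp [Ex.std, stdI, stdP, apply_ite f]

theorem Ex.map_map {T : Type*} [CommRing T] (f : R →+* S) (g : S →+* T) (e : Ex R a b n) :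
    (e.map f).map g = e.map (g.comp f) := rfl

theorem gmap_gmap {T : Type*} [CommRing T] (f : R →+* S) (g : S →+* T) (x : G n R) :
    gmap g (gmap f x) = gmap (g.comp f) x := rfl

@[simp] theorem Ex.std_i_S (h : n + 0 = n) : (Ex.std R h).i = 1 := by
  ext x y; simp [Ex.std, stdI, Matrix.one_apply, Fin.ext_iff]
@[simp] theorem Ex.std_r_S (h : n + 0 = n) : (Ex.std R h).r = 1 := by
  ext x y; simp [Ex.std, stdI, Matrix.one_apply, Fin.ext_iff, eq_comm]
@[simp] theorem Ex.std_p_Q (h : 0 + n = n) : (Ex.std R h).p = 1 := by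
  ext x y; simp [Ex.std, stdP, Matrix.one_apply, Fin.ext_iff, eq_comm]
@[simp] theorem Ex.std_s_Q (h : 0 + n = n) : (Ex.std R h).s = 1 := by
  ext x y; simp [Ex.std, stdP, Matrix.one_apply, Fin.ext_iff]

@[simp] theorem Ex.glS_val (e : Ex R n 0 n) : e.glS.val = e.i := rfl
@[simp] theorem Ex.glQ_val (e : Ex R 0 n n) : e.glQ.val = e.s := rfl
theorem Ex.glS_inv_val (e : Ex R n 0 n) : (e.glS⁻¹).val = e.r := rfl
theorem Ex.glQ_inv_val (e : Ex R 0 n n) : (e.glQ⁻¹).val = e.p := rfl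

theorem Ex.glS_ofS (g : G n R) : (Ex.ofS g).glS = g := by
  ext1; simp [Ex.ofS]
theorem Ex.glQ_ofQ (g : G n R) : (Ex.ofQ g).glQ = g := by
  ext1; simp [Ex.ofQ]
theorem Ex.glS_map (f : R →+* S) (e : Ex R n 0 n) : (e.map f).glS = gmap f e.glS := rfl
theorem Ex.glQ_map (f : R →+* S) (e : Ex R 0 n n) : (e.map f).glQ = gmap f e.glQ := rfl

theorem Ex.sim_iff_glS (e e' : Ex R n 0 n) : e.Sim e' ↔ e.glS = e'.glS :=
  ⟨fun h => Units.ext h.1, fun h => ⟨congrArg Units.val h, Subsingleton.elim _ _⟩⟩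

theorem Ex.sim_iff_glQ (e e' : Ex R 0 n n) : e.Sim e' ↔ e.glQ = e'.glQ :=
  ⟨fun h => inv_injective (Units.ext h.2),
    fun h => ⟨Subsingleton.elim _ _, congrArg (fun g : G n R => (g⁻¹).val) h⟩⟩

theorem Ex.fac_i (e : Ex R a b n) {k : ℕ} (f : Mat R n k) (h : e.p * f = 0) :
    f = e.i * (e.r * f) := by
  calc f = (e.i * e.r + e.s * e.p) * f := by rw [e.tot, Matrix.one_mul]
    _ = _ := by rw [Matrix.add_mul, Matrix.mul_assoc, Matrix.mul_assoc, h, Matrix.mul_zero,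
      add_zero]

theorem Ex.fac_p (e : Ex R a b n) {k : ℕ} (f : Mat R k n) (h : f * e.i = 0) :
    f = f * e.s * e.p := by
  calc f = f * (e.i * e.r + e.s * e.p) := by rw [e.tot, Matrix.mul_one]
    _ = _ := by rw [Matrix.mul_add, ← Matrix.mul_assoc, ← Matrix.mul_assoc, h, Matrix.zero_mul,
      zero_add]

theorem Ex.i_cancel (e : Ex R a b n) {k : ℕ} {X Y : Mat R a k} (h : e.i * X = e.i * Y) :
    X = Y := by
  calc X = e.r * (e.i * X) := by rw [← Matrix.mul_assoc, e.ri, Matrix.one_mul]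
    _ = Y := by rw [h, ← Matrix.mul_assoc, e.ri, Matrix.one_mul]

theorem Ex.p_cancel (e : Ex R a b n) {k : ℕ} {X Y : Mat R k b} (h : X * e.p = Y * e.p) :
    X = Y := by
  calc X = X * e.p * e.s := by rw [Matrix.mul_assoc, e.ps, Matrix.mul_one]
    _ = Y := by rw [h, Matrix.mul_assoc, e.ps, Matrix.mul_one]

theorem Ex.exists_of (h : a + b = n) (i : Mat R n a) (p : Mat R b n) (r : Mat R a n)
    (s : Mat R n b) (ri : r * i = 1) (ps : p * s = 1) (pi : p * i = 0) :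
    ∃ e : Ex R a b n, e.i = i ∧ e.p = p := by
  have h1 : (r - r * s * p) * i = 1 := by
    rw [Matrix.sub_mul, ri, Matrix.mul_assoc, pi, Matrix.mul_zero, sub_zero]
  have h2 : (r - r * s * p) * s = 0 := by
    rw [Matrix.sub_mul, Matrix.mul_assoc (r * s), ps, Matrix.mul_one, sub_self]
  have h3 : fromRows (r - r * s * p) p * fromCols i s = 1 := by
    rw [fromRows_mul_fromCols, h1, h2, ps, pi, fromBlocks_one]
  subst h
  rw [← fromCols_mul_fromRows_eq_one_comm finSumFinEquiv.symm, fromCols_mul_fromRows] at h3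
  exact ⟨⟨i, p, r - r * s * p, s, h1, ps, pi, h2, h3⟩, rfl, rfl⟩

theorem Ex.dim (e : Ex ℂ a b n) : a + b = n := by
  have h := congrArg Matrix.trace e.tot
  rw [trace_add, trace_mul_comm e.i, trace_mul_comm e.s, e.ri, e.ps, trace_one, trace_one,
    trace_one, Fintype.card_fin, Fintype.card_fin, Fintype.card_fin] at h
  exact_mod_cast h

theorem exists_left_inv {k : ℕ} (i : Mat ℂ n k) (h : ∀ x, i *ᵥ x = 0 → x = 0) :
    ∃ r : Mat ℂ k n, r * i = 1 := by
  obtain ⟨g, hg⟩ := LinearMap.exists_leftInverse_of_injective (Matrix.toLin' i)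
    (LinearMap.ker_eq_bot'.2 h)
  refine ⟨LinearMap.toMatrix' g, Matrix.toLin'.injective ?_⟩
  rw [Matrix.toLin'_mul, Matrix.toLin'_toMatrix', hg, Matrix.toLin'_one]

theorem exists_right_inv {k : ℕ} (p : Mat ℂ k n) (h : ∀ y, ∃ x, p *ᵥ x = y) :
    ∃ s : Mat ℂ n k, p * s = 1 := by
  obtain ⟨g, hg⟩ := LinearMap.exists_rightInverse_of_surjective (Matrix.toLin' p)
    (LinearMap.range_eq_top.2 h)
  refine ⟨LinearMap.toMatrix' g, Matrix.toLin'.injective ?_⟩
  rw [Matrix.toLin'_mul, Matrix.toLin'_toMatrix', hg, Matrix.toLin'_one]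

theorem ExB_sub (W : Submodule ℂ (Fin n → ℂ)) :
    ∃ (b : ℕ) (e : Ex ℂ (Module.finrank ℂ W) b n),
      (∀ x, x ∈ W ↔ ∃ y, e.i *ᵥ y = x) ∧ ∀ x, x ∈ W ↔ e.p *ᵥ x = 0 := by
  obtain ⟨W', h⟩ := W.exists_isCompl
  let φ := (Module.finBasis ℂ W).equivFun
  let ψ := (Module.finBasis ℂ W').equivFun
  refine ⟨_, ⟨LinearMap.toMatrix' (W.subtype ∘ₗ φ.symm.toLinearMap),
    LinearMap.toMatrix' (ψ.toLinearMap ∘ₗ W'.projectionOnto W h.symm),
    LinearMap.toMatrix' (φ.toLinearMap ∘ₗ W.projectionOnto W' h),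
    LinearMap.toMatrix' (W'.subtype ∘ₗ ψ.symm.toLinearMap), ?_, ?_, ?_, ?_, ?_⟩, fun x => ?_,
    fun x => ?_⟩
  · rw [← LinearMap.toMatrix'_comp, ← LinearMap.toMatrix'_id]
    congr 1
    exact LinearMap.ext fun x => by simp
  · rw [← LinearMap.toMatrix'_comp, ← LinearMap.toMatrix'_id]
    congr 1
    exact LinearMap.ext fun x => by simp
  · rw [← LinearMap.toMatrix'_comp, ← map_zero LinearMap.toMatrix']
    congr 1
    exact LinearMap.ext fun x => by simp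
  · rw [← LinearMap.toMatrix'_comp, ← map_zero LinearMap.toMatrix']
    congr 1
    exact LinearMap.ext fun x => by simp
  · rw [← LinearMap.toMatrix'_comp, ← LinearMap.toMatrix'_comp, ← map_add,
      ← LinearMap.toMatrix'_id]
    congr 1
    refine LinearMap.ext fun x => ?_
    simpa using Submodule.projection_add_projection_eq_self h x
  · simp only [LinearMap.toMatrix'_mulVec]
    exact ⟨fun hx => ⟨φ ⟨x, hx⟩, by simp⟩, fun ⟨y, hy⟩ => hy ▸ (φ.symm y).2⟩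
  · simp only [LinearMap.toMatrix'_mulVec]
    simp

/-- The transposed sequence. -/
def ExB_tr (e : Ex R a b n) : Ex R b a n where
  i := e.pᵀ
  p := e.iᵀ
  r := e.sᵀ
  s := e.rᵀ
  ri := by rw [← transpose_mul, e.ps, transpose_one]
  ps := by rw [← transpose_mul, e.ri, transpose_one]
  pi := by rw [← transpose_mul, e.pi, transpose_zero]
  rs := by rw [← transpose_mul, e.rs, transpose_zero]
  tot := by
    rw [← transpose_mul, ← transpose_mul, ← transpose_add, add_comm, e.tot, transpose_one]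

theorem Ex.exists_of_inj (i : Mat ℂ n a) (r : Mat ℂ a n) (h : r * i = 1) :
    ∃ (b : ℕ) (e : Ex ℂ a b n), e.i = i := by
  obtain ⟨b, e, -, h2⟩ := ExB_sub (LinearMap.range (Matrix.toLin' i))
  have hi : Function.Injective (Matrix.toLin' i) := fun x y hxy => by
    have := congrArg (r *ᵥ ·) hxy
    simpa only [Matrix.toLin'_apply, mulVec_mulVec, h, one_mulVec] using this
  have hd := e.dim
  rw [LinearMap.finrank_range_of_inj hi, Module.finrank_fin_fun] at hd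
  have hp : e.p * i = 0 := by
    refine Matrix.toLin'.injective (LinearMap.ext fun y => ?_)
    rw [Matrix.toLin'_apply, ← mulVec_mulVec, map_zero, LinearMap.zero_apply]
    exact (h2 _).1 ⟨y, rfl⟩
  obtain ⟨e', h3, -⟩ := Ex.exists_of hd i e.p r e.s h e.ps hp
  exact ⟨b, e', h3⟩

theorem Ex.exists_of_surj (p : Mat ℂ b n) (s : Mat ℂ n b) (h : p * s = 1) :
    ∃ (a : ℕ) (e : Ex ℂ a b n), e.p = p := by
  obtain ⟨a, e, he⟩ := Ex.exists_of_inj pᵀ sᵀ (by rw [← transpose_mul, h, transpose_one])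
  exact ⟨a, ExB_tr e, (congrArg transpose he).trans (transpose_transpose p)⟩

/-- A subspace is the image of the `i` of some sequence. -/
theorem Ex.exists_of_submodule (W : Submodule ℂ (Fin n → ℂ)) :
    ∃ (a b : ℕ) (e : Ex ℂ a b n), a = Module.finrank ℂ W ∧
      (∀ x, x ∈ W ↔ ∃ y, e.i *ᵥ y = x) ∧ ∀ x, x ∈ W ↔ e.p *ᵥ x = 0 := by
  obtain ⟨b, e, h⟩ := ExB_sub W
  exact ⟨_, b, e, rfl, h⟩

/-- Rank factorisation. -/
theorem exists_rank_fac {k : ℕ} (M : Mat ℂ k n) :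
    ∃ (a c d : ℕ) (e : Ex ℂ a c n) (e' : Ex ℂ c d k), M = e'.i * e.p := by
  obtain ⟨c, e, h1, h2⟩ := ExB_sub (LinearMap.ker (Matrix.toLin' M))
  have hi : M * e.i = 0 := by
    refine Matrix.toLin'.injective (LinearMap.ext fun y => ?_)
    rw [Matrix.toLin'_apply, ← mulVec_mulVec, map_zero, LinearMap.zero_apply]
    exact (h1 _).2 ⟨y, rfl⟩
  obtain ⟨r, hr⟩ := exists_left_inv (M * e.s) fun y hy => by
    rw [← mulVec_mulVec] at hy
    have := (h2 _).1 hy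
    rwa [mulVec_mulVec, e.ps, one_mulVec] at this
  obtain ⟨d, e', he'⟩ := Ex.exists_of_inj _ r hr
  exact ⟨_, c, d, e, e', by rw [he']; exact e.fac_p M hi⟩

section Grid
variable {n11 n12 n13 n21 n22 n23 n31 n32 n33 : ℕ}
  {r1 r1' : Ex R n11 n13 n12} {r2 r2' : Ex R n21 n23 n22} {r3 r3' : Ex R n31 n33 n32}
  {c1 c1' : Ex R n11 n31 n21} {c2 c2' : Ex R n12 n32 n22} {c3 c3' : Ex R n13 n33 n23}

theorem Grid0.congr (H : Grid0 r1 r2 r3 c1 c2 c3) (h1 : r1.Sim r1') (h2 : r2.Sim r2')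
    (h3 : r3.Sim r3') (k1 : c1.Sim c1') (k2 : c2.Sim c2') (k3 : c3.Sim c3') :
    Grid0 r1' r2' r3' c1' c2' c3' :=
  ⟨by rw [← k2.1, ← h1.1, ← h2.1, ← k1.1, H.ii], by rw [← h2.2, ← k2.1, ← k3.1, ← h1.2, H.pi],
    by rw [← k2.2, ← h2.1, ← h3.1, ← k1.2, H.ip], by rw [← k3.2, ← h2.2, ← h3.2, ← k2.2, H.pp]⟩

theorem Grid0.map (H : Grid0 r1 r2 r3 c1 c2 c3) (f : R →+* S) :
    Grid0 (r1.map f) (r2.map f) (r3.map f) (c1.map f) (c2.map f) (c3.map f) :=
  ⟨by simp only [Ex.map_i, ← Matrix.map_mul, H.ii],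
    by simp only [Ex.map_i, Ex.map_p, ← Matrix.map_mul, H.pi],
    by simp only [Ex.map_i, Ex.map_p, ← Matrix.map_mul, H.ip],
    by simp only [Ex.map_p, ← Matrix.map_mul, H.pp]⟩

theorem Grid0.tr (H : Grid0 r1 r2 r3 c1 c2 c3) : Grid0 c1 c2 c3 r1 r2 r3 :=
  ⟨H.ii.symm, H.ip, H.pi, H.pp.symm⟩

theorem ExB_inv_mul {k : ℕ} (g : G n R) (X : Mat R n k) : (g⁻¹).val * (g.val * X) = X := by
  rw [← Matrix.mul_assoc, Units.inv_mul, Matrix.one_mul]

theorem ExB_eq_iff_r {k : ℕ} (g : G n R) (X Y : Mat R k n) :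
    X * g.val = Y ↔ X = Y * (g⁻¹).val :=
  ⟨fun h => by rw [← h, Matrix.mul_assoc, Units.mul_inv, Matrix.mul_one],
    fun h => by rw [h, Matrix.mul_assoc, Units.inv_mul, Matrix.mul_one]⟩

theorem ExB_eq_iff_l {k : ℕ} (g : G n R) (X Y : Mat R n k) :
    (g⁻¹).val * X = Y ↔ X = g.val * Y :=
  ⟨fun h => by rw [← h, ← Matrix.mul_assoc, Units.mul_inv, Matrix.one_mul],
    fun h => by rw [h, ExB_inv_mul]⟩

/-- Twisting the middle cell. -/
theorem Grid0.twist_mid (H : Grid0 r1 r2 r3 c1 c2 c3) (φ : G n22 R) :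
    Grid0 r1 (r2.twist φ 1 1) r3 c1 (c2.twist φ 1 1) c3 := by
  refine ⟨?_, ?_, ?_, ?_⟩ <;>
    simp only [Ex.twist_i, Ex.twist_p, inv_one, Units.val_one, Matrix.mul_one, Matrix.one_mul,
      Matrix.mul_assoc, ExB_inv_mul]
  · rw [H.ii]
  · exact H.pi
  · exact H.ip
  · rw [← Matrix.mul_assoc, ← Matrix.mul_assoc, H.pp]

/-- Moving the twists of the middle column to the outer rows. -/
theorem Grid0.push_c2 (σ : G n12 R) (κ : G n32 R) :
    Grid0 r1 r2 r3 c1 (c2.twist 1 σ κ) c3 ↔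
      Grid0 (r1.twist σ 1 1) r2 (r3.twist κ 1 1) c1 c2 c3 := by
  have k1 : (c2.twist 1 σ κ).i * r1.i = c2.i * (r1.twist σ 1 1).i := by
    simp only [Ex.twist_i, Units.val_one, Matrix.mul_one, Matrix.one_mul, Matrix.mul_assoc]
  have k2 : r2.p * (c2.twist 1 σ κ).i = c3.i * r1.p ↔
      r2.p * c2.i = c3.i * (r1.twist σ 1 1).p := by
    simp only [Ex.twist_i, Ex.twist_p, inv_one, Units.val_one, Matrix.one_mul,
      ← Matrix.mul_assoc, ExB_eq_iff_r]
  have k3 : (c2.twist 1 σ κ).p * r2.i = r3.i * c1.p ↔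
      c2.p * r2.i = (r3.twist κ 1 1).i * c1.p := by
    simp only [Ex.twist_i, Ex.twist_p, inv_one, Units.val_one, Matrix.mul_one,
      Matrix.mul_assoc, ExB_eq_iff_l]
  have k4 : r3.p * (c2.twist 1 σ κ).p = (r3.twist κ 1 1).p * c2.p := by
    simp only [Ex.twist_p, inv_one, Units.val_one, Matrix.mul_one, Matrix.one_mul,
      Matrix.mul_assoc]
  exact ⟨fun H => ⟨k1 ▸ H.ii, k2.1 H.pi, k3.1 H.ip, k4 ▸ H.pp⟩,
    fun H => ⟨k1 ▸ H.ii, k2.2 H.pi, k3.2 H.ip, k4 ▸ H.pp⟩⟩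

end Grid

end Crest.Agent.R3

end
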