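import Crest.Agent.R3.Zar
import Crest.Agent.R3.ExB

set_option autoImplicit false

noncomputable section

namespace Crest.Agent.R3

open Matrix Filter Topology

/-! Lifting matrices, test elements, kernels. -/

variable {O : Subring ℂ}

theorem LR.surj (L : LR O) : Function.Surjective L.t := by
  intro c
  by_cases hc : c = 0
  · exact ⟨0, by rw [hc, map_zero]⟩
  · obtain ⟨u, hu⟩ := L.rich c hc
    exact ⟨u, hu⟩

theorem lift_mat {A B : Type*} [CommRing A] [CommRing B] (θ : A →+* B)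
    (hθ : Function.Surjective θ) {m n : Type*} (M : Matrix m n B) :
    ∃ M' : Matrix m n A, M'.map θ = M := by
  choose f hf using hθ
  exact ⟨M.map f, by ext i j; exact hf _⟩

theorem LR.lift_unit (L : LR O) (c : ℂˣ) : ∃ u : (L.A)ˣ, L.t (u : L.A) = c ∧
    L.t ((u⁻¹ : (L.A)ˣ) : L.A) = (c⁻¹ : ℂˣ) := by
  obtain ⟨u, hu⟩ := L.rich c c.ne_zero
  have h : Units.map L.t.toMonoidHom u = c := Units.ext hu
  refine ⟨u, hu, ?_⟩
  rw [← h]
  rfl

theorem LR.lift_gl (L : LR O) {n : ℕ} (g : G n ℂ) : ∃ g' : G n L.A, gmap L.t g' = g := by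
  have key : ∃ M' : Mat L.A n n, IsUnit M'.det ∧ M'.map L.t = g.val := by
    refine Matrix.diagonal_transvection_induction_of_det_ne_zero
      (fun M : Mat ℂ n n => ∃ M' : Mat L.A n n, IsUnit M'.det ∧ M'.map L.t = M) g.val
      (Matrix.isUnits_det_units g).ne_zero ?_ ?_ ?_
    · intro D hD
      rw [Matrix.det_diagonal, Finset.prod_ne_zero_iff] at hD
      choose u hu using fun i => L.rich (D i) (hD i (Finset.mem_univ i))
      refine ⟨Matrix.diagonal fun i => (u i : L.A), ?_, ?_⟩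
      · rw [Matrix.det_diagonal]
        exact IsUnit.prod_univ_iff.2 fun i => (u i).isUnit
      · rw [Matrix.diagonal_map (map_zero _)]
        congr 1
        funext i
        exact hu i
    · rintro ⟨i, j, hij, c⟩
      obtain ⟨c', hc⟩ := L.surj c
      refine ⟨Matrix.transvection i j c', ?_, ?_⟩
      · rw [Matrix.det_transvection_of_ne i j hij]
        exact isUnit_one
      · rw [Matrix.TransvectionStruct.toMatrix_mk, Matrix.transvection, Matrix.transvection,
          Matrix.map_add _ (map_add _), Matrix.map_one _ (map_zero _) (map_one _),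
          Matrix.map_single, hc]
    · rintro A B - - ⟨A', hA, rfl⟩ ⟨B', hB, rfl⟩
      exact ⟨A' * B', by rw [Matrix.det_mul]; exact hA.mul hB, Matrix.map_mul⟩
  obtain ⟨M', hM, hM'⟩ := key
  obtain ⟨g', rfl⟩ := (Matrix.isUnit_iff_isUnit_det M').2 hM
  exact ⟨g', Units.ext hM'⟩

/-- The invertible matrix that carries one sequence to another. -/
def LiftB_gl {R : Type*} [CommRing R] {a b n : ℕ} (e₀ e : Ex R a b n) : G n R :=
  ⟨e.i * e₀.r + e.s * e₀.p, e₀.i * e.r + e₀.s * e.p,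
    by
      calc _ = e.i * (e₀.r * e₀.i) * e.r + e.i * (e₀.r * e₀.s) * e.p +
            (e.s * (e₀.p * e₀.i) * e.r + e.s * (e₀.p * e₀.s) * e.p) := by
            simp only [Matrix.add_mul, Matrix.mul_add, Matrix.mul_assoc]
            abel
        _ = 1 := by
            rw [e₀.ri, e₀.rs, e₀.pi, e₀.ps]
            simp only [Matrix.mul_one, Matrix.mul_zero, Matrix.zero_mul, add_zero, zero_add, e.tot],
    by
      calc _ = e₀.i * (e.r * e.i) * e₀.r + e₀.i * (e.r * e.s) * e₀.p +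
            (e₀.s * (e.p * e.i) * e₀.r + e₀.s * (e.p * e.s) * e₀.p) := by
            simp only [Matrix.add_mul, Matrix.mul_add, Matrix.mul_assoc]
            abel
        _ = 1 := by
            rw [e.ri, e.rs, e.pi, e.ps]
            simp only [Matrix.mul_one, Matrix.mul_zero, Matrix.zero_mul, add_zero, zero_add,
              e₀.tot]⟩

theorem LiftB_twist {R : Type*} [CommRing R] {a b n : ℕ} (e₀ e : Ex R a b n) :
    e₀.twist (LiftB_gl e₀ e) 1 1 = e := by
  have h1 : (LiftB_gl e₀ e).val = e.i * e₀.r + e.s * e₀.p := rfl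
  have h2 : ((LiftB_gl e₀ e)⁻¹).val = e₀.i * e.r + e₀.s * e.p := rfl
  ext1
  · rw [Ex.twist_i, h1, Units.val_one, Matrix.mul_one, Matrix.add_mul, Matrix.mul_assoc,
      Matrix.mul_assoc, e₀.ri, e₀.pi, Matrix.mul_one, Matrix.mul_zero, add_zero]
  · rw [Ex.twist_p, h2, inv_one, Units.val_one, Matrix.one_mul, Matrix.mul_add, ← Matrix.mul_assoc,
      ← Matrix.mul_assoc, e₀.pi, e₀.ps, Matrix.one_mul, Matrix.zero_mul, zero_add]
  · rw [Ex.twist_r, h2, inv_one, Units.val_one, Matrix.one_mul, Matrix.mul_add, ← Matrix.mul_assoc,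
      ← Matrix.mul_assoc, e₀.ri, e₀.rs, Matrix.one_mul, Matrix.zero_mul, add_zero]
  · rw [Ex.twist_s, h1, Units.val_one, Matrix.mul_one, Matrix.add_mul, Matrix.mul_assoc,
      Matrix.mul_assoc, e₀.rs, e₀.ps, Matrix.mul_one, Matrix.mul_zero, zero_add]

theorem LR.lift_ex (L : LR O) {a b n : ℕ} (e : Ex ℂ a b n) :
    ∃ e' : Ex L.A a b n, e'.map L.t = e := by
  obtain ⟨g', hg⟩ := L.lift_gl (LiftB_gl (Ex.std ℂ e.dim) e)
  refine ⟨(Ex.std L.A e.dim).twist g' 1 1, ?_⟩
  rw [Ex.map_twist, Ex.map_std, hg, map_one, map_one, LiftB_twist]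

theorem Ex.lift_split {A B : Type*} [CommRing A] [CommRing B] (θ : A →+* B)
    (hθ : Function.Surjective θ) {a b n : ℕ} (e' : Ex A a b n) (e : Ex B a b n)
    (h : (e'.map θ).Sim e) : ∃ e'' : Ex A a b n, e''.Sim e' ∧ e''.map θ = e := by
  obtain ⟨H, hH⟩ := lift_mat θ hθ (e.r * e'.s.map θ)
  have hi : e'.i.map θ = e.i := h.1
  have hp : e'.p.map θ = e.p := h.2
  refine ⟨⟨e'.i, e'.p, e'.r + H * e'.p, e'.s - e'.i * H, ?_, ?_, e'.pi, ?_, ?_⟩, ⟨rfl, rfl⟩, ?_⟩
  · rw [Matrix.add_mul, Matrix.mul_assoc, e'.ri, e'.pi, Matrix.mul_zero, add_zero]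
  · rw [Matrix.mul_sub, ← Matrix.mul_assoc, e'.ps, e'.pi, Matrix.zero_mul, sub_zero]
  · calc _ = e'.r * e'.s - e'.r * e'.i * H + (H * (e'.p * e'.s) - H * (e'.p * e'.i) * H) := by
          simp only [Matrix.add_mul, Matrix.mul_sub, Matrix.mul_assoc]
          abel
      _ = 0 := by
          rw [e'.rs, e'.ri, e'.ps, e'.pi]
          simp
  · rw [Matrix.mul_add, Matrix.sub_mul, Matrix.mul_assoc, add_add_sub_cancel, e'.tot]
  · have ht : e.i * e'.r.map θ + e'.s.map θ * e.p = 1 := by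
      have := (e'.map θ).tot
      rwa [Ex.map_i, Ex.map_p, hi, hp] at this
    have hps : e.p * e'.s.map θ = 1 := by
      have := (e'.map θ).ps
      rwa [Ex.map_p, hp] at this
    ext1
    · exact hi
    · exact hp
    · show (e'.r + H * e'.p).map θ = e.r
      rw [Matrix.map_add _ (map_add θ), Matrix.map_mul, hH, hp]
      calc _ = e.r * (e.i * e'.r.map θ + e'.s.map θ * e.p) := by
            rw [Matrix.mul_add, ← Matrix.mul_assoc, e.ri, Matrix.one_mul, Matrix.mul_assoc]
        _ = _ := by rw [ht, Matrix.mul_one]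
    · show (e'.s - e'.i * H).map θ = e.s
      rw [Matrix.map_sub _ (map_sub θ), Matrix.map_mul, hH, hi]
      calc _ = (e.i * e.r + e.s * e.p) * e'.s.map θ - e.i * (e.r * e'.s.map θ) := by
            rw [e.tot, Matrix.one_mul]
        _ = _ := by
            rw [Matrix.add_mul, Matrix.mul_assoc, Matrix.mul_assoc, hps, Matrix.mul_one,
              add_sub_cancel_left]

theorem LR.lift_dec (L : LR O) {N n : ℕ} {d : Fin N → ℕ} (D : Dec ℂ d n) :
    ∃ D' : Dec L.A d n, D'.map L.t = D := by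
  let I : Matrix (Fin n) ((t : Fin N) × Fin (d t)) ℂ := Matrix.of fun x s => D.inj s.1 x s.2
  let P : Matrix ((t : Fin N) × Fin (d t)) (Fin n) ℂ := Matrix.of fun s x => D.prj s.1 s.2 x
  have hIP : I * P = 1 := by
    rw [← D.tot]
    ext x y
    rw [Matrix.mul_apply, Fintype.sum_sigma, Matrix.sum_apply]
    rfl
  have hPI : P * I = 1 := by
    ext ⟨t, j⟩ ⟨t', j'⟩
    have h0 : (P * I) ⟨t, j⟩ ⟨t', j'⟩ = (D.prj t * D.inj t') j j' := rfl
    rw [h0]
    by_cases h : t = t'
    · subst h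
      rw [D.pi]
      simp [Matrix.one_apply]
    · rw [D.pij t t' h, Matrix.one_apply_ne]
      · rfl
      · intro h'
        exact h (congrArg Sigma.fst h')
  have hc : Fintype.card ((t : Fin N) × Fin (d t)) = n := by
    have h := Matrix.trace_mul_comm P I
    rw [hIP, hPI, Matrix.trace_one, Matrix.trace_one, Fintype.card_fin] at h
    exact_mod_cast h
  let e : ((t : Fin N) × Fin (d t)) ≃ Fin n := Fintype.equivFinOfCardEq hc
  let g : G n ℂ := ⟨I.submatrix id e.symm, P.submatrix e.symm id,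
    by rw [Matrix.submatrix_mul_equiv, hIP, Matrix.submatrix_id_id],
    by
      rw [← Matrix.submatrix_mul _ _ _ _ _ Function.bijective_id, hPI,
        Matrix.submatrix_one_equiv]⟩
  obtain ⟨g', hg⟩ := L.lift_gl g
  have h1 : g'.val.map L.t = I.submatrix id e.symm := congrArg Units.val hg
  have h2 : (g'⁻¹).val.map L.t = P.submatrix e.symm id :=
    congrArg (fun x : G n ℂ => (x⁻¹).val) hg
  have h3 : ∀ (t t' : Fin N) (j : Fin (d t)) (j' : Fin (d t')),
      ∑ x, (g'⁻¹).val (e ⟨t, j⟩) x * g'.val x (e ⟨t', j'⟩) =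
        (1 : Mat L.A n n) (e ⟨t, j⟩) (e ⟨t', j'⟩) := by
    intro t t' j j'
    rw [← g'.inv_mul, Matrix.mul_apply]
  refine ⟨⟨fun t => Matrix.of fun x j => g'.val x (e ⟨t, j⟩),
    fun t => Matrix.of fun j x => (g'⁻¹).val (e ⟨t, j⟩) x, fun t => ?_, fun t t' h => ?_, ?_⟩, ?_⟩
  · ext j j'
    rw [Matrix.mul_apply]
    refine (h3 t t j j').trans ?_
    simp [Matrix.one_apply]
  · ext j j'
    rw [Matrix.mul_apply]
    refine (h3 t t' j j').trans ?_
    rw [Matrix.one_apply_ne]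
    · rfl
    · intro h'
      exact h (congrArg Sigma.fst (e.injective h'))
  · ext x y
    rw [← g'.mul_inv, Matrix.mul_apply, ← e.sum_comp, Fintype.sum_sigma, Matrix.sum_apply]
    rfl
  · ext1
    · funext t
      ext x j
      have := congrFun (congrFun h1 x) (e ⟨t, j⟩)
      rw [Matrix.submatrix_apply, e.symm_apply_apply] at this
      exact this
    · funext t
      ext j x
      have := congrFun (congrFun h2 (e ⟨t, j⟩)) x
      rw [Matrix.submatrix_apply, e.symm_apply_apply] at this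
      exact this

/-- A generalised inverse that factors through the rank. -/
theorem LiftB_ginv {m n : Type*} [Fintype m] [Fintype n] (M : Matrix m n ℂ) :
    ∃ (P : Matrix (Fin M.rank) m ℂ) (Q : Matrix n (Fin M.rank) ℂ),
      P * M * Q = 1 ∧ M * Q * P * M = M := by
  classical
  let f : (n → ℂ) →ₗ[ℂ] (m → ℂ) := Matrix.toLin' M
  obtain ⟨s, hs⟩ := f.rangeRestrict.exists_rightInverse_of_surjective f.range_rangeRestrict
  obtain ⟨r, hr⟩ := (LinearMap.range f).subtype.exists_leftInverse_of_injective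
    (Submodule.ker_subtype _)
  have hr' : Module.finrank ℂ (LinearMap.range f) = Module.finrank ℂ (Fin M.rank → ℂ) := by
    rw [Module.finrank_fin_fun]
    rfl
  let e : LinearMap.range f ≃ₗ[ℂ] (Fin M.rank → ℂ) := LinearEquiv.ofFinrankEq _ _ hr'
  have h1 : ∀ x, r (f x) = f.rangeRestrict x := fun x =>
    LinearMap.congr_fun hr (f.rangeRestrict x)
  have h2 : ∀ y, f.rangeRestrict (s y) = y := fun y => LinearMap.congr_fun hs y
  refine ⟨LinearMap.toMatrix' (e.toLinearMap ∘ₗ r), LinearMap.toMatrix' (s ∘ₗ e.symm.toLinearMap),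
    ?_, ?_⟩
  · apply Matrix.toLin'.injective
    rw [Matrix.toLin'_mul, Matrix.toLin'_mul, Matrix.toLin'_toMatrix', Matrix.toLin'_toMatrix',
      Matrix.toLin'_one]
    refine LinearMap.ext fun y => ?_
    show e (r (f (s (e.symm y)))) = y
    rw [h1, h2, e.apply_symm_apply]
  · apply Matrix.toLin'.injective
    rw [Matrix.toLin'_mul, Matrix.toLin'_mul, Matrix.toLin'_mul, Matrix.toLin'_toMatrix',
      Matrix.toLin'_toMatrix']
    refine LinearMap.ext fun x => ?_
    show f (s (e.symm (e (r (f x))))) = f x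
    rw [e.symm_apply_apply, h1]
    exact congrArg Subtype.val (h2 (f.rangeRestrict x))

/-- Lower semicontinuity of the rank, with a test element. -/
theorem rank_test {A : Type*} [CommRing A] (θ : A →+* ℂ) (hθ : Function.Surjective θ)
    {m n : Type*} [Fintype m] [Fintype n] (M : Matrix m n A) :
    ∃ Δ : A, θ Δ ≠ 0 ∧ ∀ π : A →+* ℂ, π Δ ≠ 0 → (M.map θ).rank ≤ (M.map π).rank := by
  obtain ⟨P, Q, h, -⟩ := LiftB_ginv (M.map θ)
  obtain ⟨P', hP⟩ := lift_mat θ hθ P
  obtain ⟨Q', hQ⟩ := lift_mat θ hθ Q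
  refine ⟨(P' * M * Q').det, ?_, fun π hπ => ?_⟩
  · rw [RingHom.map_det, RingHom.mapMatrix_apply, Matrix.map_mul, Matrix.map_mul, hP, hQ, h,
      Matrix.det_one]
    exact one_ne_zero
  · rw [RingHom.map_det, RingHom.mapMatrix_apply, Matrix.map_mul, Matrix.map_mul] at hπ
    have h1 := Matrix.rank_of_isUnit _ ((Matrix.isUnit_iff_isUnit_det _).2 (Ne.isUnit hπ))
    rw [Fintype.card_fin] at h1
    exact h1.symm.le.trans ((Matrix.rank_mul_le_left _ _).trans (Matrix.rank_mul_le_right _ _))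

/-- If the annihilator of the image lifts, so does the kernel. -/
theorem lemmaK {A : Type*} [CommRing A] (θ : A →+* ℂ) (hθ : Function.Surjective θ)
    {α β : Type*} [Fintype α] [Fintype β] (d : Matrix β α A)
    (h : ∀ φ : β → ℂ, φ ᵥ* d.map θ = 0 → ∃ φ' : β → A, (∀ j, θ (φ' j) = φ j) ∧ φ' ᵥ* d = 0)
    (x : α → ℂ) (hx : d.map θ *ᵥ x = 0) :
    ∃ x' : α → A, (∀ i, θ (x' i) = x i) ∧ d *ᵥ x' = 0 := by
  classical
  obtain ⟨P, Q, h1, h2⟩ := LiftB_ginv (d.map θ)
  obtain ⟨P', hP⟩ := lift_mat θ hθ P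
  obtain ⟨Q', hQ⟩ := lift_mat θ hθ Q
  choose x₀ hx₀ using fun i => hθ (x i)
  have hΦ : (1 - d.map θ * Q * P) * d.map θ = 0 := by
    rw [Matrix.sub_mul, Matrix.one_mul, h2, sub_self]
  choose φ hφ hφd using fun j : β =>
    h ((1 - d.map θ * Q * P : Matrix β β ℂ) j) (funext fun k => congrFun (congrFun hΦ j) k)
  let Φ : Matrix β β A := Matrix.of φ
  have hΦ1 : Φ.map θ = 1 - d.map θ * Q * P := by
    ext i j
    exact hφ i j
  have hΦ2 : Φ * d = 0 := by
    ext i j
    exact congrFun (hφd i) j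
  have hdM : θ (P' * d * Q').det = 1 := by
    rw [RingHom.map_det, RingHom.mapMatrix_apply, Matrix.map_mul, Matrix.map_mul, hP, hQ, h1,
      Matrix.det_one]
  have hdW : θ (Φ + d * Q' * P').det = 1 := by
    rw [RingHom.map_det, RingHom.mapMatrix_apply, Matrix.map_add _ (map_add θ), Matrix.map_mul,
      Matrix.map_mul, hP, hQ, hΦ1, sub_add_cancel, Matrix.det_one]
  let x₁ : α → A := (P' * d * Q').det • x₀ - (Q' * (P' * d * Q').adjugate * P') *ᵥ (d *ᵥ x₀)
  have hx₁ : (P' * d) *ᵥ x₁ = 0 := by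
    have e : P' * d * (Q' * (P' * d * Q').adjugate * P' * d) = (P' * d * Q').det • (P' * d) := by
      calc _ = P' * d * Q' * (P' * d * Q').adjugate * (P' * d) := by
            simp only [Matrix.mul_assoc]
        _ = _ := by rw [Matrix.mul_adjugate, Matrix.smul_mul, Matrix.one_mul]
    simp only [x₁]
    rw [Matrix.mulVec_sub, Matrix.mulVec_smul, Matrix.mulVec_mulVec, Matrix.mulVec_mulVec,
      Matrix.mul_assoc (P' * d), e, Matrix.smul_mulVec, sub_self]
  have hW : (Φ + d * Q' * P') *ᵥ (d *ᵥ x₁) = 0 := by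
    rw [Matrix.mulVec_mulVec, Matrix.add_mul, hΦ2, zero_add, Matrix.mul_assoc,
      ← Matrix.mulVec_mulVec, hx₁, Matrix.mulVec_zero]
  have hd0 : ∀ j, θ ((d *ᵥ x₀) j) = 0 := by
    intro j
    have : θ ∘ x₀ = x := funext hx₀
    rw [RingHom.map_mulVec, this, hx]
    rfl
  refine ⟨(Φ + d * Q' * P').det • x₁, fun i => ?_, ?_⟩
  · have : θ ∘ (d *ᵥ x₀) = 0 := funext hd0
    simp only [x₁, Pi.smul_apply, Pi.sub_apply, smul_eq_mul, map_mul, map_sub, hdM, hdW, hx₀,
      one_mul]
    rw [RingHom.map_mulVec, this, Matrix.mulVec_zero, Pi.zero_apply, sub_zero]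
  · have := congrArg (fun v => (Φ + d * Q' * P').adjugate *ᵥ v) hW
    simp only [Matrix.mulVec_zero] at this
    rw [Matrix.mulVec_mulVec, Matrix.adjugate_mul, Matrix.smul_mulVec, Matrix.one_mulVec] at this
    rw [Matrix.mulVec_smul, this]

end Crest.Agent.R3

end
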