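import Crest.Agent.R3.ExB

set_option autoImplicit false

noncomputable section

namespace Crest.Agent.R3

open Matrix

/-! Lattice lemmas for semisimplicity. -/

variable {ι : Type*} {n : ℕ}

theorem RepB_inv_bot (T : ι → G n ℂ) : Inv T ⊥ := fun v x hx => by
  rw [Submodule.mem_bot] at hx ⊢
  rw [hx, Matrix.mulVec_zero]

theorem RepB_inv_top (T : ι → G n ℂ) : Inv T ⊤ := fun _ _ _ => Submodule.mem_top

theorem RepB_inv_inf {T : ι → G n ℂ} {U W : Submodule ℂ (Fin n → ℂ)} (hU : Inv T U)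
    (hW : Inv T W) : Inv T (U ⊓ W) := fun v x hx =>
  ⟨hU v x hx.1, hW v x hx.2⟩

theorem RepB_inv_sup {T : ι → G n ℂ} {U W : Submodule ℂ (Fin n → ℂ)} (hU : Inv T U)
    (hW : Inv T W) : Inv T (U ⊔ W) := fun v x hx => by
  obtain ⟨y, hy, z, hz, rfl⟩ := Submodule.mem_sup.1 hx
  rw [Matrix.mulVec_add]
  exact Submodule.add_mem_sup (hU v y hy) (hW v z hz)

theorem RepB_inv_map {k : ℕ} {T : ι → G n ℂ} {S : ι → G k ℂ} {φ : Mat ℂ k n} (hφ : Eqv φ T S)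
    {U : Submodule ℂ (Fin n → ℂ)} (hU : Inv T U) : Inv S (U.map φ.mulVecLin) := by
  rintro v _ ⟨x, hx, rfl⟩
  refine ⟨(T v).val *ᵥ x, hU v x hx, ?_⟩
  simp only [Matrix.mulVecLin_apply, Matrix.mulVec_mulVec]
  rw [hφ v]

theorem RepB_inv_comap {k : ℕ} {T : ι → G n ℂ} {S : ι → G k ℂ} {φ : Mat ℂ k n}
    (hφ : Eqv φ T S) {U : Submodule ℂ (Fin k → ℂ)} (hU : Inv S U) :
    Inv T (U.comap φ.mulVecLin) := by
  intro v x hx
  simp only [Submodule.mem_comap, Matrix.mulVecLin_apply] at hx ⊢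
  rw [Matrix.mulVec_mulVec, hφ v, ← Matrix.mulVec_mulVec]
  exact hU v _ hx

/-- Invariant with no invariant subspace strictly between `⊥` and it. -/
def RepB_Min (T : ι → G n ℂ) (U : Submodule ℂ (Fin n → ℂ)) : Prop :=
  Inv T U ∧ ∀ U', Inv T U' → U' ≤ U → U' = ⊥ ∨ U' = U

/-- Invariant with no invariant subspace strictly between it and `⊤`. -/
def RepB_Max (T : ι → G n ℂ) (U : Submodule ℂ (Fin n → ℂ)) : Prop :=
  Inv T U ∧ ∀ U', Inv T U' → U ≤ U' → U' = U ∨ U' = ⊤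

theorem RepB_exists_max (P : Submodule ℂ (Fin n → ℂ) → Prop) (h : ∃ U, P U) :
    ∃ U, P U ∧ ∀ U', P U' → U ≤ U' → U' = U := by
  obtain ⟨U, hU, hmax⟩ :=
    (wellFounded_gt (α := Submodule ℂ (Fin n → ℂ))).has_min {U | P U} h
  exact ⟨U, hU, fun U' hU' hle => by
    by_contra hne
    exact hmax U' hU' (lt_of_le_of_ne hle (Ne.symm hne))⟩

theorem RepB_exists_min (P : Submodule ℂ (Fin n → ℂ) → Prop) (h : ∃ U, P U) :
    ∃ U, P U ∧ ∀ U', P U' → U' ≤ U → U' = U := by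
  obtain ⟨U, hU, hmin⟩ :=
    (wellFounded_lt (α := Submodule ℂ (Fin n → ℂ))).has_min {U | P U} h
  exact ⟨U, hU, fun U' hU' hle => by
    by_contra hne
    exact hmin U' hU' (lt_of_le_of_ne hle hne)⟩

theorem RepB_ss_of_min {T : ι → G n ℂ}
    (h : ∀ Z : Submodule ℂ (Fin n → ℂ), (∀ U, RepB_Min T U → U ≤ Z) → Z = ⊤) : SSimple T := by
  intro W hW
  obtain ⟨W', ⟨hW', hd⟩, hmax⟩ := RepB_exists_max (fun U => Inv T U ∧ Disjoint W U)
    ⟨⊥, RepB_inv_bot T, disjoint_bot_right⟩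
  refine ⟨W', hW', hd, codisjoint_iff.2 (h _ fun U hU => ?_)⟩
  rcases hU.2 (U ⊓ (W ⊔ W')) (RepB_inv_inf hU.1 (RepB_inv_sup hW hW')) inf_le_left with h0 | h1
  · have hd2 : Disjoint W (W' ⊔ U) := by
      rw [Submodule.disjoint_def]
      intro x hx hx'
      obtain ⟨y, hy, z, hz, rfl⟩ := Submodule.mem_sup.1 hx'
      have hz0 : z ∈ U ⊓ (W ⊔ W') := by
        refine ⟨hz, ?_⟩
        have : z = (y + z) - y := by abel
        rw [this]
        exact Submodule.sub_mem _ (Submodule.mem_sup_left hx) (Submodule.mem_sup_right hy)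
      rw [h0, Submodule.mem_bot] at hz0
      rw [hz0, add_zero] at hx ⊢
      exact (Submodule.disjoint_def.1 hd) y hx hy
    have := hmax (W' ⊔ U) ⟨RepB_inv_sup hW' hU.1, hd2⟩ le_sup_left
    exact (le_sup_right.trans this.le).trans le_sup_right
  · exact h1.ge.trans inf_le_right

theorem RepB_ss_of_max {T : ι → G n ℂ}
    (h : ∀ x : Fin n → ℂ, (∀ U, RepB_Max T U → x ∈ U) → x = 0) : SSimple T := by
  intro W hW
  obtain ⟨W', ⟨hW', hd⟩, hmin⟩ := RepB_exists_min (fun U => Inv T U ∧ Codisjoint W U)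
    ⟨⊤, RepB_inv_top T, codisjoint_top_right⟩
  refine ⟨W', hW', Submodule.disjoint_def.2 fun x hx hx' => h x fun U hU => ?_, hd⟩
  rcases hU.2 (U ⊔ (W ⊓ W')) (RepB_inv_sup hU.1 (RepB_inv_inf hW hW')) le_sup_left with h0 | h1
  · exact h0.le (Submodule.mem_sup_right ⟨hx, hx'⟩)
  · have hd2 : Codisjoint W (W' ⊓ U) := by
      rw [codisjoint_iff, eq_top_iff, ← codisjoint_iff.1 hd]
      refine sup_le le_sup_left fun y hy => ?_
      have hy' : y ∈ U ⊔ (W ⊓ W') := h1.ge Submodule.mem_top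
      obtain ⟨a, ha, b, hb, rfl⟩ := Submodule.mem_sup.1 hy'
      have ha' : a ∈ W' := by
        have : a = (a + b) - b := by abel
        rw [this]
        exact Submodule.sub_mem _ hy hb.2
      rw [add_comm]
      exact Submodule.add_mem_sup hb.1 ⟨ha', ha⟩
    have := hmin (W' ⊓ U) ⟨RepB_inv_inf hW' hU.1, hd2⟩ inf_le_left
    exact (this.ge hx').2

theorem RepB_min_range {k : ℕ} {T : ι → G n ℂ} {S : ι → G k ℂ} (hS : Simple S) {φ : Mat ℂ n k}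
    (hφ : Eqv φ S T) : RepB_Min T (Submodule.map φ.mulVecLin ⊤) := by
  refine ⟨RepB_inv_map hφ (RepB_inv_top S), fun U hU hle => ?_⟩
  rcases hS.2 _ (RepB_inv_comap hφ hU) with h0 | h1
  · left
    rw [eq_bot_iff]
    intro x hx
    obtain ⟨y, -, rfl⟩ := hle hx
    have : y ∈ U.comap φ.mulVecLin := hx
    rw [h0, Submodule.mem_bot] at this
    rw [this, map_zero]
    exact Submodule.zero_mem _
  · right
    refine le_antisymm hle ?_
    rintro _ ⟨y, -, rfl⟩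
    exact (h1.ge Submodule.mem_top : y ∈ U.comap φ.mulVecLin)

theorem RepB_max_ker {k : ℕ} {T : ι → G n ℂ} {S : ι → G k ℂ} (hS : Simple S) {φ : Mat ℂ k n}
    (hφ : Eqv φ T S) : RepB_Max T (Submodule.comap φ.mulVecLin ⊥) := by
  refine ⟨RepB_inv_comap hφ (RepB_inv_bot S), fun U hU hle => ?_⟩
  rcases hS.2 _ (RepB_inv_map hφ hU) with h0 | h1
  · left
    refine le_antisymm (fun x hx => ?_) hle
    exact (h0.le ⟨x, hx, rfl⟩ : φ.mulVecLin x ∈ (⊥ : Submodule ℂ (Fin k → ℂ)))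
  · right
    rw [eq_top_iff]
    intro x _
    obtain ⟨y, hy, hxy⟩ := (h1.ge Submodule.mem_top : φ.mulVecLin x ∈ U.map φ.mulVecLin)
    have : x - y ∈ U := hle (by
      rw [Submodule.mem_comap, map_sub, hxy, sub_self]; exact Submodule.zero_mem _)
    have h2 : x = (x - y) + y := by abel
    rw [h2]
    exact U.add_mem this hy

theorem RepB_ssimple_of_dec {N : ℕ} {d : Fin N → ℕ} (D : Dec ℂ d n) (S : ∀ t, ι → G (d t) ℂ)
    (h : ∀ t, Simple (S t)) (T : ι → G n ℂ) (hT : ∀ t, Eqv (D.inj t) (S t) T) : SSimple T := by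
  refine RepB_ss_of_min fun Z hZ => ?_
  rw [eq_top_iff]
  intro x _
  have hx : x = ∑ t, D.inj t *ᵥ (D.prj t *ᵥ x) := by
    simp only [Matrix.mulVec_mulVec]
    rw [← Matrix.sum_mulVec, D.tot, Matrix.one_mulVec]
  rw [hx]
  exact Z.sum_mem fun t _ => hZ _ (RepB_min_range (h t) (hT t)) ⟨_, Submodule.mem_top, rfl⟩

/-- The radical subspace. -/
def RepB_rad (T : ι → G n ℂ) : Submodule ℂ (Fin n → ℂ) := sInf {U | RepB_Max T U}

theorem RepB_mem_rad {T : ι → G n ℂ} {x : Fin n → ℂ} :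
    x ∈ RepB_rad T ↔ ∀ U, RepB_Max T U → x ∈ U := Submodule.mem_sInf

theorem RepB_inv_rad (T : ι → G n ℂ) : Inv T (RepB_rad T) := fun v x hx =>
  RepB_mem_rad.2 fun U hU => hU.1 v x (RepB_mem_rad.1 hx U hU)

theorem RepB_rad_ne_top (T : ι → G n ℂ) (hn : 0 < n) : RepB_rad T ≠ ⊤ := by
  have : Nonempty (Fin n) := ⟨⟨0, hn⟩⟩
  obtain ⟨U, ⟨hU, hne⟩, hmax⟩ := RepB_exists_max (fun U => Inv T U ∧ U ≠ ⊤)
    ⟨⊥, RepB_inv_bot T, bot_ne_top⟩
  have hM : RepB_Max T U := ⟨hU, fun U' hU' hle => by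
    by_cases h : U' = ⊤
    · exact Or.inr h
    · exact Or.inl (hmax U' ⟨hU', h⟩ hle)⟩
  intro h
  exact hne (eq_top_iff.2 (h.ge.trans (sInf_le hM)))

theorem RepB_rad_finrank (T : ι → G n ℂ) (hn : 0 < n) : Module.finrank ℂ (RepB_rad T) < n := by
  have := Submodule.finrank_lt (RepB_rad_ne_top T hn)
  simpa using this

theorem RepB_ss_quot {T : ι → G n ℂ} {w q : ℕ} (e : Ex ℂ w q n) {Q : ι → G q ℂ}
    (hQ : Eqv e.p T Q) (hp : ∀ x, x ∈ RepB_rad T ↔ e.p *ᵥ x = 0) : SSimple Q := by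
  have hps : ∀ y, e.p *ᵥ (e.s *ᵥ y) = y := fun y => by
    rw [Matrix.mulVec_mulVec, e.ps, Matrix.one_mulVec]
  refine RepB_ss_of_max fun y hy => ?_
  rw [← hps y]
  refine (hp _).1 (RepB_mem_rad.2 fun U hU => ?_)
  have hN : RepB_Max Q (U.map e.p.mulVecLin) := by
    refine ⟨RepB_inv_map hQ hU.1, fun N hN hle => ?_⟩
    rcases hU.2 _ (RepB_inv_comap hQ hN) (Submodule.map_le_iff_le_comap.1 hle) with h0 | h1
    · left
      refine le_antisymm (fun z hz => ⟨e.s *ᵥ z, ?_, hps z⟩) hle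
      refine h0.le ?_
      rw [Submodule.mem_comap, Matrix.mulVecLin_apply, hps]
      exact hz
    · right
      rw [eq_top_iff]
      intro z _
      have : e.s *ᵥ z ∈ N.comap e.p.mulVecLin := h1.ge Submodule.mem_top
      rwa [Submodule.mem_comap, Matrix.mulVecLin_apply, hps] at this
  obtain ⟨a, ha, hay⟩ := hy _ hN
  have h1 : e.s *ᵥ y - a ∈ RepB_rad T := (hp _).2 (by
    rw [Matrix.mulVec_sub, hps, ← hay, Matrix.mulVecLin_apply, sub_self])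
  have h2 : e.s *ᵥ y = (e.s *ᵥ y - a) + a := by abel
  rw [h2]
  exact U.add_mem (RepB_mem_rad.1 h1 U hU) ha

theorem RepB_eq_zero {a b : ℕ} (X : Mat ℂ a b) (h : ∀ y, X *ᵥ y = 0) : X = 0 := by
  ext i j
  have := congrFun (h (Pi.single j 1)) i
  simpa using this

theorem RepB_exists_rad (T : ι → G n ℂ) (hn : 0 < n)
    (hsq : ∀ {w q : ℕ} (e : Ex ℂ w q n), (∀ v, e.p * (T v).val * e.i = 0) →
      ∃ (W : ι → G w ℂ) (Q : ι → G q ℂ), Eqv e.i W T ∧ Eqv e.p T Q) :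
    ∃ (w q : ℕ) (e : Ex ℂ w q n) (W : ι → G w ℂ) (Q : ι → G q ℂ), w < n ∧ Eqv e.i W T ∧
      Eqv e.p T Q ∧ SSimple Q ∧ ∀ (k : ℕ) (S : ι → G k ℂ) (φ : Mat ℂ k n), Simple S →
        Eqv φ T S → φ * e.i = 0 := by
  obtain ⟨w, q, e, hw, hi, hp⟩ := Ex.exists_of_submodule (RepB_rad T)
  obtain ⟨W, Q, hW, hQ⟩ := hsq e fun v => RepB_eq_zero _ fun y => by
    rw [← Matrix.mulVec_mulVec, ← Matrix.mulVec_mulVec]
    exact (hp _).1 (RepB_inv_rad T v _ ((hi _).2 ⟨y, rfl⟩))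
  refine ⟨w, q, e, W, Q, hw ▸ RepB_rad_finrank T hn, hW, hQ, RepB_ss_quot e hQ hp,
    fun k S φ hS hφ => RepB_eq_zero _ fun y => ?_⟩
  rw [← Matrix.mulVec_mulVec]
  exact RepB_mem_rad.1 ((hi _).2 ⟨y, rfl⟩) _ (RepB_max_ker hS hφ)

end Crest.Agent.R3

end
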