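import Crest.Agent.R3.LiftB

set_option autoImplicit false

noncomputable section

namespace Crest.Agent.R3

open Matrix Filter Topology

/-! Words, valuations, congruence and the generic shape of a move. -/

variable {O : Subring ℂ}

section Words
variable {κ : Type} {R S : Type*} [CommRing R] [Algebra O R] [CommRing S] [Algebra O S] {n : ℕ}

theorem scal_val (u : Oˣ) : (scal R n u).val = algebraMap O R u • (1 : Mat R n n) := by
  rw [algebraMap_smul]
  exact Algebra.algebraMap_eq_smul_one (u : O)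
@[simp] theorem scal_one : scal R n (1 : Oˣ) = 1 := map_one _
theorem scal_mul (u v : Oˣ) : scal R n (u * v) = scal R n u * scal R n v := map_mul _ _ _
theorem scal_inv (u : Oˣ) : scal R n u⁻¹ = (scal R n u)⁻¹ := map_inv _ _
theorem scal_neg_one : scal R n (-1 : Oˣ) = -1 := by
  ext1
  rw [scal_val]
  simp
theorem scal_mul_mat {k : ℕ} (u : Oˣ) (M : Mat R n k) :
    (scal R n u).val * M = algebraMap O R u • M := by
  rw [scal_val, Matrix.smul_mul, Matrix.one_mul]
theorem mat_mul_scal {k : ℕ} (u : Oˣ) (M : Mat R k n) :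
    M * (scal R n u).val = algebraMap O R u • M := by
  rw [scal_val, Matrix.mul_smul, Matrix.mul_one]
theorem scal_comm (u : Oˣ) (g : G n R) : scal R n u * g = g * scal R n u := by
  ext1
  rw [Units.val_mul, Units.val_mul, scal_mul_mat, mat_mul_scal]
theorem gmap_scal (f : R →ₐ[O] S) (u : Oˣ) : gmap (f : R →+* S) (scal R n u) = scal S n u := by
  ext i j
  rw [gmap_val, scal_val, scal_val]
  by_cases h : i = j
  · simp only [h, Matrix.map_apply, Matrix.smul_apply, Matrix.one_apply_eq, smul_eq_mul, mul_one,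
      RingHom.coe_coe, AlgHom.commutes]
  · simp only [Matrix.map_apply, Matrix.smul_apply, Matrix.one_apply_ne h, smul_zero, map_zero]
/-- A central scalar on the middle cell can be moved to the outer cells. -/
theorem Ex.twist_scal {a b : ℕ} (e : Ex R a b n) (u : Oˣ) (s : G a R) (q : G b R) :
    e.twist (scal R n u) s q = e.twist 1 (scal R a u * s) (scal R b u * q) := by
  ext1 <;> simp only [Ex.twist_i, Ex.twist_p, Ex.twist_r, Ex.twist_s, _root_.mul_inv_rev,
    ← scal_inv, Units.val_mul, inv_one, Units.val_one, Matrix.one_mul, Matrix.mul_one,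
    scal_mul_mat, mat_mul_scal, Matrix.smul_mul, Matrix.mul_smul]

@[simp] theorem evalW_nil (y : κ → G n R) : evalW y ([] : List (Item O κ)) = 1 := rfl
@[simp] theorem evalW_cons (y : κ → G n R) (x : Item O κ) (w : List (Item O κ)) :
    evalW y (x :: w) = evalI y x * evalW y w := by simp [evalW]
@[simp] theorem evalW_append (y : κ → G n R) (w w' : List (Item O κ)) :
    evalW y (w ++ w') = evalW y w * evalW y w' := by simp [evalW]
@[simp] theorem evalI_sc (y : κ → G n R) (u : Oˣ) : evalI y (.sc u : Item O κ) = scal R n u := rfl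
@[simp] theorem evalI_true (y : κ → G n R) (x : κ) : evalI y (.var x true : Item O κ) = y x := rfl
@[simp] theorem evalI_false (y : κ → G n R) (x : κ) :
    evalI y (.var x false : Item O κ) = (y x)⁻¹ := rfl
theorem evalI_not (y : κ → G n R) (x : κ) (e : Bool) :
    evalI y (.var x (!e) : Item O κ) = (evalI y (.var x e : Item O κ))⁻¹ := by
  cases e <;> simp
@[simp] theorem vocc_nil : vocc ([] : List (Item O κ)) = 0 := rfl
@[simp] theorem vocc_sc (u : Oˣ) (w : List (Item O κ)) : vocc (.sc u :: w) = vocc w := by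
  simp [vocc, Item.occ]
@[simp] theorem vocc_var (x : κ) (e : Bool) (w : List (Item O κ)) :
    vocc (.var x e :: w) = {(x, e)} + vocc w := by
  simp [vocc, Item.occ]
@[simp] theorem vocc_append (w w' : List (Item O κ)) : vocc (w ++ w') = vocc w + vocc w' := by
  simp [vocc]
@[simp] theorem nvar_nil : nvar ([] : List (Item O κ)) = 0 := rfl
@[simp] theorem nvar_sc (u : Oˣ) (w : List (Item O κ)) : nvar (.sc u :: w) = nvar w := by
  simp [nvar]
@[simp] theorem nvar_var (x : κ) (e : Bool) (w : List (Item O κ)) :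
    nvar (.var x e :: w) = nvar w + 1 := by
  simp [nvar, add_comm]
@[simp] theorem nvar_append (w w' : List (Item O κ)) : nvar (w ++ w') = nvar w + nvar w' := by
  simp [nvar]

theorem mem_vocc {w : List (Item O κ)} {x : κ} {e : Bool} :
    (x, e) ∈ vocc w ↔ Item.var x e ∈ w := by
  induction w with
  | nil => simp
  | cons y w ih => cases y <;> simp [ih]

theorem evalW_congr {y y' : κ → G n R} {w : List (Item O κ)}
    (h : ∀ o ∈ vocc w, y o.1 = y' o.1) : evalW y w = evalW y' w := by
  induction w with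
  | nil => rfl
  | cons z w ih =>
    rcases z with u | ⟨x, e⟩
    · rw [evalW_cons, evalW_cons, ih fun o ho => h o (by simpa using ho)]
      rfl
    · have h1 : y x = y' x := h (x, e) (by simp)
      rw [evalW_cons, evalW_cons, ih fun o ho => h o (by simp [ho])]
      cases e <;> simp [h1]

theorem evalW_map (f : R →ₐ[O] S) (y : κ → G n R) (w : List (Item O κ)) :
    gmap (f : R →+* S) (evalW y w) = evalW (fun k => gmap (f : R →+* S) (y k)) w := by
  induction w with
  | nil => exact map_one _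
  | cons z w ih =>
    rw [evalW_cons, evalW_cons, map_mul, ih]
    rcases z with u | ⟨x, _ | _⟩
    · rw [evalI_sc, evalI_sc, gmap_scal]
    · rw [evalI_false, evalI_false, map_inv]
    · rfl

theorem evalW_conj (P : G n R) (y : κ → G n R) (w : List (Item O κ)) :
    evalW (fun k => P * y k * P⁻¹) w = P * evalW y w * P⁻¹ := by
  induction w with
  | nil => simp
  | cons z w ih =>
    rw [evalW_cons, evalW_cons, ih]
    rcases z with u | ⟨x, _ | _⟩
    · rw [evalI_sc, evalI_sc, ← mul_assoc, ← mul_assoc, scal_comm, mul_assoc P]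
    · rw [evalI_false, evalI_false]; group
    · rw [evalI_true, evalI_true]; group

theorem evalW_rename {κ' : Type} (f : κ → κ') (y : κ' → G n R) (w : List (Item O κ)) :
    evalW y (w.map (Item.rename f)) = evalW (fun k => y (f k)) w := by
  induction w with
  | nil => rfl
  | cons z w ih =>
    rw [List.map_cons, evalW_cons, evalW_cons, ih]
    rcases z with u | ⟨x, _ | _⟩ <;> rfl

theorem vocc_rename {κ' : Type} (f : κ → κ') (w : List (Item O κ)) :
    vocc (w.map (Item.rename f)) = (vocc w).map fun o => (f o.1, o.2) := by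
  induction w with
  | nil => rfl
  | cons z w ih => cases z <;> simp [Item.rename, ih]

/-- A word without letters is a scalar, the same in every rank and over every ring. -/
theorem exists_scal_of_nvar (w : List (Item O κ)) (h : nvar w = 0) :
    ∃ ζ : Oˣ, ∀ (R : Type) [CommRing R] [Algebra O R] (n : ℕ) (y : κ → G n R),
      evalW y w = scal R n ζ := by
  induction w with
  | nil => exact ⟨1, fun R _ _ n y => scal_one.symm⟩
  | cons z w ih =>
    rcases z with u | ⟨x, e⟩
    · obtain ⟨ζ, hζ⟩ := ih (by simpa using h)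
      exact ⟨u * ζ, fun R _ _ n y => by rw [evalW_cons, hζ, scal_mul, evalI_sc]⟩
    · simp at h

theorem Flagged.map (f : R →ₐ[O] S) {l : List (ℕ × Oˣ)} {n : ℕ} {M : G n R}
    (h : Flagged R l n M) : Flagged S l n (gmap (f : R →+* S) M) := by
  induction l generalizing n with
  | nil => exact h
  | cons p l ih =>
    obtain ⟨b, ξ⟩ := p
    obtain ⟨a, hab, e, M', h1, h2, h3⟩ := h
    refine ⟨a, hab, e.map (f : R →+* S), gmap (f : R →+* S) M', ?_, ?_, ih h3⟩
    · rw [gmap_val, gmap_val, Ex.map_i, ← Matrix.map_mul, ← Matrix.map_mul, h1]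
    · rw [← gmap_scal f, gmap_val, gmap_val, Ex.map_p, ← Matrix.map_mul, ← Matrix.map_mul, h2]

theorem qk_map (f : R →ₐ[O] S) (M : G n R) (ξ : List Oˣ) :
    (qk M ξ).map f = qk (gmap (f : R →+* S) M) ξ := by
  change (f : R →+* S).mapMatrix (qk M ξ) = _
  unfold qk
  rw [map_list_prod, List.map_map]
  congr 1
  refine List.map_congr_left fun x _ => ?_
  rw [Function.comp_apply, map_sub, ← gmap_scal f]
  rfl

end Words

section Val
variable {R S : Type*} [CommRing R] [Algebra O R] [CommRing S] [Algebra O S] {a b n : ℕ}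

@[simp] theorem ev_nil (u : Val R) : ev n u ([] : Word O) = 1 := rfl
@[simp] theorem ev_append (u : Val R) (w w' : Word O) :
    ev n u (w ++ w') = ev n u w * ev n u w' := evalW_append _ _ _
theorem ev_cons (u : Val R) (x : Item O (Bool × ℕ)) (w : Word O) :
    ev n u (x :: w) = evalI (letters n u) x * ev n u w := evalW_cons _ _ _
@[simp] theorem wocc_nil : wocc n ([] : Word O) = 0 := rfl
@[simp] theorem wocc_append (w w' : Word O) : wocc n (w ++ w') = wocc n w + wocc n w' := by
  simp [wocc]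
@[simp] theorem wocc_sc (ζ : Oˣ) (w : Word O) : wocc n (.sc ζ :: w) = wocc n w := by
  simp [wocc]
@[simp] theorem wocc_var (φ : Bool × ℕ) (e : Bool) (w : Word O) :
    wocc n (.var φ e :: w) = {(letterVar n φ, e)} + wocc n w := by
  simp [wocc]
theorem wocc_of_nvar {w : Word O} (h : nvar w = 0) : wocc n w = 0 := by
  rw [wocc, Multiset.card_eq_zero.1 h, Multiset.map_zero]

@[simp] theorem letterVar_n (φ : Bool × ℕ) : (letterVar n φ).n = n := by
  rcases φ with ⟨_ | _, k⟩ <;> rfl
@[simp] theorem letterVar_k (φ : Bool × ℕ) : (letterVar n φ).k = φ.2 := by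
  rcases φ with ⟨_ | _, k⟩ <;> rfl
theorem letterVar_deg (φ : Bool × ℕ) : (letterVar n φ).a = 0 ∨ (letterVar n φ).b = 0 := by
  rcases φ with ⟨_ | _, k⟩ <;> simp [letterVar]
theorem letterVar_inj (hn : 0 < n) : Function.Injective (letterVar n) := by
  rintro ⟨_ | _, k⟩ ⟨_ | _, k'⟩ h <;> simp only [letterVar, Var.mk.injEq] at h
  · rw [h.2.2.2]
  · omega
  · omega
  · rw [h.2.2.2]

theorem letters_congr {u u' : Val R} (φ : Bool × ℕ)
    (h : (u (letterVar n φ)).Sim (u' (letterVar n φ))) : letters n u φ = letters n u' φ := by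
  rcases φ with ⟨_ | _, k⟩
  · exact (Ex.sim_iff_glS _ _).1 h
  · exact (Ex.sim_iff_glQ _ _).1 h
theorem letters_map (f : R →+* S) (u : Val R) (φ : Bool × ℕ) :
    letters n (u.map f) φ = gmap f (letters n u φ) := by
  rcases φ with ⟨_ | _, k⟩ <;> rfl
theorem letters_of_eq_ofL {u : Val R} (φ : Bool × ℕ) (M : G n R)
    (h : u (letterVar n φ) = ofL n φ M) : letters n u φ = M := by
  rcases φ with ⟨_ | _, k⟩
  · exact (congrArg Ex.glS h).trans (Ex.glS_ofS M)
  · exact (congrArg Ex.glQ h).trans (Ex.glQ_ofQ M)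
theorem ofL_sim (f : R →+* S) (x : Val S) (φ : Bool × ℕ) (M : G n R)
    (h : gmap f M = letters n x φ) : ((ofL n φ M).map f).Sim (x (letterVar n φ)) := by
  rcases φ with ⟨_ | _, k⟩
  · exact (Ex.sim_iff_glS _ _).2 ((congrArg (gmap f) (Ex.glS_ofS M)).trans h)
  · exact (Ex.sim_iff_glQ _ _).2 ((congrArg (gmap f) (Ex.glQ_ofQ M)).trans h)

theorem Agree.of_eq {u u' : Val R} {m : Multiset (Var × Bool)} (h : ∀ o ∈ m, u o.1 = u' o.1) :
    Agree u u' m := fun o ho => Ex.Sim.of_eq (h o ho)
theorem Agree.mono {u u' : Val R} {m m' : Multiset (Var × Bool)} (h : Agree u u' m)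
    (hm : m' ⊆ m) : Agree u u' m' := fun o ho => h o (hm ho)
theorem ev_congr {u u' : Val R} {w : Word O} (h : Agree u u' (wocc n w)) :
    ev n u w = ev n u' w :=
  evalW_congr fun o ho => letters_congr o.1 (h (letterVar n o.1, o.2) (Multiset.mem_map_of_mem _ ho))
theorem Syn_lval_congr {u u' : Val R} (h : a + b = n) (e : Bool) (x : Option ℕ)
    (H : Agree u u' (locc h e x)) : (lval u h x).Sim (lval u' h x) := by
  cases x with
  | none => exact Ex.Sim.refl _
  | some k => exact H _ (Multiset.mem_singleton_self _)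
theorem HL.val_congr {u u' : Val R} {l : HL O a b n} (h : Agree u u' l.occ) :
    (l.val u).Sim (l.val u') := by
  unfold HL.val
  rw [ev_congr (w := l.m) (h.mono fun o ho => by simp [HL.occ, ho]),
    ev_congr (w := l.s) (h.mono fun o ho => by simp [HL.occ, ho]),
    ev_congr (w := l.q) (h.mono fun o ho => by simp [HL.occ, ho])]
  exact (Syn_lval_congr l.h true l.x (h.mono fun o ho => by simp [HL.occ, ho])).twist _ _ _
theorem TL.val_congr {u u' : Val R} {l : TL O a b n} (h : Agree u u' l.occ) :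
    (l.val u).Sim (l.val u') := by
  unfold TL.val
  rw [ev_congr (w := l.s) (h.mono fun o ho => by simp [TL.occ, ho]),
    ev_congr (w := l.q) (h.mono fun o ho => by simp [TL.occ, ho])]
  exact (Syn_lval_congr l.h false l.x (h.mono fun o ho => by simp [TL.occ, ho])).twist _ _ _
theorem Vx.sat_congr {u u' : Val R} {v : Vx O} (h : Agree u u' v.occ) (hv : v.Sat u) :
    v.Sat u' := by
  cases v with
  | grid Γ =>
    have h' : Agree u u' Γ.occ := h
    exact Grid0.congr hv (HL.val_congr (h'.mono fun o ho => by simp [Grid.occ, ho]))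
      (TL.val_congr (h'.mono fun o ho => by simp [Grid.occ, ho]))
      (HL.val_congr (h'.mono fun o ho => by simp [Grid.occ, ho]))
      (TL.val_congr (h'.mono fun o ho => by simp [Grid.occ, ho]))
      (HL.val_congr (h'.mono fun o ho => by simp [Grid.occ, ho]))
      (TL.val_congr (h'.mono fun o ho => by simp [Grid.occ, ho]))
  | closed n w => exact (ev_congr (w := w) h).symm.trans hv
theorem Sat.congr {u u' : Val R} {S : Sys O} (h : Agree u u' (occ S)) (hS : Sat u S) :
    Sat u' S := fun v hv =>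
  Vx.sat_congr (h.mono fun _ ho => Multiset.mem_bind.2 ⟨v, hv, ho⟩) (hS v hv)

theorem ev_map (f : R →ₐ[O] S) (u : Val R) (w : Word O) :
    ev n (u.map (f : R →+* S)) w = gmap (f : R →+* S) (ev n u w) := by
  unfold ev
  rw [evalW_map]
  exact evalW_congr fun o _ => letters_map _ u o.1
theorem Syn_lval_map (f : R →+* S) (u : Val R) (h : a + b = n) (x : Option ℕ) :
    lval (u.map f) h x = (lval u h x).map f := by
  cases x with
  | none => exact (Ex.map_std f h).symm
  | some k => rfl
theorem HL.val_map (f : R →ₐ[O] S) (u : Val R) (l : HL O a b n) :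
    l.val (u.map (f : R →+* S)) = (l.val u).map (f : R →+* S) := by
  unfold HL.val
  rw [Ex.map_twist, ev_map, ev_map, ev_map, Syn_lval_map]
theorem TL.val_map (f : R →ₐ[O] S) (u : Val R) (l : TL O a b n) :
    l.val (u.map (f : R →+* S)) = (l.val u).map (f : R →+* S) := by
  unfold TL.val
  rw [Ex.map_twist, ev_map, ev_map, Syn_lval_map, map_one, map_inv, map_inv]
theorem Sat.map (f : R →ₐ[O] S) {u : Val R} {T : Sys O} (h : Sat u T) :
    Sat (u.map (f : R →+* S)) T := by
  intro v hv
  have hs := h v hv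
  cases v with
  | grid Γ =>
    change Grid0 _ _ _ _ _ _
    simp only [HL.val_map, TL.val_map]
    exact Grid0.map hs _
  | closed n w =>
    change ev n _ w = 1
    rw [ev_map, show ev n u w = 1 from hs, map_one]

theorem Lifts.letters {L : LR O} {u : Val L.A} {x : Val ℂ} (h : Lifts L u x) (φ : Bool × ℕ) :
    gmap L.t (letters n u φ) = letters n x φ :=
  (letters_map L.t u φ).symm.trans (letters_congr (u := u.map L.t) φ (h _))
theorem Lifts.ev {L : LR O} {u : Val L.A} {x : Val ℂ} (h : Lifts L u x) (w : Word O) :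
    gmap L.t (ev n u w) = ev n x w :=
  (ev_map L.θ u w).symm.trans (ev_congr (u := u.map L.t) fun o _ => h o.1)
theorem Lifts.hl {L : LR O} {u : Val L.A} {x : Val ℂ} (h : Lifts L u x) (l : HL O a b n) :
    ((l.val u).map L.t).Sim (l.val x) :=
  (Ex.Sim.of_eq (HL.val_map L.θ u l).symm).trans (HL.val_congr (u := u.map L.t) fun o _ => h o.1)
theorem Lifts.tl {L : LR O} {u : Val L.A} {x : Val ℂ} (h : Lifts L u x) (l : TL O a b n) :
    ((l.val u).map L.t).Sim (l.val x) :=
  (Ex.Sim.of_eq (TL.val_map L.θ u l).symm).trans (TL.val_congr (u := u.map L.t) fun o _ => h o.1)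

@[simp] theorem HL.cst_val (h : a + b = n) (u : Val R) : (HL.cst (O := O) h).val u = Ex.std R h :=
  Ex.twist_one _
@[simp] theorem TL.cst_val (h : a + b = n) (u : Val R) :
    (TL.cst (O := O) h).val u = Ex.std R h := by
  simp [TL.val, TL.cst, lval, Ex.twist_one]
@[simp] theorem HL.new_val (h : a + b = n) (k : ℕ) (u : Val R) :
    (HL.new (O := O) h k).val u = u ⟨a, b, n, k, h⟩ := Ex.twist_one _
@[simp] theorem TL.new_val (h : a + b = n) (k : ℕ) (u : Val R) :
    (TL.new (O := O) h k).val u = u ⟨a, b, n, k, h⟩ := by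
  simp [TL.val, TL.new, lval, Ex.twist_one]
@[simp] theorem HL.cst_occ (h : a + b = n) : (HL.cst (O := O) h).occ = 0 := rfl
@[simp] theorem TL.cst_occ (h : a + b = n) : (TL.cst (O := O) h).occ = 0 := rfl
@[simp] theorem HL.new_occ (h : a + b = n) (k : ℕ) :
    (HL.new (O := O) h k).occ = {(⟨a, b, n, k, h⟩, true)} := rfl
@[simp] theorem TL.new_occ (h : a + b = n) (k : ℕ) :
    (TL.new (O := O) h k).occ = {(⟨a, b, n, k, h⟩, false)} := rfl
theorem HL.new_ok (h : a + b = n) (k : ℕ) : (HL.new (O := O) h k).ok := fun h => by cases h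
theorem TL.new_ok (h : a + b = n) (k : ℕ) : (TL.new (O := O) h k).ok := fun h => by cases h

theorem HL.wS_val (u : Val R) (l : HL O n 0 n) : (l.val u).i = (ev n u l.wS).val := by
  obtain ⟨h, _ | k, m, s, q⟩ := l
  · simp only [HL.val, HL.wS, lw, lval, Ex.twist_i, Ex.std_i_S, ev_append, ev_nil, mul_one,
      Matrix.mul_one, Units.val_mul]
  · simp only [HL.val, HL.wS, lw, lval, Ex.twist_i, ev_append, ev_cons, ev_nil, mul_one,
      Units.val_mul, evalI_true, letters, Ex.glS_val]
theorem HL.wQ_val (u : Val R) (l : HL O 0 n n) : (l.val u).p = ((ev n u l.wQ)⁻¹).val := by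
  obtain ⟨h, _ | k, m, s, q⟩ := l
  · simp only [HL.val, HL.wQ, lw, lval, Ex.twist_p, Ex.std_p_Q, ev_append, ev_nil, mul_one,
      Matrix.mul_one, Units.val_mul, _root_.mul_inv_rev]
  · simp only [HL.val, HL.wQ, lw, lval, Ex.twist_p, ev_append, ev_cons, ev_nil, mul_one,
      Units.val_mul, evalI_true, letters, _root_.mul_inv_rev, Ex.glQ_inv_val, Matrix.mul_assoc]
theorem TL.wS_val (u : Val R) (l : TL O n 0 n) : (l.val u).i = ((ev n u l.wS)⁻¹).val := by
  obtain ⟨h, _ | k, s, q⟩ := l
  · simp only [TL.val, TL.wS, lw, lval, Ex.twist_i, Ex.std_i_S, ev_append, ev_nil, mul_one,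
      Units.val_one, Matrix.one_mul]
  · simp only [TL.val, TL.wS, lw, lval, Ex.twist_i, ev_append, ev_cons, ev_nil, mul_one,
      Units.val_mul, evalI_false, letters, _root_.mul_inv_rev, inv_inv, Ex.glS_val,
      Units.val_one, Matrix.one_mul]
theorem TL.wQ_val (u : Val R) (l : TL O 0 n n) : (l.val u).p = (ev n u l.wQ).val := by
  obtain ⟨h, _ | k, s, q⟩ := l
  · simp only [TL.val, TL.wQ, lw, lval, Ex.twist_p, Ex.std_p_Q, ev_append, ev_nil, mul_one,
      inv_one, inv_inv, Units.val_one, Matrix.mul_one]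
  · simp only [TL.val, TL.wQ, lw, lval, Ex.twist_p, ev_append, ev_cons, ev_nil, mul_one,
      Units.val_mul, evalI_false, letters, inv_one, inv_inv, Ex.glQ_inv_val,
      Units.val_one, Matrix.mul_one]
theorem HL.wS_occ (l : HL O n 0 n) : l.occ = wocc n l.wS + wocc 0 l.q := by
  obtain ⟨h, _ | k, m, s, q⟩ := l
  · simp [HL.occ, HL.wS, lw, locc]
  · simp only [HL.occ, HL.wS, lw, locc, wocc_append, wocc_var, wocc_nil, letterVar, add_zero]
    abel
theorem HL.wQ_occ (l : HL O 0 n n) : l.occ = wocc n l.wQ + wocc 0 l.s := by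
  obtain ⟨h, _ | k, m, s, q⟩ := l
  · simp only [HL.occ, HL.wQ, lw, locc, wocc_append, wocc_nil, add_zero, zero_add]
    abel
  · simp only [HL.occ, HL.wQ, lw, locc, wocc_append, wocc_var, wocc_nil, letterVar, add_zero]
    abel
theorem TL.wS_occ (l : TL O n 0 n) : l.occ = wocc n l.wS + wocc 0 l.q := by
  obtain ⟨h, _ | k, s, q⟩ := l
  · simp [TL.occ, TL.wS, lw, locc]
  · simp only [TL.occ, TL.wS, lw, locc, wocc_append, wocc_var, wocc_nil, letterVar, add_zero]
    abel
theorem TL.wQ_occ (l : TL O 0 n n) : l.occ = wocc n l.wQ + wocc 0 l.s := by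
  obtain ⟨h, _ | k, s, q⟩ := l
  · simp only [TL.occ, TL.wQ, lw, locc, wocc_append, wocc_nil, add_zero, zero_add]
    abel
  · simp only [TL.occ, TL.wQ, lw, locc, wocc_append, wocc_var, wocc_nil, letterVar, add_zero]
    abel

theorem r2form_sat (u : Val R) (c : HL O a b n) (r : TL O a b n) :
    (r2form c r).Sat u ↔ (c.val u).Sim (r.val u) := by
  change Grid0 ((HL.cst (Nat.add_zero a)).val u) (r.val u) ((HL.cst (Nat.zero_add b)).val u)
    ((TL.cst (Nat.add_zero a)).val u) (c.val u) ((TL.cst (Nat.zero_add b)).val u) ↔ _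
  rw [HL.cst_val, HL.cst_val, TL.cst_val, TL.cst_val]
  constructor
  · intro H
    have h1 := H.ii
    have h2 := H.pp
    rw [Ex.std_i_S, Matrix.mul_one, Matrix.mul_one] at h1
    rw [Ex.std_p_Q, Matrix.one_mul, Matrix.one_mul] at h2
    exact ⟨h1, h2.symm⟩
  · rintro ⟨h1, h2⟩
    refine ⟨by rw [h1], ?_, ?_, by rw [h2]⟩
    · rw [h1, Ex.pi]
      ext; simp [Matrix.mul_apply]
    · rw [h2, Ex.pi]
      ext; simp [Matrix.mul_apply]
theorem r2form_occ (c : HL O a b n) (r : TL O a b n) : (r2form c r).occ = c.occ + r.occ := by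
  change (HL.cst (O := O) (Nat.add_zero a)).occ + r.occ + (HL.cst (O := O) (Nat.zero_add b)).occ +
    (TL.cst (O := O) (Nat.add_zero a)).occ + c.occ + (TL.cst (O := O) (Nat.zero_add b)).occ = _
  simp [add_comm]
theorem r2form_ok {c : HL O a b n} {r : TL O a b n} (hc : c.ok) (hr : r.ok) :
    (r2form c r).ok := by
  exact ⟨fun _ => Or.inr rfl, hr, fun _ => Or.inl rfl, fun _ => Or.inr rfl, hc,
    fun _ => Or.inl rfl⟩

@[simp] theorem occ_zero : occ (0 : Sys O) = 0 := Multiset.zero_bind _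
@[simp] theorem occ_cons (v : Vx O) (S : Sys O) : occ (v ::ₘ S) = v.occ + occ S :=
  Multiset.cons_bind _ _ _
@[simp] theorem occ_singleton (v : Vx O) : occ ({v} : Sys O) = v.occ := Multiset.singleton_bind _ _
@[simp] theorem occ_add (S S' : Sys O) : occ (S + S') = occ S + occ S' := Multiset.add_bind _ _ _
@[simp] theorem mu_zero (ρ : ℕ) : mu ρ (0 : Sys O) = 0 := rfl
@[simp] theorem mu_cons (ρ : ℕ) (v : Vx O) (S : Sys O) : mu ρ (v ::ₘ S) = v.mu ρ + mu ρ S := by
  simp [mu]
@[simp] theorem mu_singleton (ρ : ℕ) (v : Vx O) : mu ρ ({v} : Sys O) = v.mu ρ := by simp [mu]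
@[simp] theorem mu_add (ρ : ℕ) (S S' : Sys O) : mu ρ (S + S') = mu ρ S + mu ρ S' := by simp [mu]
theorem sat_cons (u : Val R) (v : Vx O) (S : Sys O) : Sat u (v ::ₘ S) ↔ v.Sat u ∧ Sat u S := by
  simp [Sat]
theorem sat_add (u : Val R) (S S' : Sys O) : Sat u (S + S') ↔ Sat u S ∧ Sat u S' := by
  simp [Sat, or_imp, forall_and]
theorem sat_singleton (u : Val R) (v : Vx O) : Sat u ({v} : Sys O) ↔ v.Sat u := by simp [Sat]
theorem sat_zero (u : Val R) : Sat u (0 : Sys O) := by simp [Sat]

end Val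

/-! ## Fresh names and moves -/

theorem exists_fresh (m : Multiset (Var × Bool)) : ∃ K, ∀ o ∈ m, o.1.k < K := by
  refine ⟨(m.map fun o => o.1.k).sum + 1, fun o ho => Nat.lt_succ_of_le ?_⟩
  exact Multiset.single_le_sum (fun _ _ => Nat.zero_le _) _ (Multiset.mem_map_of_mem _ ho)

/-- Assigning values to finitely many fresh variables. -/
theorem exists_ext {R : Type*} [CommRing R] (x : Val R) (K : ℕ)
    (l : List (Σ v : Var, Ex R v.a v.b v.n)) (hl : (l.map fun p => p.1.k).Nodup)
    (hK : ∀ p ∈ l, K ≤ p.1.k) :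
    ∃ x' : Val R, (∀ v : Var, v.k < K → x' v = x v) ∧ ∀ p ∈ l, x' p.1 = p.2 := by
  induction l with
  | nil => exact ⟨x, fun _ _ => rfl, fun _ h => by cases h⟩
  | cons p l ih =>
    rw [List.map_cons, List.nodup_cons] at hl
    obtain ⟨x', h1, h2⟩ := ih hl.2 fun q hq => hK q (List.mem_cons_of_mem _ hq)
    refine ⟨Function.update x' p.1 p.2, fun v hv => ?_, fun q hq => ?_⟩
    · have := hK p List.mem_cons_self
      rw [Function.update_of_ne (by rintro rfl; omega), h1 v hv]
    · rcases List.mem_cons.1 hq with rfl | hq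
      · exact Function.update_self _ _ _
      · rw [Function.update_of_ne, h2 q hq]
        intro h
        exact hl.1 (List.mem_map.2 ⟨q, hq, by rw [h]⟩)

theorem nodup_move {Old New rest F : Multiset (Var × Bool)} {K : ℕ} (h : (Old + rest).Nodup)
    (hK : ∀ o ∈ Old + rest, o.1.k < K) (hF : F.Nodup) (hFK : ∀ o ∈ F, K ≤ o.1.k)
    (hle : New ≤ Old + F) : (New + rest).Nodup := by
  have h1 : (Old + rest + F).Nodup := Multiset.nodup_add.2 ⟨h, hF, by
    rw [Multiset.disjoint_left]
    intro o ho ho'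
    exact absurd (hK o ho) (not_lt.2 (hFK o ho'))⟩
  refine Multiset.nodup_of_le ?_ h1
  rw [add_right_comm]
  exact add_le_add_left hle _

theorem LR.exists_lifts (L : LR O) (x : Val ℂ) : ∃ u : Val L.A, Lifts L u x := by
  choose u hu using fun v => L.lift_ex (x v)
  exact ⟨u, fun v => Ex.Sim.of_eq (hu v)⟩

theorem lift_of_agree {S : Sys O} {x : Val ℂ} (L : LR O) (u : Val L.A) (hu : Sat u S)
    (h : ∀ o ∈ occ S, ((u o.1).map L.t).Sim (x o.1)) : Lift S x := by
  classical
  obtain ⟨u0, hu0⟩ := L.exists_lifts x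
  refine ⟨L, fun v => if ∃ e, (v, e) ∈ occ S then u v else u0 v, fun v => ?_,
    Sat.congr (Agree.of_eq fun o ho => ?_) hu⟩
  · dsimp only
    split_ifs with hv
    · obtain ⟨e, he⟩ := hv
      exact h _ he
    · exact hu0 v
  · rw [if_pos ⟨o.2, ho⟩]

theorem Lift.add {S S' : Sys O} {x : Val ℂ} (hd : ∀ o ∈ occ S, ∀ o' ∈ occ S', o.1 ≠ o'.1)
    (h : Lift S x) (h' : Lift S' x) : Lift (S + S') x := by
  classical
  obtain ⟨L₁, u₁, h₁, s₁⟩ := h
  obtain ⟨L₂, u₂, h₂, s₂⟩ := h'
  obtain ⟨L, f₁, f₂, e₁, e₂⟩ := LR.prod L₁.toGR L₂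
  have c₁ : L.t.comp (f₁ : L₁.A →+* L.A) = L₁.t := RingHom.ext e₁
  have c₂ : L.t.comp (f₂ : L₂.A →+* L.A) = L₂.t := RingHom.ext e₂
  refine ⟨L, fun v => if ∃ e, (v, e) ∈ occ S then u₁.map (f₁ : L₁.A →+* L.A) v
    else u₂.map (f₂ : L₂.A →+* L.A) v, fun v => ?_, (sat_add _ _ _).2
      ⟨Sat.congr (Agree.of_eq fun o ho => ?_) (s₁.map f₁),
        Sat.congr (Agree.of_eq fun o ho => ?_) (s₂.map f₂)⟩⟩
  · dsimp only
    split_ifs
    · rw [Val.map, Ex.map_map, c₁]
      exact h₁ v
    · rw [Val.map, Ex.map_map, c₂]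
      exact h₂ v
  · rw [if_pos ⟨o.2, ho⟩]
  · rw [if_neg]
    rintro ⟨e, he⟩
    exact hd _ he _ ho rfl

/-- A move without solved variable. -/
theorem lift_move0 {Old New rest : Sys O} {x x' : Val ℂ}
    (hx : ∀ o ∈ occ (Old + rest), x' o.1 = x o.1)
    (hs : ∀ (L : LR O) (u : Val L.A), Lifts L u x' → Sat u New → Sat u Old)
    (h : Lift (New + rest) x') : Lift (Old + rest) x := by
  obtain ⟨L, u, hu, hS⟩ := h
  rw [sat_add] at hS
  refine lift_of_agree L u ((sat_add _ _ _).2 ⟨hs L u hu hS.1, hS.2⟩) fun o ho => ?_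
  rw [← hx o ho]
  exact hu _

/-- A move that solves for the variable `g`. -/
theorem lift_move {Old New rest : Sys O} {x x' : Val ℂ} (g : Var) (hg : ∀ e, (g, e) ∉ occ rest)
    (hx : ∀ o ∈ occ (Old + rest), o.1 ≠ g → x' o.1 = x o.1)
    (hs : ∀ (L : LR O) (u : Val L.A), Lifts L u x' → Sat u New →
      ∃ e : Ex L.A g.a g.b g.n, (e.map L.t).Sim (x g) ∧
        ∀ u' : Val L.A, (∀ v, v ≠ g → u' v = u v) → u' g = e → Sat u' Old)
    (h : Lift (New + rest) x') : Lift (Old + rest) x := by
  obtain ⟨L, u, hu, hS⟩ := h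
  rw [sat_add] at hS
  obtain ⟨e, he, hO⟩ := hs L u hu hS.1
  refine lift_of_agree L (Function.update u g e) ((sat_add _ _ _).2
    ⟨hO _ (fun v hv => Function.update_of_ne hv _ _) (Function.update_self _ _ _),
      Sat.congr (Agree.of_eq fun o ho => ?_) hS.2⟩) fun o ho => ?_
  · rw [Function.update_of_ne]
    rintro rfl
    exact hg _ ho
  · rcases o with ⟨v, b⟩
    by_cases hv : v = g
    · subst hv
      rw [Function.update_self]
      exact he
    · rw [Function.update_of_ne hv, ← hx _ ho hv]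
      exact hu _

/-- A move that solves for the letter `φ`. -/
theorem lift_moveL {Old New rest : Sys O} {x x' : Val ℂ} (n : ℕ) (φ : Bool × ℕ)
    (hg : ∀ e, (letterVar n φ, e) ∉ occ rest)
    (hx : ∀ o ∈ occ (Old + rest), o.1 ≠ letterVar n φ → x' o.1 = x o.1)
    (hs : ∀ (L : LR O) (u : Val L.A), Lifts L u x' → Sat u New →
      ∃ M : G n L.A, gmap L.t M = letters n x φ ∧
        ∀ u' : Val L.A, (∀ v, v ≠ letterVar n φ → u' v = u v) → letters n u' φ = M → Sat u' Old)
    (h : Lift (New + rest) x') : Lift (Old + rest) x := by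
  refine lift_move (letterVar n φ) hg hx (fun L u hu hN => ?_) h
  obtain ⟨M, hM, hO⟩ := hs L u hu hN
  exact ⟨ofL n φ M, ofL_sim _ x φ M hM, fun u' h1 h2 => hO u' h1 (letters_of_eq_ofL φ M h2)⟩

end Crest.Agent.R3

end
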