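import Crest.Agent.R3.Fox
import Crest.Agent.R3.LiftB
import Crest.Agent.R3.Syn
import Crest.Agent.R3.RepAuxB

set_option autoImplicit false

noncomputable section

namespace Crest.Agent.R3

open Matrix Filter Topology

/-! Simple and semisimple families of invertible matrices. -/

section Dec
variable {R S : Type*} [CommRing R] [CommRing S] {N n : ℕ} {d : Fin N → ℕ}

theorem Dec.sum_val (D : Dec R d n) (M : ∀ t, G (d t) R) :
    (D.sum M).val = ∑ t, D.inj t * (M t).val * D.prj t := rfl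

/-- The block sum as a group homomorphism. -/
def Dec.sumHom (D : Dec R d n) : (∀ t, G (d t) R) →* G n R where
  toFun := D.sum
  map_one' := Units.ext (by simp [Dec.sum_val, D.tot])
  map_mul' M M' := Units.ext (by
    simp only [Dec.sum_val, Units.val_mul, D.mul_aux, Pi.mul_apply])

@[simp] theorem Dec.sumHom_apply (D : Dec R d n) (M : ∀ t, G (d t) R) :
    D.sumHom M = D.sum M := rfl

theorem Dec.sum_inj (D : Dec R d n) (M : ∀ t, G (d t) R) (t : Fin N) :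
    (D.sum M).val * D.inj t = D.inj t * (M t).val := by
  rw [Dec.sum_val, Matrix.sum_mul, Finset.sum_eq_single t]
  · rw [Matrix.mul_assoc, D.pi, Matrix.mul_one]
  · intro t' _ h
    rw [Matrix.mul_assoc, D.pij t' t h, Matrix.mul_zero]
  · simp
theorem Dec.prj_sum (D : Dec R d n) (M : ∀ t, G (d t) R) (t : Fin N) :
    D.prj t * (D.sum M).val = (M t).val * D.prj t := by
  rw [Dec.sum_val, Matrix.mul_sum, Finset.sum_eq_single t]
  · rw [← Matrix.mul_assoc, ← Matrix.mul_assoc, D.pi, Matrix.one_mul]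
  · intro t' _ h
    rw [← Matrix.mul_assoc, ← Matrix.mul_assoc, D.pij t t' (Ne.symm h), Matrix.zero_mul,
      Matrix.zero_mul]
  · simp
theorem Dec.map_sum (f : R →+* S) (D : Dec R d n) (M : ∀ t, G (d t) R) :
    gmap f (D.sum M) = (D.map f).sum fun t => gmap f (M t) := by
  refine Units.ext ?_
  have h := _root_.map_sum (f.mapMatrix : Mat R n n →+* Mat S n n)
    (fun t => D.inj t * (M t).val * D.prj t) Finset.univ
  simp only [RingHom.mapMatrix_apply, Matrix.map_mul] at h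
  exact h
theorem Dec.sum_scal {O : Subring ℂ} [Algebra O R] (D : Dec R d n) (ζ : Oˣ) :
    (D.sum fun t => scal R (d t) ζ) = scal R n ζ := by
  refine Units.ext ?_
  have h : ∀ k, (scal R k ζ).val = (ζ : O) • (1 : Mat R k k) := fun k =>
    Algebra.algebraMap_eq_smul_one (ζ : O)
  simp only [Dec.sum_val, h, Matrix.mul_smul, Matrix.smul_mul, Matrix.mul_one]
  rw [← Finset.smul_sum, D.tot]
theorem RepA_mul (D : Dec R d n) {k l : ℕ} (A : ∀ t, Mat R k (d t)) (B : ∀ t, Mat R (d t) l)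
    (M M' : ∀ t, Mat R (d t) (d t)) :
    (∑ t, A t * M t * D.prj t) * (∑ t, D.inj t * M' t * B t) = ∑ t, A t * (M t * M' t) * B t := by
  rw [Matrix.sum_mul]
  refine Finset.sum_congr rfl fun t _ => ?_
  rw [Matrix.mul_sum, Finset.sum_eq_single t]
  · calc _ = A t * M t * (D.prj t * D.inj t) * M' t * B t := by
          simp only [Matrix.mul_assoc]
      _ = _ := by rw [D.pi, Matrix.mul_one]; simp only [Matrix.mul_assoc]
  · intro t' _ h
    calc _ = A t * M t * (D.prj t * D.inj t') * M' t' * B t' := by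
          simp only [Matrix.mul_assoc]
      _ = 0 := by rw [D.pij t t' (Ne.symm h)]; simp
  · simp
theorem Dec.conj (D D' : Dec R d n) (M M' P : ∀ t, G (d t) R)
    (h : ∀ t, M' t = P t * M t * (P t)⁻¹) : ∃ Q : G n R, D'.sum M' = Q * D.sum M * Q⁻¹ := by
  refine ⟨⟨∑ t, D'.inj t * (P t).val * D.prj t, ∑ t, D.inj t * ((P t)⁻¹).val * D'.prj t,
    by rw [RepA_mul]; simp only [Units.mul_inv, Matrix.mul_one, D'.tot],
    by rw [RepA_mul]; simp only [Units.inv_mul, Matrix.mul_one, D.tot]⟩, Units.ext ?_⟩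
  change _ = (∑ t, D'.inj t * (P t).val * D.prj t) * (∑ t, D.inj t * (M t).val * D.prj t) *
    ∑ t, D.inj t * ((P t)⁻¹).val * D'.prj t
  rw [RepA_mul, RepA_mul, Dec.sum_val]
  simp only [h, Units.val_mul]
theorem Dec.le (D : Dec ℂ d n) (t : Fin N) : d t ≤ n := by
  obtain ⟨b, e, -⟩ := Ex.exists_of_inj (D.inj t) (D.prj t) (D.pi t)
  have := e.dim
  omega

end Dec

variable {ι : Type*} {m m' n : ℕ}

theorem schur_scal {T : ι → G m ℂ} (h : Simple T) : Scal T := by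
  intro X hX
  have : Nonempty (Fin m) := ⟨⟨0, h.1⟩⟩
  obtain ⟨c, hc⟩ := Module.End.exists_eigenvalue (Matrix.toLin' X)
  have h1 : Inv T (Module.End.eigenspace (Matrix.toLin' X) c) := fun v x hx => by
    rw [Module.End.mem_eigenspace_iff, Matrix.toLin'_apply] at hx ⊢
    rw [Matrix.mulVec_mulVec, hX v, ← Matrix.mulVec_mulVec, hx, Matrix.mulVec_smul]
  have h2 := (h.2 _ h1).resolve_left (Module.End.hasEigenvalue_iff.1 hc)
  refine ⟨c, Matrix.toLin'.injective (LinearMap.ext fun x => ?_)⟩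
  have h3 : x ∈ Module.End.eigenspace (Matrix.toLin' X) c := h2 ▸ Submodule.mem_top
  rw [Module.End.mem_eigenspace_iff] at h3
  rw [h3, Matrix.toLin'_apply, Matrix.smul_mulVec, Matrix.one_mulVec]

theorem schur_iso {T : ι → G m ℂ} {T' : ι → G m' ℂ} (h : Simple T) (h' : Simple T')
    {φ : Mat ℂ m' m} (hφ : Eqv φ T T') (h0 : φ ≠ 0) :
    ∃ ψ : Mat ℂ m m', ψ * φ = 1 ∧ φ * ψ = 1 := by
  have hne : Matrix.toLin' φ ≠ 0 := fun e => h0 (Matrix.toLin'.map_eq_zero_iff.1 e)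
  have h1 : Inv T (LinearMap.ker (Matrix.toLin' φ)) := fun v x hx => by
    rw [LinearMap.mem_ker, Matrix.toLin'_apply] at hx ⊢
    rw [Matrix.mulVec_mulVec, hφ v, ← Matrix.mulVec_mulVec, hx, Matrix.mulVec_zero]
  have h2 : Inv T' (LinearMap.range (Matrix.toLin' φ)) := by
    rintro v _ ⟨x, rfl⟩
    refine ⟨(T v).val *ᵥ x, ?_⟩
    rw [Matrix.toLin'_apply, Matrix.toLin'_apply, Matrix.mulVec_mulVec, hφ v, Matrix.mulVec_mulVec]
  have h3 := (h.2 _ h1).resolve_right fun e => hne (LinearMap.ker_eq_top.1 e)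
  have h4 := (h'.2 _ h2).resolve_left fun e => hne (LinearMap.range_eq_bot.1 e)
  obtain ⟨r, hr⟩ := exists_left_inv φ (LinearMap.ker_eq_bot'.1 h3)
  obtain ⟨s, hs⟩ := exists_right_inv φ (LinearMap.range_eq_top.1 h4)
  refine ⟨r, hr, ?_⟩
  calc φ * r = φ * (r * φ) * s := by
        rw [Matrix.mul_assoc, Matrix.mul_assoc, hs, Matrix.mul_one]
    _ = 1 := by rw [hr, Matrix.mul_one, hs]

theorem Simple.conj {T : ι → G m ℂ} (h : Simple T) (P : G m ℂ) :
    Simple fun v => P * T v * P⁻¹ := by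
  refine ⟨h.1, fun W hW => ?_⟩
  have hP : ∀ x, P.val *ᵥ ((P⁻¹).val *ᵥ x) = x := fun x => by
    rw [Matrix.mulVec_mulVec, Units.mul_inv, Matrix.one_mulVec]
  have h1 : Inv T (W.comap (Matrix.toLin' P.val)) := fun v x hx => by
    have h2 := hW v _ hx
    rw [Matrix.toLin'_apply, Matrix.mulVec_mulVec, Units.val_mul, Matrix.mul_assoc, Units.inv_mul,
      Matrix.mul_one, Units.val_mul, ← Matrix.mulVec_mulVec] at h2
    exact h2
  refine (h.2 _ h1).imp (fun e => ?_) fun e => ?_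
  · refine (Submodule.eq_bot_iff _).2 fun x hx => ?_
    have h2 : (P⁻¹).val *ᵥ x ∈ W.comap (Matrix.toLin' P.val) := by
      rw [Submodule.mem_comap, Matrix.toLin'_apply, hP]
      exact hx
    rw [e, Submodule.mem_bot] at h2
    rw [← hP x, h2, Matrix.mulVec_zero]
  · refine Submodule.eq_top_iff'.2 fun x => ?_
    have h2 : (P⁻¹).val *ᵥ x ∈ W.comap (Matrix.toLin' P.val) := e ▸ Submodule.mem_top
    rwa [Submodule.mem_comap, Matrix.toLin'_apply, hP] at h2

/-- An invariant subspace gives a sub- and a quotient representation. -/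
theorem exists_sub_quot (T : ι → G n ℂ) {w q : ℕ} (e : Ex ℂ w q n)
    (h : ∀ v, e.p * (T v).val * e.i = 0) :
    ∃ (W : ι → G w ℂ) (Q : ι → G q ℂ), Eqv e.i W T ∧ Eqv e.p T Q := by
  have h1 : ∀ v, ∃ W : G w ℂ, e.i * W.val = (T v).val * e.i := fun v => by
    have k1 := e.fac_i ((T v).val * e.i) (by rw [← Matrix.mul_assoc, h v])
    have k2 : e.r * ((T v)⁻¹).val * e.i * (e.r * ((T v).val * e.i)) = 1 := by
      rw [Matrix.mul_assoc, ← k1, Matrix.mul_assoc, ExB_inv_mul, e.ri]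
    exact ⟨⟨_, _, mul_eq_one_comm.1 k2, k2⟩, k1.symm⟩
  have h2 : ∀ v, ∃ Q : G q ℂ, e.p * (T v).val = Q.val * e.p := fun v => by
    have k1 := e.fac_p (e.p * (T v).val) (h v)
    have k2 : e.p * (T v).val * e.s * (e.p * (((T v)⁻¹).val * e.s)) = 1 := by
      rw [← Matrix.mul_assoc, ← k1, Matrix.mul_assoc, ← Matrix.mul_assoc (T v).val, Units.mul_inv,
        Matrix.one_mul, e.ps]
    exact ⟨⟨_, _, k2, mul_eq_one_comm.1 k2⟩, k1⟩
  choose W hW using h1
  choose Q hQ using h2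
  exact ⟨W, Q, hW, hQ⟩

/-- Prepend a summand to a decomposition. -/
def RepA_cons {a b N : ℕ} {d : Fin N → ℕ} (e : Ex ℂ a b n) (D : Dec ℂ d b) :
    Dec ℂ (Fin.cons a d : Fin (N + 1) → ℕ) n where
  inj t := Fin.cases (motive := fun t => Mat ℂ n ((Fin.cons a d : Fin (N + 1) → ℕ) t)) e.i
    (fun t => e.s * D.inj t) t
  prj t := Fin.cases (motive := fun t => Mat ℂ ((Fin.cons a d : Fin (N + 1) → ℕ) t) n) e.r
    (fun t => D.prj t * e.p) t
  pi t := by
    refine Fin.cases ?_ (fun t => ?_) t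
    · exact e.ri
    · change D.prj t * e.p * (e.s * D.inj t) = 1
      rw [Matrix.mul_assoc, ← Matrix.mul_assoc e.p, e.ps, Matrix.one_mul, D.pi]
  pij t t' := by
    refine Fin.cases ?_ (fun t => ?_) t <;> refine Fin.cases ?_ (fun t' => ?_) t'
    · exact fun h => absurd rfl h
    · intro _
      change e.r * (e.s * D.inj t') = 0
      rw [← Matrix.mul_assoc, e.rs, Matrix.zero_mul]
    · intro _
      change D.prj t * e.p * e.i = 0
      rw [Matrix.mul_assoc, e.pi, Matrix.mul_zero]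
    · intro h
      change D.prj t * e.p * (e.s * D.inj t') = 0
      rw [Matrix.mul_assoc, ← Matrix.mul_assoc e.p, e.ps, Matrix.one_mul,
        D.pij t t' fun h' => h (congrArg Fin.succ h')]
  tot := by
    rw [Fin.sum_univ_succ]
    change e.i * e.r + ∑ t, e.s * D.inj t * (D.prj t * e.p) = 1
    have h : ∑ t, e.s * D.inj t * (D.prj t * e.p) = e.s * (∑ t, D.inj t * D.prj t) * e.p := by
      rw [Matrix.mul_sum, Matrix.sum_mul]
      exact Finset.sum_congr rfl fun t _ => by simp only [Matrix.mul_assoc]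
    rw [h, D.tot, Matrix.mul_one, e.tot]

theorem RepA_cons_sum {a b N : ℕ} {d : Fin N → ℕ} (e : Ex ℂ a b n) (D : Dec ℂ d b)
    (W : ι → G a ℂ) (S : ∀ t, ι → G (d t) ℂ) (v : ι) :
    ((RepA_cons e D).sum fun t => Fin.cases
      (motive := fun t => ι → G ((Fin.cons a d : Fin (N + 1) → ℕ) t) ℂ) W S t v).val =
      e.i * (W v).val * e.r + e.s * (D.sum fun t => S t v).val * e.p := by
  rw [Dec.sum_val, Fin.sum_univ_succ, Dec.sum_val, Matrix.mul_sum, Matrix.sum_mul]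
  congr 1
  refine Finset.sum_congr rfl fun t _ => ?_
  change e.s * D.inj t * (S t v).val * (D.prj t * e.p) = _
  simp only [Matrix.mul_assoc]

/-- A split sequence adapted to two complementary subspaces. -/
theorem RepA_compl {W W' : Submodule ℂ (Fin n → ℂ)} (h : IsCompl W W') :
    ∃ (a b : ℕ) (e : Ex ℂ a b n), (∀ x, x ∈ W ↔ ∃ y, e.i *ᵥ y = x) ∧ (∀ x, x ∈ W ↔ e.p *ᵥ x = 0) ∧
      (∀ y, e.s *ᵥ y ∈ W') ∧ ∀ x ∈ W', e.r *ᵥ x = 0 := by
  obtain ⟨a, b, e, -, h1, h2⟩ := Ex.exists_of_submodule W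
  let P : Mat ℂ n n := LinearMap.toMatrix' (W.subtype ∘ₗ W.projectionOnto W' h)
  have hP : ∀ x, P *ᵥ x = (W.projectionOnto W' h x : Fin n → ℂ) := fun x => by
    rw [← Matrix.toLin'_apply, Matrix.toLin'_toMatrix']
    rfl
  have ext : ∀ {k l : ℕ} {X Y : Mat ℂ k l}, (∀ x, X *ᵥ x = Y *ᵥ x) → X = Y := fun h =>
    Matrix.toLin'.injective (LinearMap.ext h)
  have p1 : ∀ x ∈ W, P *ᵥ x = x := fun x hx => by
    rw [hP]
    exact congrArg Subtype.val (Submodule.projectionOnto_apply_left h ⟨x, hx⟩)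
  have p2 : ∀ x ∈ W', P *ᵥ x = 0 := fun x hx => by
    rw [hP, Submodule.projectionOnto_apply_of_mem_right h hx]
    rfl
  have p3 : ∀ x, P *ᵥ x ∈ W := fun x => by
    rw [hP]
    exact Subtype.property _
  have q1 : P * e.i = e.i := ext fun y => by
    rw [← Matrix.mulVec_mulVec, p1 _ ((h1 _).2 ⟨y, rfl⟩)]
  have q2 : e.p * P = 0 := ext fun x => by
    rw [← Matrix.mulVec_mulVec, (h2 _).1 (p3 x), Matrix.zero_mulVec]
  have q3 : P * P = P := ext fun x => by rw [← Matrix.mulVec_mulVec, p1 _ (p3 x)]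
  refine ⟨a, b, ⟨e.i, e.p, e.r * P, (1 - P) * e.s, ?_, ?_, e.pi, ?_, ?_⟩, h1, h2, fun y => ?_,
    fun x hx => ?_⟩
  · rw [Matrix.mul_assoc, q1, e.ri]
  · rw [← Matrix.mul_assoc, Matrix.mul_sub, q2, Matrix.mul_one, sub_zero, e.ps]
  · rw [Matrix.mul_assoc, ← Matrix.mul_assoc P, Matrix.mul_sub, q3, Matrix.mul_one, sub_self,
      Matrix.zero_mul, Matrix.mul_zero]
  · rw [← e.fac_i P q2, Matrix.mul_assoc, eq_sub_of_add_eq' e.tot, Matrix.mul_sub,
      ← Matrix.mul_assoc, Matrix.sub_mul 1 P e.i, q1, Matrix.one_mul, sub_self, Matrix.zero_mul,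
      Matrix.mul_one, sub_zero, add_sub_cancel]
  · change ((1 - P) * e.s) *ᵥ y ∈ W'
    obtain ⟨u, hu, u', hu', e1⟩ := Submodule.mem_sup.1
      (show e.s *ᵥ y ∈ W ⊔ W' by rw [h.sup_eq_top]; exact Submodule.mem_top)
    rw [← Matrix.mulVec_mulVec, ← e1, Matrix.sub_mulVec, Matrix.one_mulVec, Matrix.mulVec_add,
      p1 u hu, p2 u' hu', add_zero, add_sub_cancel_left]
    exact hu'
  · change (e.r * P) *ᵥ x = 0
    rw [← Matrix.mulVec_mulVec, p2 x hx, Matrix.mulVec_zero]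

theorem RepA_quot {T : ι → G n ℂ} (h : SSimple T) {w q : ℕ} (e : Ex ℂ w q n) {Q : ι → G q ℂ}
    (hQ : Eqv e.p T Q) : SSimple Q := by
  intro U hU
  have k : ∀ v x, e.p *ᵥ ((T v).val *ᵥ x) = (Q v).val *ᵥ (e.p *ᵥ x) := fun v x => by
    rw [Matrix.mulVec_mulVec, hQ v, Matrix.mulVec_mulVec]
  obtain ⟨V, hV, hc⟩ := h (U.comap (Matrix.toLin' e.p)) fun v x hx => by
    rw [Submodule.mem_comap, Matrix.toLin'_apply] at hx ⊢
    rw [k]
    exact hU v _ hx
  refine ⟨V.map (Matrix.toLin' e.p), ?_, ?_, ?_⟩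
  · rintro v _ ⟨x, hx, rfl⟩
    exact ⟨_, hV v x hx, k v x⟩
  · rw [Submodule.disjoint_def]
    rintro _ hy ⟨x, hx, rfl⟩
    rw [Submodule.disjoint_def.1 hc.disjoint x hy hx, map_zero]
  · rw [codisjoint_iff, Submodule.eq_top_iff']
    intro y
    obtain ⟨u, hu, u', hu', e1⟩ := Submodule.mem_sup.1
      (show e.s *ᵥ y ∈ U.comap (Matrix.toLin' e.p) ⊔ V by
        rw [hc.sup_eq_top]; exact Submodule.mem_top)
    refine Submodule.mem_sup.2 ⟨_, hu, _, ⟨u', hu', rfl⟩, ?_⟩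
    rw [← map_add, e1, Matrix.toLin'_apply, Matrix.mulVec_mulVec, e.ps, Matrix.one_mulVec]

theorem exists_dec {T : ι → G n ℂ} (h : SSimple T) :
    ∃ (N : ℕ) (d : Fin N → ℕ) (D : Dec ℂ d n) (S : ∀ t, ι → G (d t) ℂ),
      (∀ t, Simple (S t)) ∧ ∀ v, T v = D.sum fun t => S t v := by
  induction n using Nat.strong_induction_on with
  | _ n ih =>
  rcases Nat.eq_zero_or_pos n with rfl | hn
  · exact ⟨0, Fin.elim0, ⟨fun t => t.elim0, fun t => t.elim0, fun t => t.elim0,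
      fun t => t.elim0, Subsingleton.elim _ _⟩, fun t => t.elim0, fun t => t.elim0,
      fun v => Units.ext (Subsingleton.elim _ _)⟩
  have : Nonempty (Fin n) := ⟨⟨0, hn⟩⟩
  obtain ⟨W, ⟨hW, hW0⟩, hmin⟩ := (wellFounded_lt (α := Submodule ℂ (Fin n → ℂ))).has_min
    {W | Inv T W ∧ W ≠ ⊥} ⟨⊤, fun _ _ _ => Submodule.mem_top, top_ne_bot⟩
  obtain ⟨W', hW', hc⟩ := h W hW
  obtain ⟨a, b, e, h1, h2, h3, h4⟩ := RepA_compl hc
  have ext : ∀ {k l : ℕ} {X Y : Mat ℂ k l}, (∀ x, X *ᵥ x = Y *ᵥ x) → X = Y := fun h =>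
    Matrix.toLin'.injective (LinearMap.ext h)
  obtain ⟨A, Q, hA, hQ⟩ := exists_sub_quot T e fun v => ext fun y => by
    rw [← Matrix.mulVec_mulVec, ← Matrix.mulVec_mulVec, Matrix.zero_mulVec]
    exact (h2 _).1 (hW v _ ((h1 _).2 ⟨y, rfl⟩))
  have hi : ∀ y, e.r *ᵥ (e.i *ᵥ y) = y := fun y => by
    rw [Matrix.mulVec_mulVec, e.ri, Matrix.one_mulVec]
  have ha : 0 < a := by
    refine Nat.pos_of_ne_zero fun h0 => hW0 ((Submodule.eq_bot_iff _).2 fun x hx => ?_)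
    subst h0
    obtain ⟨y, rfl⟩ := (h1 x).1 hx
    rw [Subsingleton.elim y 0, Matrix.mulVec_zero]
  have hAs : Simple A := by
    refine ⟨ha, fun U hU => ?_⟩
    have k1 : Inv T (U.map (Matrix.toLin' e.i)) := by
      rintro v _ ⟨x, hx, rfl⟩
      refine ⟨_, hU v x hx, ?_⟩
      rw [Matrix.toLin'_apply, Matrix.toLin'_apply, Matrix.mulVec_mulVec, hA v,
        Matrix.mulVec_mulVec]
    have k2 : U.map (Matrix.toLin' e.i) ≤ W := by
      rintro _ ⟨x, -, rfl⟩
      exact (h1 _).2 ⟨x, rfl⟩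
    by_cases k3 : U.map (Matrix.toLin' e.i) = ⊥
    · refine Or.inl ((Submodule.eq_bot_iff _).2 fun x hx => ?_)
      have k4 : e.i *ᵥ x = 0 := (Submodule.eq_bot_iff _).1 k3 _ ⟨x, hx, rfl⟩
      rw [← hi x, k4, Matrix.mulVec_zero]
    · have k4 : U.map (Matrix.toLin' e.i) = W := k2.eq_of_not_lt (hmin _ ⟨k1, k3⟩)
      refine Or.inr (Submodule.eq_top_iff'.2 fun x => ?_)
      obtain ⟨y, hy, e1⟩ : e.i *ᵥ x ∈ U.map (Matrix.toLin' e.i) := k4 ▸ (h1 _).2 ⟨x, rfl⟩
      rw [← hi x, ← e1, Matrix.toLin'_apply, hi]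
      exact hy
  have hb : b < n := by
    have := e.dim
    omega
  obtain ⟨N, d, D, S, hS, hD⟩ := ih b hb (RepA_quot h e hQ)
  refine ⟨N + 1, Fin.cons a d, RepA_cons e D, fun t => Fin.cases
    (motive := fun t => ι → G ((Fin.cons a d : Fin (N + 1) → ℕ) t) ℂ) A S t,
    fun t => Fin.cases hAs hS t, fun v => Units.ext ?_⟩
  rw [RepA_cons_sum, ← hD v, hA v]
  have k1 : e.r * ((T v).val * e.s) = 0 := ext fun y => by
    rw [← Matrix.mulVec_mulVec, ← Matrix.mulVec_mulVec, Matrix.zero_mulVec]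
    exact h4 _ (hW' v _ (h3 y))
  have k2 : e.s * (Q v).val = (T v).val * e.s := by
    calc _ = e.i * (e.r * ((T v).val * e.s)) + e.s * ((Q v).val * e.p * e.s) := by
          rw [k1, Matrix.mul_zero, zero_add, Matrix.mul_assoc, e.ps, Matrix.mul_one]
      _ = (e.i * e.r + e.s * e.p) * ((T v).val * e.s) := by
          rw [← hQ v]
          simp only [Matrix.add_mul, Matrix.mul_assoc]
      _ = _ := by rw [e.tot, Matrix.one_mul]
  rw [k2, Matrix.mul_assoc, Matrix.mul_assoc, ← Matrix.mul_add, e.tot, Matrix.mul_one]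

theorem ssimple_of_dec {N : ℕ} {d : Fin N → ℕ} (D : Dec ℂ d n) (S : ∀ t, ι → G (d t) ℂ)
    (h : ∀ t, Simple (S t)) : SSimple fun v => D.sum fun t => S t v :=
  RepB_ssimple_of_dec D S h _ fun t v => (D.sum_inj (fun t => S t v) t).symm

/-- The radical. -/
theorem exists_rad (T : ι → G n ℂ) (hn : 0 < n) :
    ∃ (w q : ℕ) (e : Ex ℂ w q n) (W : ι → G w ℂ) (Q : ι → G q ℂ), w < n ∧ Eqv e.i W T ∧
      Eqv e.p T Q ∧ SSimple Q ∧ ∀ (k : ℕ) (S : ι → G k ℂ) (φ : Mat ℂ k n), Simple S →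
        Eqv φ T S → φ * e.i = 0 :=
  RepB_exists_rad T hn fun e h => exists_sub_quot T e h

end Crest.Agent.R3

end
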