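import Crest.Agent.R3.Fox

set_option autoImplicit false

noncomputable section

namespace Crest.Agent.R3

open Matrix Filter Topology

/-! Tangent vectors of the representation variety. -/

variable {g m : ℕ}

/-- Prepend a handle. -/
def Tang_cons {α : Type*} (x y : α) (c : Fin g × Bool → α) : Fin (g + 1) × Bool → α :=
  fun v => Fin.cases (motive := fun _ => α) (if v.2 then y else x) (fun i => c (i, v.2)) v.1

theorem Tang_fox (T : Fin (g + 1) × Bool → G m ℂ) (x y : Mat ℂ m m)
    (c : Fin g × Bool → Mat ℂ m m) : fox T T (Tang_cons x y c) =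
      dcomm (T (0, false)) (T (0, true)) (T (0, false)) (T (0, true)) x y * (cprod (tail T)).val +
        (comm (T (0, false)) (T (0, true))).val * fox (tail T) (tail T) c := rfl

theorem Tang_da (a b : G m ℂ) (η : Mat ℂ m m) : dcomm a b a b (η * a.val) 0 =
    η * (comm a b).val - (comm a b).val * (b.val * (η * (b⁻¹).val)) := by
  simp only [dcomm, comm, Units.val_mul, Matrix.mul_assoc, Matrix.mul_zero, Matrix.zero_mul,
    add_zero, sub_zero, Fox_inv_mul, Fox_mul_inv]

theorem Tang_db (a b : G m ℂ) (z : Mat ℂ m m) : dcomm a b a b 0 (b.val * z) =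
    (comm a b).val * (b.val * (a.val * z * (a⁻¹).val - z) * (b⁻¹).val) := by
  simp only [dcomm, comm, Units.val_mul, Matrix.mul_assoc, Matrix.mul_zero, Matrix.zero_mul,
    zero_add, sub_zero, Fox_inv_mul, Matrix.mul_sub, Matrix.sub_mul]

theorem Tang_comm_k {T : Fin (g + 1) × Bool → G m ℂ} {ζ : ℂ} (hT : (cprod T).val = ζ • 1)
    {X : Mat ℂ m m} (hX : X ∈ Com (tail T)) :
    X * (comm (T (0, false)) (T (0, true))).val = (comm (T (0, false)) (T (0, true))).val * X := by
  have h1 : comm (T (0, false)) (T (0, true)) = cprod T * (cprod (tail T))⁻¹ := by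
    rw [cprod_succ, mul_inv_cancel_right]
  rw [h1]
  exact Fox_int_mul (by rw [hT]; simp) (Fox_int_inv (Eqv.cprod hX))

/-- The image of the differential when `b₀` is frozen. -/
theorem Tang_frozen {T : Fin (g + 1) × Bool → G m ℂ} {ζ : ℂ} (hT : (cprod T).val = ζ • 1)
    (ω : Mat ℂ m m) (h : ∀ Y ∈ Com (cut T), (Y * ((cprod T)⁻¹).val * ω).trace = 0) :
    ∃ ξ, ξ (0, true) = 0 ∧ fox T T ξ = ω := by
  refine trace_dual ((LinearMap.ker (LinearMap.proj (R := ℂ)
    (φ := fun _ : Fin (g + 1) × Bool => Mat ℂ m m) (0, true))).map (foxL T T)) ω fun X hX => ?_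
  have e : (cprod T).val = (comm (T (0, false)) (T (0, true))).val * (cprod (tail T)).val := rfl
  have h1 : Eqv (X * (cprod T).val) (tail T) (tail T) := by
    rw [e, ← Matrix.mul_assoc]
    refine fox_ann fun c => ?_
    have := hX _ ⟨Tang_cons 0 0 c, rfl, rfl⟩
    rw [foxL_apply, Tang_fox] at this
    simpa only [dcomm, Matrix.mul_zero, Matrix.zero_mul, add_zero, sub_zero, zero_add,
      Matrix.mul_assoc] using this
  have h2 : (cprod (tail T)).val * X * (comm (T (0, false)) (T (0, true))).val =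
      X * (cprod T).val := by
    have := congrArg (· * ((cprod (tail T))⁻¹).val) h1.cprod
    simp only [Matrix.mul_assoc, Units.mul_inv, Matrix.mul_one] at this
    rw [this, e]
    simp only [Matrix.mul_assoc, Units.mul_inv, Matrix.mul_one]
  have h3 : X * (cprod T).val =
      ((T (0, true))⁻¹).val * (X * (cprod T).val) * (T (0, true)).val := by
    refine Matrix.ext_iff_trace_mul_right.2 fun η => ?_
    have := hX _ ⟨Tang_cons (η * (T (0, false)).val) 0 0, rfl, rfl⟩
    rw [foxL_apply, Tang_fox, Fox_zero, Matrix.mul_zero, add_zero, Tang_da, Matrix.sub_mul,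
      Matrix.mul_sub, trace_sub, sub_eq_zero, Matrix.mul_assoc η, ← e, ← Matrix.mul_assoc X
        (_ * _), trace_mul_comm _ (cprod (tail T)).val, ← Matrix.mul_assoc X (Units.val (comm _ _)),
      ← Matrix.mul_assoc (cprod (tail T)).val, ← Matrix.mul_assoc (cprod (tail T)).val, h2,
      ← Matrix.mul_assoc (X * (cprod T).val), ← Matrix.mul_assoc (_ * _) η,
      trace_mul_comm _ ((T (0, true))⁻¹).val] at this
    simp only [Matrix.mul_assoc] at this ⊢
    rw [← this, hT]
    simp
  have := h (X * (cprod T).val) fun v => by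
    cases v with
    | none =>
      change _ * (T (0, true)).val = (T (0, true)).val * _
      conv_rhs => rw [h3]
      rw [Matrix.mul_assoc _ (X * _), Fox_mul_inv]
    | some v => exact h1 v
  rwa [Matrix.mul_assoc X, Units.mul_inv, Matrix.mul_one] at this

theorem fsurj_all (T : Fin g × Bool → G m ℂ) (h : Scal T) : FSurj T fun _ => False := by
  intro ω hω
  obtain ⟨ξ, hξ⟩ := fox_surj T (ω * ((cprod T)⁻¹).val) fun X hX => by
    obtain ⟨c, rfl⟩ := h X hX
    rw [Matrix.smul_mul, Matrix.one_mul, trace_smul, hω, smul_zero]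
  exact ⟨ξ, fun _ => False.elim, by rw [hξ, Matrix.mul_assoc, Units.inv_mul, Matrix.mul_one]⟩

theorem fsurj_b (T : Fin (g + 1) × Bool → G m ℂ) (ζ : ℂ) (hT : (cprod T).val = ζ • 1)
    (h : Scal (cut T)) : FSurj T fun v => v = (0, true) := by
  intro ω hω
  obtain ⟨ξ, h1, h2⟩ := Tang_frozen hT ω fun Y hY => by
    obtain ⟨c, rfl⟩ := h Y hY
    rw [Matrix.smul_mul, Matrix.smul_mul, Matrix.one_mul, trace_smul, trace_mul_comm, hω, smul_zero]
  exact ⟨ξ, fun _ hv => hv ▸ h1, h2⟩

theorem tang_tail (T : Fin (g + 1) × Bool → G m ℂ) (c : Fin g × Bool → Mat ℂ m m)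
    (h : ∀ X ∈ Com fun e : Bool => T (0, e),
      (X * (fox (tail T) (tail T) c * ((cprod (tail T))⁻¹).val)).trace = 0) :
    ∃ ξ, fox T T ξ = 0 ∧ tail ξ = c := by
  obtain ⟨ξ, hξ⟩ := fox_surj (fun v : Fin 1 × Bool => T (0, v.2))
    (-((comm (T (0, false)) (T (0, true))).val * (fox (tail T) (tail T) c *
      ((cprod (tail T))⁻¹).val) * ((comm (T (0, false)) (T (0, true)))⁻¹).val)) fun X hX => by
    rw [Matrix.mul_neg, trace_neg, ← Matrix.mul_assoc, ← Matrix.mul_assoc,
      Fox_int_comm (hX (0, false)) (hX (0, true)), trace_mul_comm, Matrix.mul_assoc, Fox_inv_mul,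
      h X fun e => hX (0, e), neg_zero]
  refine ⟨Tang_cons (ξ (0, false)) (ξ (0, true)) c, ?_, rfl⟩
  simp only [cprod_succ, cprod_zero, Units.val_one, mul_one, fox, Matrix.mul_zero,
    add_zero] at hξ
  rw [Tang_fox, hξ]
  simp only [Matrix.neg_mul, Matrix.mul_assoc, Units.inv_mul, Matrix.mul_one, neg_add_cancel]

theorem tang_a (T : Fin (g + 1) × Bool → G m ℂ) (ζ : ℂ) (hT : (cprod T).val = ζ • 1)
    (η : Mat ℂ m m) (h : ∀ X ∈ Com (tail T),
      ((X - ((T (0, true))⁻¹).val * X * (T (0, true)).val) * η).trace = 0) :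
    ∃ ξ, fox T T ξ = 0 ∧ ξ (0, true) = 0 ∧ ξ (0, false) = η * (T (0, false)).val := by
  obtain ⟨c, hc⟩ := fox_surj (tail T) (-(((comm (T (0, false)) (T (0, true)))⁻¹).val *
      dcomm (T (0, false)) (T (0, true)) (T (0, false)) (T (0, true)) (η * (T (0, false)).val) 0))
    fun X hX => by
    have h1 := h X hX
    rw [Matrix.sub_mul, trace_sub] at h1
    rw [Matrix.mul_neg, trace_neg, neg_eq_zero, Tang_da, Matrix.mul_sub, Fox_inv_mul,
      Matrix.mul_sub, trace_sub, ← Matrix.mul_assoc X, Fox_int_inv (Tang_comm_k hT hX),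
      ← Matrix.mul_assoc _ η, trace_mul_comm, Matrix.mul_assoc _ X, Fox_mul_inv,
      ← Matrix.mul_assoc _ η, ← Matrix.mul_assoc X, trace_mul_comm _ ((T (0, true))⁻¹).val]
    simpa only [Matrix.mul_assoc] using h1
  refine ⟨Tang_cons (η * (T (0, false)).val) 0 c, ?_, rfl, rfl⟩
  rw [Tang_fox, hc, Matrix.neg_mul, Matrix.mul_neg, Matrix.mul_assoc, Fox_mul_inv, add_neg_cancel]

theorem tang_b (T : Fin (g + 1) × Bool → G m ℂ) (ζ : ℂ) (hT : (cprod T).val = ζ • 1)
    (z : Mat ℂ m m) (h : ∀ X ∈ Com (cut T),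
      ((((T (0, false))⁻¹).val * X * (T (0, false)).val - X) * z).trace = 0) :
    ∃ ξ, fox T T ξ = 0 ∧ ξ (0, true) = (T (0, true)).val * z := by
  obtain ⟨ξ, h1, h2⟩ := Tang_frozen hT (-fox T T (Tang_cons 0 ((T (0, true)).val * z) 0))
    fun Y hY => by
    have h1 := h Y hY
    have h2 : Y * (T (0, true)).val = (T (0, true)).val * Y := hY none
    have h3 := Fox_int_inv (Eqv.cprod (φ := Y) (W := tail T) (Q := tail T) fun v => hY (some v))
    rw [Matrix.sub_mul, trace_sub] at h1
    rw [Matrix.mul_neg, trace_neg, neg_eq_zero, Tang_fox, Fox_zero, Matrix.mul_zero, add_zero,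
      Tang_db, cprod_succ, _root_.mul_inv_rev, Units.val_mul, ← Matrix.mul_assoc Y, h3,
      ← Matrix.mul_assoc, trace_mul_comm, Matrix.mul_assoc _ Y, Matrix.mul_assoc _ (Y * _),
      Fox_mul_inv, Matrix.mul_assoc Y, Fox_inv_mul, ← Matrix.mul_assoc, trace_mul_comm,
      ← Matrix.mul_assoc Y, h2, Matrix.mul_assoc _ Y, Fox_inv_mul, Matrix.mul_sub, trace_sub,
      ← Matrix.mul_assoc, trace_mul_comm]
    simpa only [Matrix.mul_assoc] using h1
  refine ⟨ξ + Tang_cons 0 ((T (0, true)).val * z) 0, by rw [fox_add, h2, neg_add_cancel], ?_⟩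
  rw [Pi.add_apply, h1, zero_add]
  rfl

end Crest.Agent.R3

end
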