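import Crest.Agent.R3.Ext
import Crest.Agent.R3.Tang
import Crest.Agent.R3.Rep

set_option autoImplicit false

noncomputable section

namespace Crest.Agent.R3

open Matrix Filter Topology

/-! Generically the commutant of the cut surface is scalar. -/

variable {g m : ℕ}

namespace D2Aux

theorem exists_ginv (M : Mat ℂ m m) : ∃ G : Mat ℂ m m, M * G * M = M := by
  obtain ⟨s, hs⟩ := (Matrix.toLin' M).rangeRestrict.exists_rightInverse_of_surjective
    (LinearMap.range_rangeRestrict _)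
  obtain ⟨G, hG⟩ := LinearMap.exists_extend s
  refine ⟨LinearMap.toMatrix' G, Matrix.toLin'.injective (LinearMap.ext fun v => ?_)⟩
  rw [Matrix.toLin'_mul, Matrix.toLin'_mul, Matrix.toLin'_toMatrix']
  have h1 := LinearMap.congr_fun hG ((Matrix.toLin' M).rangeRestrict v)
  have h2 := congrArg Subtype.val (LinearMap.congr_fun hs ((Matrix.toLin' M).rangeRestrict v))
  exact (congrArg (Matrix.toLin' M) h1).trans h2

theorem eq_zero {M : Mat ℂ m m} (h : ∀ x, M *ᵥ x = 0) : M = 0 :=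
  Matrix.toLin'.injective (LinearMap.ext fun x => by
    rw [Matrix.toLin'_apply, map_zero, LinearMap.zero_apply, h])

theorem trace_nil {M : Mat ℂ m m} (h : IsNilpotent M) : M.trace = 0 :=
  (Matrix.isNilpotent_trace_of_isNilpotent h).eq_zero

theorem pow_nil {M : Mat ℂ m m} (h : IsNilpotent M) {k : ℕ} (hk : m ≤ k) : M ^ k = 0 := by
  have h1 := (Matrix.isNilpotent_charpoly_sub_pow_of_isNilpotent h).eq_zero
  have h2 := Matrix.aeval_self_charpoly M
  rw [sub_eq_zero.1 h1, map_pow, Polynomial.aeval_X, Fintype.card_fin] at h2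
  exact pow_eq_zero_of_le hk h2

/-- The derivative of the `k`-th power. -/
def D (N N' : Mat ℂ m m) (k : ℕ) : Mat ℂ m m :=
  ∑ i ∈ Finset.range k, N ^ i * N' * N ^ (k - 1 - i)

theorem D_succ (N N' : Mat ℂ m m) (k : ℕ) : D N N' (k + 1) = N * D N N' k + N' * N ^ k := by
  rw [D, D, Finset.sum_range_succ', Finset.mul_sum]
  congr 1
  · refine Finset.sum_congr rfl fun i _ => ?_
    rw [show k + 1 - 1 - (i + 1) = k - 1 - i by omega, pow_succ']
    simp only [Matrix.mul_assoc]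
  · simp

theorem D_comm {N b N' b' : Mat ℂ m m} (hb : N * b = b * N)
    (hd : N' * b + N * b' = b' * N + b * N') (k : ℕ) :
    D N N' k * b + N ^ k * b' = b' * N ^ k + b * D N N' k := by
  induction k with
  | zero => simp [D]
  | succ k ih =>
    have hk : N ^ k * b = b * N ^ k := (Commute.pow_left hb k).eq
    calc D N N' (k + 1) * b + N ^ (k + 1) * b' =
          N * (D N N' k * b + N ^ k * b') + N' * (N ^ k * b) := by
          rw [D_succ, pow_succ']; noncomm_ring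
      _ = (N' * b + N * b') * N ^ k + N * b * D N N' k := by rw [ih, hk]; noncomm_ring
      _ = _ := by rw [hd, hb, D_succ, pow_succ']; noncomm_ring

theorem exists_Y {N N' : Mat ℂ m m}
    (hk : ∀ (k : ℕ) (x : Fin m → ℂ), (N ^ k) *ᵥ x = 0 → ∃ y, D N N' k *ᵥ x = (N ^ k) *ᵥ y)
    (n : ℕ) : ∃ Y : Mat ℂ m m, ∀ k ≤ n, ∀ x, (N ^ k) *ᵥ x = 0 → (D N N' k + N ^ k * Y) *ᵥ x = 0 := by
  induction n with
  | zero =>
    refine ⟨0, fun k hk x _ => ?_⟩
    obtain rfl : k = 0 := by omega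
    simp [D]
  | succ n ih =>
    obtain ⟨Y, hY⟩ := ih
    obtain ⟨G, hG⟩ := exists_ginv (N ^ (n + 1))
    set E := D N N' (n + 1) + N ^ (n + 1) * Y with hE
    have e : ∀ k, D N N' k + N ^ k * (Y - G * E) = (D N N' k + N ^ k * Y) - N ^ k * G * E :=
      fun k => by noncomm_ring
    refine ⟨Y - G * E, fun k hkn x hx => ?_⟩
    rw [e, Matrix.sub_mulVec, ← Matrix.mulVec_mulVec x (N ^ k * G)]
    rcases hkn.lt_or_eq with hlt | rfl
    · have hxn : (N ^ n) *ᵥ x = 0 := by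
        obtain ⟨j, rfl⟩ : ∃ j, n = j + k := ⟨n - k, by omega⟩
        rw [pow_add, ← Matrix.mulVec_mulVec, hx, Matrix.mulVec_zero]
      have h0 : E *ᵥ x = 0 := by
        have : E = N * (D N N' n + N ^ n * Y) + N' * N ^ n := by
          rw [hE, D_succ, pow_succ']; noncomm_ring
        rw [this, Matrix.add_mulVec, ← Matrix.mulVec_mulVec, ← Matrix.mulVec_mulVec,
          hY n le_rfl x hxn, hxn, Matrix.mulVec_zero, Matrix.mulVec_zero, add_zero]
      rw [hY k (by omega) x hx, h0, Matrix.mulVec_zero, sub_zero]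
    · obtain ⟨y, hy⟩ := hk _ x hx
      have h1 : E *ᵥ x = (N ^ (n + 1)) *ᵥ (y + Y *ᵥ x) := by
        rw [hE, Matrix.add_mulVec, hy, Matrix.mulVec_add, Matrix.mulVec_mulVec]
      rw [← hE, h1, Matrix.mulVec_mulVec, hG, sub_self]

end D2Aux

open D2Aux in
theorem nt_lemma (N b c N' b' : Mat ℂ m m) (hN : IsNilpotent N) (hb : N * b = b * N)
    (hc1 : c * b = b * c) (hc2 : c * N = N * c) (hd : N' * b + N * b' = b' * N + b * N')
    (hk : ∀ (k : ℕ) (x : Fin m → ℂ), (N ^ k) *ᵥ x = 0 →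
      ∃ y, (∑ i ∈ Finset.range k, N ^ i * N' * N ^ (k - 1 - i)) *ᵥ x = (N ^ k) *ᵥ y) :
    (N * c * b').trace = 0 := by
  obtain ⟨n, hn⟩ := hN
  obtain ⟨Y, hY⟩ := exists_Y (N := N) (N' := N') hk n
  set B := b' - (Y * b - b * Y) with hB
  have hpres : ∀ k ≤ n, ∀ x, (N ^ k) *ᵥ x = 0 → (N ^ k * B) *ᵥ x = 0 := by
    intro k hkn x hx
    have hc : N ^ k * b = b * N ^ k := (Commute.pow_left hb k).eq
    have hbx : (N ^ k) *ᵥ (b *ᵥ x) = 0 := by
      rw [Matrix.mulVec_mulVec, hc, ← Matrix.mulVec_mulVec, hx, Matrix.mulVec_zero]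
    have e : N ^ k * B = b' * N ^ k + b * (D N N' k + N ^ k * Y) - (D N N' k + N ^ k * Y) * b := by
      have h1 := D_comm hb hd k
      calc N ^ k * B = (D N N' k * b + N ^ k * b') + N ^ k * b * Y -
            (D N N' k + N ^ k * Y) * b := by rw [hB]; noncomm_ring
        _ = _ := by rw [h1, hc]; noncomm_ring
    rw [e, Matrix.sub_mulVec, Matrix.add_mulVec, ← Matrix.mulVec_mulVec, ← Matrix.mulVec_mulVec,
      ← Matrix.mulVec_mulVec, hx, hY k hkn x hx, hY k hkn _ hbx]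
    simp
  have hnil : ∀ k ≤ n, ∀ x, (N ^ k) *ᵥ x = 0 → ((N * c * B) ^ k) *ᵥ x = 0 := by
    intro k
    induction k with
    | zero => exact fun _ x hx => by simpa using hx
    | succ k ih =>
      intro hkn x hx
      rw [pow_succ, ← Matrix.mulVec_mulVec]
      refine ih (by omega) _ ?_
      have hc : N ^ (k + 1) * c = c * N ^ (k + 1) := (Commute.pow_left hc2.symm _).eq
      have e : N ^ k * (N * c * B) = c * (N ^ (k + 1) * B) := by
        rw [← Matrix.mul_assoc c, ← hc, pow_succ]; simp only [Matrix.mul_assoc]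
      rw [Matrix.mulVec_mulVec, e, ← Matrix.mulVec_mulVec, hpres _ hkn x hx, Matrix.mulVec_zero]
  have h0 : (N * c * B).trace = 0 :=
    trace_nil ⟨n, eq_zero fun x => hnil n le_rfl x (by rw [hn, Matrix.zero_mulVec])⟩
  have h1 : (N * c * Y * b).trace = (N * c * b * Y).trace := by
    rw [Matrix.trace_mul_comm, ← Matrix.mul_assoc, ← Matrix.mul_assoc, ← hb, Matrix.mul_assoc N b,
      ← hc1, ← Matrix.mul_assoc]
  have e : N * c * b' = N * c * B + N * c * Y * b - N * c * b * Y := by rw [hB]; noncomm_ring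
  rw [e, Matrix.trace_sub, Matrix.trace_add, h0, h1, zero_add, sub_self]

namespace D2Aux

/-- The traceless part. -/
def tl (X : Mat ℂ m m) : Mat ℂ m m := X - (X.trace / m) • (1 : Mat ℂ m m)

theorem trace_tl (hm : 0 < m) (X : Mat ℂ m m) : (tl X).trace = 0 := by
  have : (m : ℂ) ≠ 0 := by exact_mod_cast hm.ne'
  rw [tl, Matrix.trace_sub, Matrix.trace_smul, Matrix.trace_one, Fintype.card_fin, smul_eq_mul,
    div_mul_cancel₀ _ this, sub_self]

theorem tl_of_trace {X : Mat ℂ m m} (h : X.trace = 0) : tl X = X := by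
  rw [tl, h, zero_div, zero_smul, sub_zero]

theorem one_mem {ι : Type*} (T : ι → G m ℂ) : (1 : Mat ℂ m m) ∈ Com T := fun v => by
  rw [Matrix.one_mul, Matrix.mul_one]

theorem tl_mem {ι : Type*} {T : ι → G m ℂ} {X : Mat ℂ m m} (h : X ∈ Com T) : tl X ∈ Com T :=
  (Com T).sub_mem h ((Com T).smul_mem _ (one_mem T))

theorem mul_mem {ι : Type*} {T : ι → G m ℂ} {X Y : Mat ℂ m m} (h : X ∈ Com T) (h' : Y ∈ Com T) :
    X * Y ∈ Com T := fun v => by
  rw [Matrix.mul_assoc, h' v, ← Matrix.mul_assoc, h v, Matrix.mul_assoc]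

theorem mem_tail {T : Fin (g + 1) × Bool → G m ℂ} {X : Mat ℂ m m} (h : X ∈ Com (cut T)) :
    X ∈ Com (tail T) := fun v => h (some v)

/-- The traceless part of the commutant. -/
def J {ι : Type*} (T : ι → G m ℂ) : Submodule ℂ (Mat ℂ m m) :=
  Com T ⊓ LinearMap.ker (Matrix.traceLinearMap (Fin m) ℂ ℂ)

theorem mem_J {ι : Type*} {T : ι → G m ℂ} {X : Mat ℂ m m} : X ∈ J T ↔ X ∈ Com T ∧ X.trace = 0 :=
  Iff.rfl

theorem trace_mul {ι : Type*} {T : ι → G m ℂ} (hL : Loc T) (hm : 0 < m) {X Y : Mat ℂ m m}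
    (hX : X ∈ Com T) (hX0 : X.trace = 0) (hY : Y ∈ Com T) : (X * Y).trace = 0 := by
  by_contra h
  have : Nonempty (Fin m) := ⟨⟨0, hm⟩⟩
  have hm' : (m : ℂ) ≠ 0 := by exact_mod_cast hm.ne'
  have h1 := hL _ (tl_mem (mul_mem hX hY)) (trace_tl hm _)
  have h2 : IsUnit (((X * Y).trace / m) • (1 : Mat ℂ m m)) := by
    rw [← Algebra.algebraMap_eq_smul_one]
    exact (div_ne_zero h hm').isUnit.map _
  have h3 := h1.isUnit_add_right_of_commute h2 ((Commute.one_right _).smul_right _)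
  rw [tl, sub_add_cancel, Matrix.isUnit_iff_isUnit_det, Matrix.det_mul] at h3
  exact (hL X hX hX0).not_isUnit ((Matrix.isUnit_iff_isUnit_det X).2 (isUnit_of_mul_isUnit_left h3))

/-- A multiplicatively closed space of nilpotent matrices has a common kernel. -/
theorem exists_ker (hm : 0 < m) (W : Submodule ℂ (Mat ℂ m m))
    (hmul : ∀ X ∈ W, ∀ Y ∈ W, X * Y ∈ W) (hnil : ∀ X ∈ W, IsNilpotent X) :
    ∃ w : Fin m → ℂ, w ≠ 0 ∧ ∀ X ∈ W, X *ᵥ w = 0 := by
  let ev : (Fin m → ℂ) → Mat ℂ m m →ₗ[ℂ] (Fin m → ℂ) := fun w =>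
    { toFun := fun X => X *ᵥ w
      map_add' := fun X Y => Matrix.add_mulVec X Y w
      map_smul' := fun c X => Matrix.smul_mulVec c X w }
  have : Nonempty (Fin m) := ⟨⟨0, hm⟩⟩
  obtain ⟨w, hw, hmin⟩ := exists_minimalFor_of_wellFoundedLT (fun w : Fin m → ℂ => w ≠ 0)
    (fun w => Module.finrank ℂ (W.map (ev w))) (exists_ne 0)
  refine ⟨w, hw, fun X hX => by_contra fun h => ?_⟩
  have hle : W.map (ev (X *ᵥ w)) ≤ W.map (ev w) := by
    rintro _ ⟨Y, hY, rfl⟩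
    exact ⟨Y * X, hmul Y hY X hX, (Matrix.mulVec_mulVec w Y X).symm⟩
  have heq := Submodule.eq_of_le_of_finrank_le hle (hmin h (Submodule.finrank_mono hle))
  obtain ⟨Y, hY, hYe⟩ : X *ᵥ w ∈ W.map (ev (X *ᵥ w)) := heq ▸ ⟨X, hX, rfl⟩
  have hYe' : Y *ᵥ (X *ᵥ w) = X *ᵥ w := hYe
  obtain ⟨n, hn⟩ := hnil Y hY
  have : ∀ k, (Y ^ k) *ᵥ (X *ᵥ w) = X *ᵥ w := fun k => by
    induction k with
    | zero => simp
    | succ k ih => rw [pow_succ, ← Matrix.mulVec_mulVec, hYe', ih]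
  exact h (by rw [← this n, hn, Matrix.zero_mulVec])

end D2Aux

open D2Aux in
theorem d2_core (T : Fin (g + 1) × Bool → G m ℂ) (ζ : ℂ) (hT : (cprod T).val = ζ • 1)
    (hS : Simple T) (hL : Loc (tail T))
    (h : ∀ N ∈ Com (cut T), N.trace = 0 → ∀ ξ, fox T T ξ = 0 →
      (N * ((T (0, true))⁻¹).val * ξ (0, true)).trace = 0) : Scal (cut T) := by
  have hm := hS.1
  let φ : Mat ℂ m m →ₗ[ℂ] Mat ℂ m m :=
    { toFun := fun X => ((T (0, false))⁻¹).val * X * (T (0, false)).val - X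
      map_add' := fun X Y => by noncomm_ring
      map_smul' := fun c X => by
        simp only [Matrix.mul_smul, Matrix.smul_mul, RingHom.id_apply, smul_sub] }
  have hφ : ∀ X, φ X = ((T (0, false))⁻¹).val * X * (T (0, false)).val - X := fun _ => rfl
  have hφtl : ∀ X, φ (tl X) = φ X := fun X => by
    have h1 : φ 1 = 0 := by rw [hφ, Matrix.mul_one, Units.inv_mul, sub_self]
    rw [tl, map_sub, map_smul, h1, smul_zero, sub_zero]
  have hle : J (cut T) ≤ (J (cut T)).map φ := by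
    intro N hN
    refine trace_dual _ N fun z hz => ?_
    obtain ⟨ξ, hξ, hξb⟩ := tang_b T ζ hT z fun X hX => by
      rw [← hφ, ← hφtl, Matrix.trace_mul_comm]
      exact hz _ ⟨tl X, ⟨tl_mem hX, trace_tl hm X⟩, rfl⟩
    have := h N hN.1 hN.2 ξ hξ
    rwa [hξb, Matrix.mul_assoc, Fox_inv_mul, Matrix.trace_mul_comm] at this
  have heq := Submodule.eq_of_le_of_finrank_le hle (Submodule.finrank_map_le _ _)
  have hconj : ∀ N ∈ J (cut T), ((T (0, false))⁻¹).val * N * (T (0, false)).val ∈ J (cut T) := by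
    intro N hN
    have h1 : φ N ∈ J (cut T) := by rw [heq]; exact ⟨N, hN, rfl⟩
    have h2 := (J (cut T)).add_mem h1 hN
    rwa [hφ, sub_add_cancel] at h2
  obtain ⟨w, hw, hw0⟩ := exists_ker hm (J (cut T))
    (fun X hX Y hY => ⟨mul_mem hX.1 hY.1, trace_mul hL hm (mem_tail hX.1) hX.2 (mem_tail hY.1)⟩)
    fun X hX => hL X (mem_tail hX.1) hX.2
  let K : Submodule ℂ (Fin m → ℂ) :=
    { carrier := {x | ∀ X ∈ J (cut T), X *ᵥ x = 0}
      add_mem' := fun hx hy X hX => by rw [Matrix.mulVec_add, hx X hX, hy X hX, add_zero]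
      zero_mem' := fun X _ => Matrix.mulVec_zero X
      smul_mem' := fun c x hx X hX => by rw [Matrix.mulVec_smul, hx X hX, smul_zero] }
  have hcut : ∀ o, ∀ x ∈ K, (cut T o).val *ᵥ x ∈ K := fun o x hx X hX => by
    rw [Matrix.mulVec_mulVec, hX.1 o, ← Matrix.mulVec_mulVec, hx X hX, Matrix.mulVec_zero]
  have hK : Inv T K := by
    rintro ⟨i, e⟩
    refine Fin.cases ?_ (fun i => hcut (some (i, e))) i
    cases e
    · intro x hx X hX
      rw [Matrix.mulVec_mulVec, ← Fox_mul_inv (T (0, false)) (X * _), ← Matrix.mul_assoc _ X,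
        ← Matrix.mulVec_mulVec, hx _ (hconj X hX), Matrix.mulVec_zero]
    · exact hcut none
  rcases hS.2 K hK with h0 | h0
  · exact absurd ((Submodule.eq_bot_iff K).1 h0 w hw0) hw
  · intro X hX
    have h1 : tl X = 0 := eq_zero fun x =>
      (Submodule.eq_top_iff'.1 h0 x) _ ⟨tl_mem hX, trace_tl hm X⟩
    exact ⟨_, sub_eq_zero.1 h1⟩

namespace D2Aux

/-- The sum of the ranks of the powers. -/
def rho (N : Mat ℂ m m) : ℕ := ∑ k ∈ Finset.range m, (N ^ k).rank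

theorem rho_le (N : Mat ℂ m m) : rho N ≤ m * m := by
  have := Finset.sum_le_card_nsmul (Finset.range m) (fun k => (N ^ k).rank) m
    fun k _ => by simpa using Matrix.rank_le_card_width (N ^ k)
  rwa [Finset.card_range, smul_eq_mul] at this

theorem ev_rank {N : ℂ → Mat ℂ m m} (h : ContinuousAt N 0) :
    ∀ᶠ τ in 𝓝 (0 : ℂ), ∀ k ∈ Finset.range m, (N 0 ^ k).rank ≤ (N τ ^ k).rank :=
  (eventually_all_finset _).2 fun k _ => rank_lsc (fun τ => N τ ^ k) 0 (h.pow k)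

theorem continuous_cut :
    Continuous (cut : (Fin (g + 1) × Bool → G m ℂ) → Option (Fin g × Bool) → G m ℂ) := by
  refine continuous_pi fun o => ?_
  cases o with
  | none => exact continuous_apply (0, true)
  | some v => exact continuous_apply (v.1.succ, v.2)

theorem key {S : Set (Fin (g + 1) × Bool → G m ℂ)} {T : Fin (g + 1) × Bool → G m ℂ}
    (hS : Simple T) (hL : ∀ T' ∈ S, Loc (tail T'))
    (hnb : ∀ᶠ T' in 𝓝 T, cprod T' = cprod T → T' ∈ S)
    (hd : ∀ T' ∈ S, Module.finrank ℂ (Com (cut T)) ≤ Module.finrank ℂ (Com (cut T')))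
    {N : Mat ℂ m m} (hN : N ∈ J (cut T)) (hmax : ∀ T' ∈ S, ∀ N' ∈ J (cut T'), rho N' ≤ rho N)
    {ξ : Fin (g + 1) × Bool → Mat ℂ m m} (hξ : fox T T ξ = 0) :
    (N * ((T (0, true))⁻¹).val * ξ (0, true)).trace = 0 := by
  have hm := hS.1
  obtain ⟨γ, h0, hc, hD, -, hcp⟩ := curve_lemma hm T (fun _ => False) (fsurj_all T (schur_scal hS))
    ξ (fun _ h => h.elim) hξ
  subst h0
  have hγS : ∀ᶠ τ in 𝓝 (0 : ℂ), γ τ ∈ S := by
    filter_upwards [hc.eventually hnb, hcp] with τ h1 h2 using h1 h2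
  obtain ⟨Xc, X', hX0, hXD, hXc⟩ := ext_com (fun τ => cut (γ τ)) (cut ξ)
    (fun o => by
      cases o with
      | none => exact hD _
      | some v => exact hD _)
    (hγS.mono fun τ h => hd _ h) N hN.1
  have hND : DAt (fun τ => tl (Xc τ)) _ :=
    hXD.sub ((DAt.const 1).smul (hXD.trace.div_const (m : ℂ)))
  generalize X' - _ = N' at hND
  have hN0 : tl (Xc 0) = N := by rw [hX0, tl_of_trace hN.2]
  have hJ : ∀ᶠ τ in 𝓝 (0 : ℂ), tl (Xc τ) ∈ J (cut (γ τ)) :=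
    hXc.mono fun τ h => ⟨tl_mem h, trace_tl hm _⟩
  have hrk : ∀ k, ∀ᶠ τ in 𝓝 (0 : ℂ), (tl (Xc τ) ^ k).rank ≤ (tl (Xc 0) ^ k).rank := by
    intro k
    filter_upwards [hγS, hJ, ev_rank hND.continuousAt] with τ h1 h2 h3
    rcases lt_or_ge k m with hk | hk
    · have h4 := hmax _ h1 _ h2
      rw [← hN0] at h4
      exact ((Finset.sum_eq_sum_iff_of_le h3).1 (le_antisymm (Finset.sum_le_sum h3) h4) k
        (Finset.mem_range.2 hk)).ge
    · rw [pow_nil (hL _ h1 _ (mem_tail h2.1) h2.2) hk, Matrix.rank_zero]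
      exact Nat.zero_le _
  have hb : N * (γ 0 (0, true)).val = (γ 0 (0, true)).val * N := hN.1 none
  have hder := (hND.mul (hD (0, true))).unique ((hD (0, true)).mul hND) (hJ.mono fun τ h => h.1 none)
  refine nt_lemma N (γ 0 (0, true)).val _ N' _ (hL _ hγS.self_of_nhds _ (mem_tail hN.1) hN.2) hb
    (by rw [Units.inv_mul, Units.mul_inv]) (Fox_int_inv hb).symm (hN0 ▸ hder) fun k x hx => ?_
  rw [← hN0] at hx ⊢
  exact ext_rank _ _ (hND.pow k) (hrk k) x hx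

end D2Aux

open D2Aux in
theorem d2a (ζ : ℂ) (U : Set (Fin (g + 1) × Bool → G m ℂ)) (hU : IsOpen U)
    (hP : ∀ T ∈ U, (cprod T).val = ζ • 1 → Simple T ∧ Loc (tail T))
    (T : Fin (g + 1) × Bool → G m ℂ) (hTU : T ∈ U) (hT : (cprod T).val = ζ • 1) :
    ∃ T' ∈ U, (cprod T').val = ζ • 1 ∧ Scal (cut T') := by
  obtain ⟨T₀, hT₀, hmin⟩ := exists_minimalFor_of_wellFoundedLT
    (fun T : Fin (g + 1) × Bool → G m ℂ => T ∈ U ∧ (cprod T).val = ζ • 1)
    (fun T => Module.finrank ℂ (Com (cut T))) ⟨T, hTU, hT⟩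
  set S := {T : Fin (g + 1) × Bool → G m ℂ | (T ∈ U ∧ (cprod T).val = ζ • 1) ∧
    Module.finrank ℂ (Com (cut T)) ≤ Module.finrank ℂ (Com (cut T₀))} with hSdef
  obtain ⟨⟨T₁, N₀⟩, ⟨hT₁, hN₀⟩, hmax⟩ := exists_minimalFor_of_wellFoundedLT
    (fun p : (Fin (g + 1) × Bool → G m ℂ) × Mat ℂ m m => p.1 ∈ S ∧ p.2 ∈ J (cut p.1))
    (fun p => m * m - rho p.2) ⟨(T₀, 0), ⟨hT₀, le_rfl⟩, Submodule.zero_mem _⟩
  have hmax' : ∀ T' ∈ S, ∀ N' ∈ J (cut T'), rho N' ≤ rho N₀ := by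
    intro T' h1 N' h2
    by_contra h
    have h3 := hmax (j := (T', N')) ⟨h1, h2⟩ (by dsimp only; omega)
    have h4 := rho_le N'
    dsimp only at h3
    omega
  obtain ⟨hS, hL⟩ := hP T₁ hT₁.1.1 hT₁.1.2
  have hkey : ∀ N ∈ J (cut T₁), rho N₀ ≤ rho N → ∀ ξ, fox T₁ T₁ ξ = 0 →
      (N * ((T₁ (0, true))⁻¹).val * ξ (0, true)).trace = 0 := by
    intro N hN hr ξ hξ
    refine key (S := S) hS (fun T' h => (hP T' h.1.1 h.1.2).2) ?_ (fun T' h => ?_) hN
      (fun T' h N' h' => (hmax' T' h N' h').trans hr) hξ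
    · filter_upwards [hU.mem_nhds hT₁.1.1,
        continuous_cut.continuousAt.eventually (com_usc (cut T₁))] with T' h1 h2 h3
      exact ⟨⟨h1, h3 ▸ hT₁.1.2⟩, h2.trans hT₁.2⟩
    · exact hT₁.2.trans (hmin h.1 h.2)
  refine ⟨T₁, hT₁.1.1, hT₁.1.2, d2_core T₁ ζ hT₁.1.2 hS hL fun N hN hN' ξ hξ => ?_⟩
  have hc : ContinuousAt (fun ε : ℂ => N₀ + ε • N) 0 := by fun_prop
  obtain ⟨ε, hε, hε0⟩ := (((ev_rank hc).filter_mono (nhdsWithin_le_nhds (s := {0}ᶜ))).and
    self_mem_nhdsWithin).exists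
  simp only [zero_smul, add_zero] at hε
  have h1 := hkey (N₀ + ε • N) (Submodule.add_mem _ hN₀ (Submodule.smul_mem _ _ ⟨hN, hN'⟩))
    (Finset.sum_le_sum hε) ξ hξ
  rw [Matrix.add_mul, Matrix.add_mul, Matrix.trace_add, hkey N₀ hN₀ le_rfl ξ hξ, zero_add,
    Matrix.smul_mul, Matrix.smul_mul, Matrix.trace_smul, smul_eq_mul] at h1
  exact (mul_eq_zero.1 h1).resolve_left hε0

end Crest.Agent.R3

end
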