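import Crest.Agent.R3.Ext
import Crest.Agent.R3.Tang
import Crest.Agent.R3.Rep

set_option autoImplicit false

noncomputable section

namespace Crest.Agent.R3

open Matrix Filter Topology

/-! Generically the principal minors of `a₀` in the eigenbasis of `b₀` do not vanish. -/

variable {g m : ℕ}

theorem Gen.injective {t : Fin m → ℂ} (h : Gen t) : Function.Injective t := fun i j hij => by
  have := h {i} {j} (by simp) (by simp [hij])
  simpa using this

/-- The nonzero columns of a surjective intertwiner from a regular diagonal matrix. -/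
theorem D3_cols {q : ℕ} (B : Mat ℂ q m) (C : Mat ℂ m q) (hBC : B * C = 1) (β : Mat ℂ q q)
    (t : Fin m → ℂ) (ht : Function.Injective t) (h : B * diagonal t = β * B) :
    ∃ J : Finset (Fin m), J.card = q ∧ (∀ j, j ∉ J → ∀ x, B x j = 0) ∧ β.det = ∏ j ∈ J, t j := by
  classical
  let J : Finset (Fin m) := Finset.univ.filter fun j => (fun x => B x j) ≠ 0
  have hJ : ∀ j, j ∉ J → ∀ x, B x j = 0 := by
    intro j hj x
    have : (fun x => B x j) = 0 := by simpa [J] using hj
    exact congrFun this x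
  have h1 : J.card ≤ q := by
    have hli : LinearIndependent ℂ fun (j : J) (x : Fin q) => B x j := by
      refine Module.End.eigenvectors_linearIndependent' (Matrix.toLin' β) (fun j : J => t j)
        (ht.comp Subtype.val_injective) _ fun j => ⟨?_, (Finset.mem_filter.1 j.2).2⟩
      rw [Module.End.mem_genEigenspace_one, Matrix.toLin'_apply]
      funext x
      have := congrFun (congrFun h x) j
      rw [Matrix.mul_diagonal, Matrix.mul_apply] at this
      rw [Pi.smul_apply, smul_eq_mul, mul_comm, this]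
      rfl
    simpa using hli.fintype_card_le_finrank
  have h2 : B.submatrix id (Subtype.val : J → Fin m) * C.submatrix (Subtype.val : J → Fin m) id =
      1 := by
    rw [← hBC]
    ext x y
    rw [Matrix.mul_apply, Matrix.mul_apply]
    refine (Finset.sum_coe_sort J fun j => B x j * C j y).trans
      (Finset.sum_subset (Finset.subset_univ _) fun j _ hj => ?_)
    rw [hJ j hj, zero_mul]
  have h3 : q ≤ J.card := by
    have a1 := Matrix.rank_mul_le_left (B.submatrix id (Subtype.val : J → Fin m))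
      (C.submatrix (Subtype.val : J → Fin m) id)
    rw [h2, Matrix.rank_one, Fintype.card_fin] at a1
    simpa using a1.trans (Matrix.rank_le_card_width _)
  have hc : J.card = q := le_antisymm h1 h3
  let e : Fin q ≃ J := (Finset.equivFinOfCardEq hc).symm
  refine ⟨J, hc, hJ, ?_⟩
  have h4 : (B.submatrix id (Subtype.val : J → Fin m)).submatrix id e *
      (C.submatrix (Subtype.val : J → Fin m) id).submatrix e id = 1 := by
    rw [Matrix.submatrix_mul_equiv, h2, Matrix.submatrix_id_id]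
  have h5 : (B.submatrix id (Subtype.val : J → Fin m)).submatrix id e * diagonal (fun x => t (e x)) =
      β * (B.submatrix id (Subtype.val : J → Fin m)).submatrix id e := by
    ext x y
    have := congrFun (congrFun h x) (e y)
    rw [Matrix.mul_diagonal, Matrix.mul_apply] at this
    rw [Matrix.mul_diagonal, Matrix.mul_apply]
    exact this
  have h6 := congrArg Matrix.det h5
  rw [Matrix.det_mul, Matrix.det_mul, Matrix.det_diagonal, mul_comm] at h6
  have h7 := (Matrix.isUnit_det_of_right_inverse h4).ne_zero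
  rw [← mul_right_cancel₀ h7 h6, ← Finset.prod_coe_sort J t]
  exact e.prod_comp fun j => t j

/-- A coordinate subspace invariant under the cut surface is invariant. -/
theorem coord_inv (T : Fin (g + 1) × Bool → G m ℂ) (ζ : ℂ) (hT : (cprod T).val = ζ • 1)
    (t : Fin m → ℂ) (hb : (T (0, true)).val = diagonal t) (ht : Gen t) (K : Finset (Fin m))
    (hK : ∀ v i j, i ∉ K → j ∈ K → (tail T v).val i j = 0) :
    ∀ i j, i ∉ K → j ∈ K → (T (0, false)).val i j = 0 := by
  classical
  let e : Fin Kᶜ.card ≃ (Kᶜ : Finset (Fin m)) := Kᶜ.equivFin.symm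
  let f : Fin Kᶜ.card → Fin m := fun x => e x
  have hf : Function.Injective f := Subtype.val_injective.comp e.injective
  have hfK : ∀ x, f x ∉ K := fun x => Finset.mem_compl.1 (e x).2
  have hfs : ∀ i, i ∉ K → ∃ x, f x = i := fun i hi =>
    ⟨e.symm ⟨i, Finset.mem_compl.2 hi⟩, by simp [f]⟩
  let p : Mat ℂ Kᶜ.card m := (1 : Mat ℂ m m).submatrix f id
  let s : Mat ℂ m Kᶜ.card := (1 : Mat ℂ m m).submatrix id f
  have hp : ∀ {k : ℕ} (M : Mat ℂ m k), p * M = M.submatrix f id := fun M => by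
    ext x j
    simp [p, Matrix.mul_apply, Matrix.one_apply]
  have hps : p * s = 1 := by
    rw [hp]
    exact Matrix.submatrix_one f hf
  have hblk : ∀ M : Mat ℂ m m, (∀ i j, i ∉ K → j ∈ K → M i j = 0) →
      p * M = M.submatrix f f * p := by
    intro M hM
    rw [hp]
    ext x j
    rw [Matrix.mul_apply]
    simp only [p, Matrix.submatrix_apply, id, Matrix.one_apply, mul_ite, mul_one, mul_zero]
    by_cases hj : j ∈ K
    · rw [hM _ _ (hfK x) hj, Finset.sum_eq_zero]
      intro y _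
      exact if_neg fun h : f y = j => hfK y (by rw [h]; exact hj)
    · obtain ⟨y, rfl⟩ := hfs j hj
      simp [hf.eq_iff]
  have hQ : ∀ v, ((tail T v).val.submatrix f f) * (p * ((tail T v)⁻¹).val * s) = 1 := by
    intro v
    rw [← Matrix.mul_assoc, ← Matrix.mul_assoc, ← hblk _ (hK v), Matrix.mul_assoc p, Units.mul_inv,
      Matrix.mul_one, hps]
  let Q : Fin g × Bool → G Kᶜ.card ℂ := fun v =>
    ⟨(tail T v).val.submatrix f f, p * ((tail T v)⁻¹).val * s, hQ v, mul_eq_one_comm.1 (hQ v)⟩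
  have hE : Eqv p (tail T) Q := fun v => hblk _ (hK v)
  have hR := hE.cprod
  have hpb : p * diagonal t = diagonal (fun x => t (f x)) * p := by
    rw [hblk (diagonal t) fun i j hi hj =>
        Matrix.diagonal_apply_ne _ fun h : i = j => hi (by rw [h]; exact hj),
      Matrix.submatrix_diagonal _ _ hf]
    rfl
  have hrel : (cprod (tail T)).val * ((T (0, false)).val * diagonal t) =
      ζ • (diagonal t * (T (0, false)).val) := by
    have h1 : (cprod (tail T)) * (T (0, false) * T (0, true)) =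
        (comm (T (0, false)) (T (0, true)))⁻¹ * cprod T * (T (0, false) * T (0, true)) := by
      rw [cprod_succ T, inv_mul_cancel_left]
    have h2 : (comm (T (0, false)) (T (0, true)))⁻¹ * (T (0, false) * T (0, true)) =
        T (0, true) * T (0, false) := by
      simp only [comm]
      group
    have h3 := congrArg Units.val h1
    have h4 := congrArg Units.val h2
    simp only [Units.val_mul] at h3 h4
    rw [hT, Matrix.mul_smul, Matrix.mul_one, Matrix.smul_mul, h4, hb] at h3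
    exact h3
  have hB : p * (T (0, false)).val * diagonal t =
      (((cprod Q)⁻¹).val * (ζ • diagonal fun x => t (f x))) * (p * (T (0, false)).val) := by
    have h1 : (cprod Q).val * (p * (T (0, false)).val * diagonal t) =
        (ζ • diagonal fun x => t (f x)) * (p * (T (0, false)).val) := by
      rw [Matrix.mul_assoc p, ← Matrix.mul_assoc, ← hR, Matrix.mul_assoc, hrel, Matrix.mul_smul,
        ← Matrix.mul_assoc, hpb, Matrix.smul_mul, Matrix.mul_assoc]
    rw [Matrix.mul_assoc ((cprod Q)⁻¹).val, ← h1, Fox_inv_mul]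
  have hBC : p * (T (0, false)).val * (((T (0, false))⁻¹).val * s) = 1 := by
    rw [Matrix.mul_assoc, Fox_mul_inv, hps]
  obtain ⟨J, hJ, hJ0, hdet⟩ := D3_cols _ _ hBC _ t ht.injective hB
  have hζ : ζ ^ m = 1 := by
    have := det_cprod T
    rwa [hT, Matrix.det_smul, Matrix.det_one, mul_one, Fintype.card_fin] at this
  have hdi : ((cprod Q)⁻¹).val.det = 1 := by
    have := congrArg Matrix.det (cprod Q).inv_mul
    rwa [Matrix.det_mul, det_cprod, mul_one, Matrix.det_one] at this
  have hpr : ∏ x, t (f x) = ∏ i ∈ Kᶜ, t i := by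
    rw [← Finset.prod_coe_sort Kᶜ t]
    exact e.prod_comp fun j => t j
  rw [Matrix.det_mul, hdi, one_mul, Matrix.det_smul, Matrix.det_diagonal, hpr] at hdet
  have hJK : J = Kᶜ := ht J Kᶜ hJ (by
    rw [← hdet, mul_pow, ← pow_mul, mul_comm _ m, pow_mul, hζ, one_pow, one_mul])
  intro i j hi hj
  obtain ⟨x, rfl⟩ := hfs i hi
  have := hJ0 j (by rw [hJK]; exact fun h => Finset.mem_compl.1 h hj) x
  rwa [hp] at this

/-- Cauchy matrices have full rank. -/
theorem D3_cauchy {t : Fin m → ℂ} (ht : Function.Injective t) {I J : Finset (Fin m)}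
    (hIJ : ∀ k ∈ I, k ∉ J) (hc : I.card ≤ J.card) (c : Fin m → ℂ)
    (h : ∀ j ∈ J, ∑ k ∈ I, c k / (t j - t k) = 0) : ∀ k ∈ I, c k = 0 := by
  classical
  intro k hk
  let P : Polynomial ℂ := ∑ k ∈ I, Polynomial.C (c k) * Lagrange.nodal (I.erase k) t
  have hdeg : P.degree < J.card := by
    refine (Polynomial.degree_sum_le _ _).trans_lt ?_
    rw [Finset.sup_lt_iff (WithBot.bot_lt_coe _)]
    intro l hl
    rw [← Polynomial.smul_eq_C_mul]
    refine (Polynomial.degree_smul_le _ _).trans_lt ?_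
    rw [Lagrange.degree_nodal]
    exact_mod_cast (Finset.card_erase_lt_of_mem hl).trans_le hc
  have hP : P = 0 := by
    refine Polynomial.eq_zero_of_degree_lt_of_eval_index_eq_zero J ht.injOn hdeg fun j hj => ?_
    have h1 := congrArg (fun z => z * ∏ l ∈ I, (t j - t l)) (h j hj)
    simp only [zero_mul, Finset.sum_mul] at h1
    rw [← h1, Polynomial.eval_finsetSum]
    refine Finset.sum_congr rfl fun l hl => ?_
    have h2 : t j - t l ≠ 0 := sub_ne_zero.2 fun h' => hIJ l hl (ht h' ▸ hj)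
    rw [Polynomial.eval_mul, Polynomial.eval_C, Lagrange.eval_nodal,
      ← Finset.mul_prod_erase I _ hl]
    field_simp
  have h3 := congrArg (Polynomial.eval (t k)) hP
  rw [Polynomial.eval_zero, Polynomial.eval_finsetSum, Finset.sum_eq_single k] at h3
  · rw [Polynomial.eval_mul, Polynomial.eval_C] at h3
    refine (mul_eq_zero.1 h3).resolve_right (Lagrange.eval_nodal_not_at_node fun l hl h' => ?_)
    exact (Finset.mem_erase.1 hl).1 (ht h').symm
  · intro l _ hl
    rw [Polynomial.eval_mul, Lagrange.eval_nodal_at_node (Finset.mem_erase.2 ⟨hl.symm, hk⟩),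
      mul_zero]
  · intro h'
    exact absurd hk h'

theorem D3_not_simple (T : Fin (g + 1) × Bool → G m ℂ) (ζ : ℂ) (hT : (cprod T).val = ζ • 1)
    (hS : Simple T) (t : Fin m → ℂ) (hb : (T (0, true)).val = diagonal t) (ht : Gen t)
    (K : Finset (Fin m)) (hK : ∀ v i j, i ∉ K → j ∈ K → (tail T v).val i j = 0) {i₀ j₀ : Fin m}
    (hi : i₀ ∈ K) (hj : j₀ ∉ K) : False := by
  classical
  have ha := coord_inv T ζ hT t hb ht K hK
  have hall : ∀ v i j, i ∉ K → j ∈ K → (T v).val i j = 0 := by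
    rintro ⟨v, e⟩
    refine Fin.cases ?_ (fun v => hK (v, e)) v
    cases e
    · exact ha
    · intro i j hi hj
      rw [hb]
      exact Matrix.diagonal_apply_ne _ fun h : i = j => hi (by rw [h]; exact hj)
  let W : Submodule ℂ (Fin m → ℂ) := Submodule.pi {i | i ∉ K} fun _ => ⊥
  have hW : ∀ x, x ∈ W ↔ ∀ i, i ∉ K → x i = 0 := fun x => Submodule.mem_pi
  have hI : Inv T W := by
    intro v x hx
    rw [hW] at hx ⊢
    intro i hi
    show ∑ j, (T v).val i j * x j = 0
    refine Finset.sum_eq_zero fun j _ => ?_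
    by_cases hj : j ∈ K
    · rw [hall v i j hi hj, zero_mul]
    · rw [hx j hj, mul_zero]
  rcases hS.2 W hI with h | h
  · have h1 : Pi.single i₀ (1 : ℂ) ∈ W :=
      (hW _).2 fun i hi' => Pi.single_eq_of_ne (fun h' : i = i₀ => hi' (by rw [h']; exact hi)) _
    rw [h, Submodule.mem_bot] at h1
    simpa using congrFun h1 i₀
  · have h1 : Pi.single j₀ (1 : ℂ) ∈ W := h ▸ Submodule.mem_top
    simpa using (hW _).1 h1 j₀ hj

theorem D3_nil_col {Y : Mat ℂ m m} (hY : IsNilpotent Y) {j : Fin m}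
    (h : ∀ i, i ≠ j → Y i j = 0) : Y j j = 0 := by
  obtain ⟨n, hn⟩ := hY
  have h1 : ∀ k : ℕ, (Y ^ k) j j = Y j j ^ k := by
    intro k
    induction k with
    | zero => simp
    | succ k ih =>
      rw [pow_succ, Matrix.mul_apply, Finset.sum_eq_single j, ih, pow_succ]
      · intro i _ hi
        rw [h i hi, mul_zero]
      · simp
  have h2 := h1 n
  rw [hn] at h2
  exact IsNilpotent.eq_zero ⟨n, h2.symm⟩

theorem d3_core (T : Fin (g + 1) × Bool → G m ℂ) (ζ : ℂ) (hT : (cprod T).val = ζ • 1)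
    (hS : Simple T) (hL : Loc (tail T)) (t : Fin m → ℂ) (hb : (T (0, true)).val = diagonal t)
    (ht : Gen t) (S : Finset (Fin m)) (w ψ : Fin m → ℂ) (hw : w ≠ 0) (hψ : ψ ≠ 0)
    (hwS : ∀ i ∈ S, w i = 0) (hψS : ∀ j, j ∉ S → ψ j = 0) (X : Mat ℂ m m)
    (hX : X ∈ Com (tail T))
    (h : X - ((T (0, true))⁻¹).val * X * (T (0, true)).val = vecMulVec w ψ) : False := by
  classical
  have hm : (m : ℂ) ≠ 0 := Nat.cast_ne_zero.2 hS.1.ne'
  have hinj := ht.injective
  have ht0 : ∀ i, t i ≠ 0 := by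
    have h1 := (Matrix.isUnits_det_units (T (0, true))).ne_zero
    rw [hb, Matrix.det_diagonal, Finset.prod_ne_zero_iff] at h1
    exact fun i => h1 i (Finset.mem_univ i)
  have h1 : ∀ i j, X i j * (t i - t j) = t i * (w i * ψ j) := by
    intro i j
    have h2 := congrArg (fun M => (T (0, true)).val * M) h
    simp only [Matrix.mul_sub, Matrix.mul_assoc, Fox_mul_inv] at h2
    have h3 := congrFun (congrFun h2 i) j
    rw [hb, Matrix.sub_apply, Matrix.diagonal_mul, Matrix.mul_diagonal, Matrix.diagonal_mul,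
      Matrix.vecMulVec_apply] at h3
    linear_combination h3
  let Y : Mat ℂ m m := X - (X.trace / m) • 1
  have hYc : Y ∈ Com (tail T) :=
    Submodule.sub_mem _ hX (Submodule.smul_mem _ _ fun v => by rw [Matrix.one_mul, Matrix.mul_one])
  have hYn : IsNilpotent Y := hL Y hYc (by
    simp only [Y, Matrix.trace_sub, Matrix.trace_smul, Matrix.trace_one, Fintype.card_fin,
      smul_eq_mul]
    field_simp
    ring)
  have hYo : ∀ i j, i ≠ j → Y i j = t i * (w i * ψ j) / (t i - t j) := by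
    intro i j hij
    rw [eq_div_iff (sub_ne_zero.2 (hinj.ne hij)), ← h1]
    simp [Y, Matrix.one_apply_ne hij]
  have hY : ∀ i j, Y i j = t i * (w i * ψ j) / (t i - t j) := by
    intro i j
    by_cases hij : i = j
    · subst hij
      rw [sub_self, div_zero]
      by_cases hi : i ∈ S
      · have hn : IsNilpotent Yᵀ := by
          obtain ⟨n, hn⟩ := hYn
          exact ⟨n, by rw [← Matrix.transpose_pow, hn, Matrix.transpose_zero]⟩
        refine D3_nil_col hn (j := i) fun k hk => ?_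
        rw [Matrix.transpose_apply, hYo _ _ hk.symm, hwS i hi]
        simp
      · refine D3_nil_col hYn fun k hk => ?_
        rw [hYo _ _ hk, hψS i hi]
        simp
    · exact hYo i j hij
  let I : Finset (Fin m) := Finset.univ.filter fun i => w i ≠ 0
  let J : Finset (Fin m) := Finset.univ.filter fun j => ψ j ≠ 0
  have hI : ∀ i, i ∈ I ↔ w i ≠ 0 := fun i => by simp [I]
  have hJ : ∀ j, j ∈ J ↔ ψ j ≠ 0 := fun j => by simp [J]
  have hIJ : ∀ k ∈ I, k ∉ J := fun k hk hk' =>
    (hJ k).1 hk' (hψS k fun hs => (hI k).1 hk (hwS k hs))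
  obtain ⟨i₀, hi₀⟩ := Function.ne_iff.1 hw
  obtain ⟨j₀, hj₀⟩ := Function.ne_iff.1 hψ
  have hi₁ : i₀ ∈ I := (hI _).2 hi₀
  have hj₁ : j₀ ∈ J := (hJ _).2 hj₀
  rcases le_total I.card J.card with hc | hc
  · refine D3_not_simple T ζ hT hS t hb ht I (fun v i k hi hk => ?_) hi₁
      fun h' => hIJ _ h' hj₁
    have hwi : w i = 0 := not_not.1 fun h' => hi ((hI i).2 h')
    have h2 := D3_cauchy hinj hIJ hc (fun k => (tail T v).val i k * (t k * w k)) (fun j hj => ?_)
      k hk
    · exact (mul_eq_zero.1 h2).resolve_right (mul_ne_zero (ht0 k) ((hI k).1 hk))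
    · have h3 := congrFun (congrFun (hYc v) i) j
      rw [Matrix.mul_apply, Matrix.mul_apply, Finset.sum_eq_zero fun l _ => by
        rw [hY, hwi]; simp] at h3
      refine mul_left_cancel₀ (neg_ne_zero.2 ((hJ j).1 hj)) ?_
      rw [mul_zero, h3, Finset.mul_sum]
      refine (Finset.sum_congr rfl fun l _ => ?_).trans
        (Finset.sum_subset (Finset.subset_univ I) fun l _ hl => ?_)
      · rw [hY, ← neg_sub (t l) (t j), div_neg]
        ring
      · rw [hY, not_not.1 fun h' => hl ((hI l).2 h')]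
        simp
  · refine D3_not_simple T ζ hT hS t hb ht Jᶜ (fun v k j hk hj => ?_)
      (Finset.mem_compl.2 (hIJ _ hi₁)) fun h' => Finset.mem_compl.1 h' hj₁
    have hk' : k ∈ J := not_not.1 fun h' => hk (Finset.mem_compl.2 h')
    have hψj : ψ j = 0 := not_not.1 fun h' => Finset.mem_compl.1 hj ((hJ j).2 h')
    have h2 := D3_cauchy hinj (fun k hk hk' => hIJ k hk' hk) hc
      (fun k => ψ k * (tail T v).val k j) (fun i hi => ?_) k hk'
    · exact (mul_eq_zero.1 h2).resolve_left ((hJ k).1 hk')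
    · have h3 := (congrFun (congrFun (hYc v) i) j).symm
      rw [Matrix.mul_apply, Matrix.mul_apply, Finset.sum_eq_zero fun l _ => by
        rw [hY, hψj]; simp] at h3
      refine mul_left_cancel₀ (mul_ne_zero (ht0 i) ((hI i).1 hi)) ?_
      rw [mul_zero, h3, Finset.mul_sum]
      refine (Finset.sum_congr rfl fun l _ => ?_).trans
        (Finset.sum_subset (Finset.subset_univ J) fun l _ hl => ?_)
      · rw [hY]
        ring
      · rw [hY, not_not.1 fun h' => hl ((hJ l).2 h')]
        simp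

/-- The projection to the coordinates in `S`. -/
def D3_e (S : Finset (Fin m)) : Mat ℂ m m := diagonal fun i => if i ∈ S then 1 else 0

theorem D3_e_mulVec (S : Finset (Fin m)) (x : Fin m → ℂ) (i : Fin m) :
    (D3_e S *ᵥ x) i = if i ∈ S then x i else 0 := by
  rw [D3_e, Matrix.mulVec_diagonal]
  split_ifs <;> simp

theorem D3_sum (S : Finset (Fin m)) (F : Fin m → ℂ) (h : ∀ i, i ∉ S → F i = 0) :
    ∑ i, F i = ∑ i : S, F i := by
  rw [Finset.sum_coe_sort S F]
  exact (Finset.sum_subset (Finset.subset_univ S) fun i _ hi => h i hi).symm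

/-- A vanishing principal minor gives left and right null vectors. -/
theorem D3_null (a : Mat ℂ m m) (S : Finset (Fin m))
    (h : (a.submatrix (Subtype.val : S → Fin m) (Subtype.val : S → Fin m)).det = 0) :
    ∃ v ψ : Fin m → ℂ, v ≠ 0 ∧ ψ ≠ 0 ∧ (∀ i, i ∉ S → v i = 0) ∧ (∀ i, i ∉ S → ψ i = 0) ∧
      (∀ i ∈ S, (a *ᵥ v) i = 0) ∧ ∀ j ∈ S, (ψ ᵥ* a) j = 0 := by
  classical
  obtain ⟨v, hv, hv'⟩ := Matrix.exists_mulVec_eq_zero_iff.2 h
  obtain ⟨ψ, hψ, hψ'⟩ := Matrix.exists_vecMul_eq_zero_iff.2 h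
  refine ⟨fun i => if h : i ∈ S then v ⟨i, h⟩ else 0, fun i => if h : i ∈ S then ψ ⟨i, h⟩ else 0,
    fun h0 => hv ?_, fun h0 => hψ ?_, fun i hi => dif_neg hi, fun i hi => dif_neg hi,
    fun i hi => ?_, fun j hj => ?_⟩
  · funext i
    simpa [i.2] using congrFun h0 i
  · funext i
    simpa [i.2] using congrFun h0 i
  · show ∑ j, a i j * (if h : j ∈ S then v ⟨j, h⟩ else 0) = 0
    rw [D3_sum S _ fun j hj => by rw [dif_neg hj, mul_zero]]
    refine Eq.trans (Finset.sum_congr rfl fun j _ => ?_) (congrFun hv' ⟨i, hi⟩)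
    rw [dif_pos j.2]
    rfl
  · show ∑ i, (if h : i ∈ S then ψ ⟨i, h⟩ else 0) * a i j = 0
    rw [D3_sum S _ fun j hj => by rw [dif_neg hj, zero_mul]]
    refine Eq.trans (Finset.sum_congr rfl fun i _ => ?_) (congrFun hψ' ⟨j, hj⟩)
    rw [dif_pos i.2]
    rfl

theorem D3_cut_cont : Continuous fun T : Fin (g + 1) × Bool → G m ℂ => cut T := by
  refine continuous_pi fun o => ?_
  cases o with
  | none => exact continuous_apply _
  | some v => exact continuous_apply _

theorem d3 (ζ : ℂ) (U : Set (Fin (g + 1) × Bool → G m ℂ)) (hU : IsOpen U)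
    (hP : ∀ T ∈ U, (cprod T).val = ζ • 1 → Simple T ∧ Loc (tail T))
    (T : Fin (g + 1) × Bool → G m ℂ) (hTU : T ∈ U) (hT : (cprod T).val = ζ • 1)
    (hc : Scal (cut T)) (t : Fin m → ℂ) (hb : (T (0, true)).val = diagonal t) (ht : Gen t) :
    ∃ T' ∈ U, (cprod T').val = ζ • 1 ∧ T' (0, true) = T (0, true) ∧ PMin (T' (0, false)).val := by
  classical
  have hm : 0 < m := (hP T hTU hT).1.1
  let A : Set (Fin (g + 1) × Bool → G m ℂ) :=
    {T' | T' ∈ U ∧ (cprod T').val = ζ • 1 ∧ T' (0, true) = T (0, true) ∧ Scal (cut T')}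
  let r : Finset (Fin m) → (Fin (g + 1) × Bool → G m ℂ) → ℕ := fun S T' =>
    (D3_e S * (T' (0, false)).val * D3_e S).rank
  let ρ : (Fin (g + 1) × Bool → G m ℂ) → ℕ := fun T' => ∑ S, r S T'
  have hbd : BddAbove (ρ '' A) := by
    refine ⟨∑ _S : Finset (Fin m), Fintype.card (Fin m), ?_⟩
    rintro _ ⟨T', -, rfl⟩
    exact Finset.sum_le_sum fun S _ => Matrix.rank_le_card_width _
  obtain ⟨T₀, ⟨hU₀, hT₀, hb₀, hc₀⟩, hmax⟩ :=
    Nat.sSup_mem (s := ρ '' A) ⟨_, T, ⟨hTU, hT, rfl, hc⟩, rfl⟩ hbd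
  have hle : ∀ T' ∈ A, ρ T' ≤ ρ T₀ := fun T' hT' => by
    rw [hmax]
    exact le_csSup hbd ⟨T', hT', rfl⟩
  refine ⟨T₀, hU₀, hT₀, hb₀, fun S hS => ?_⟩
  obtain ⟨v, ψ, hv, hψ, hvS, hψS, hav, hψa⟩ := D3_null _ S hS
  have hev : D3_e S *ᵥ v = v := by
    funext i
    rw [D3_e_mulVec]
    split_ifs with hi
    · rfl
    · exact (hvS i hi).symm
  have hψe : ∀ x, ψ ⬝ᵥ D3_e S *ᵥ x = ψ ⬝ᵥ x := by
    intro x
    refine Finset.sum_congr rfl fun i _ => ?_
    rw [D3_e_mulVec]
    split_ifs with hi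
    · rfl
    · rw [hψS i hi, zero_mul, zero_mul]
  have hw : (T₀ (0, false)).val *ᵥ v ≠ 0 := fun h0 => hv (by
    have := congrArg (fun x => ((T₀ (0, false))⁻¹).val *ᵥ x) h0
    simp only [Matrix.mulVec_mulVec, Units.inv_mul, Matrix.one_mulVec, Matrix.mulVec_zero] at this
    exact this)
  let L : Mat ℂ m m →ₗ[ℂ] Mat ℂ m m := LinearMap.id -
    (LinearMap.mulRight ℂ (T₀ (0, true)).val).comp (LinearMap.mulLeft ℂ ((T₀ (0, true))⁻¹).val)
  have hL : ∀ X, L X = X - ((T₀ (0, true))⁻¹).val * X * (T₀ (0, true)).val := fun X => rfl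
  have key : vecMulVec ((T₀ (0, false)).val *ᵥ v) ψ ∈ (Com (tail T₀)).map L := by
    refine trace_dual _ _ fun η hη => ?_
    obtain ⟨ξ, h0, hξb, hξa⟩ := tang_a T₀ ζ hT₀ η fun X hX => by
      rw [Matrix.trace_mul_comm, ← hL]
      exact hη _ ⟨X, hX, rfl⟩
    obtain ⟨γ, hγ0, hγc, hγd, hγf, hγp⟩ := curve_lemma hm T₀ (fun v => v = (0, true))
      (fsurj_b T₀ ζ hT₀ hc₀) ξ (fun v hv => by rw [hv, hξb]) h0
    have hd : ∀ S' : Finset (Fin m), DAt (fun τ => D3_e S' * (γ τ (0, false)).val * D3_e S')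
        (D3_e S' * ξ (0, false) * D3_e S') := fun S' => by
      have := ((DAt.const (D3_e S')).mul (hγd (0, false))).mul (DAt.const (D3_e S'))
      simpa only [Matrix.zero_mul, Matrix.mul_zero, zero_add, add_zero] using this
    have e1 : ∀ᶠ τ in 𝓝 (0 : ℂ), γ τ ∈ U := hγc (by rw [hγ0]; exact hU.mem_nhds hU₀)
    have e2 : ∀ᶠ τ in 𝓝 (0 : ℂ), Scal (cut (γ τ)) := by
      have h1 : Tendsto (fun τ => cut (γ τ)) (𝓝 0) (𝓝 (cut T₀)) := by
        rw [← hγ0]
        exact D3_cut_cont.continuousAt.comp hγc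
      exact h1.eventually (scal_open hm hc₀)
    have e3 : ∀ᶠ τ in 𝓝 (0 : ℂ), ∀ S', r S' T₀ ≤ r S' (γ τ) := by
      refine Filter.eventually_all.2 fun S' => ?_
      have := rank_lsc _ _ (hd S').continuousAt
      rw [hγ0] at this
      exact this
    have e4 : ∀ᶠ τ in 𝓝 (0 : ℂ), (D3_e S * (γ τ (0, false)).val * D3_e S).rank ≤
        (D3_e S * (γ 0 (0, false)).val * D3_e S).rank := by
      filter_upwards [e1, e2, e3, hγp] with τ a1 a2 a3 a4
      have a5 : ρ (γ τ) ≤ ρ T₀ :=
        hle _ ⟨a1, by rw [a4, hT₀], by rw [hγf τ _ rfl, hb₀], a2⟩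
      have a6 : ρ T₀ = ρ (γ τ) := le_antisymm (Finset.sum_le_sum fun S' _ => a3 S') a5
      rw [hγ0]
      exact ((Finset.sum_eq_sum_iff_of_le fun S' _ => a3 S').1 a6 S (Finset.mem_univ S)).ge
    obtain ⟨y, hy⟩ := ext_rank _ _ (hd S) e4 v (by
      rw [hγ0, ← Matrix.mulVec_mulVec, hev, ← Matrix.mulVec_mulVec]
      funext i
      rw [D3_e_mulVec]
      split_ifs with hi
      · exact hav i hi
      · rfl)
    rw [hγ0, hξa] at hy
    simp only [← Matrix.mulVec_mulVec, hev] at hy
    have h1 := congrArg (fun x => ψ ⬝ᵥ x) hy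
    simp only [hψe] at h1
    rw [Matrix.mul_vecMulVec, Matrix.trace_vecMulVec, dotProduct_comm, h1,
      Matrix.dotProduct_mulVec]
    refine Finset.sum_eq_zero fun j _ => ?_
    rw [D3_e_mulVec]
    split_ifs with hj
    · rw [hψa j hj, zero_mul]
    · rw [mul_zero]
  obtain ⟨X, hX, hX'⟩ := key
  exact d3_core T₀ ζ hT₀ (hP T₀ hU₀ hT₀).1 (hP T₀ hU₀ hT₀).2 t (by rw [hb₀, hb]) ht S _ ψ hw hψ
    hav hψS X hX hX'

end Crest.Agent.R3

end
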