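import Crest.Agent.R3.Defs

set_option autoImplicit false

noncomputable section

namespace Crest.Agent.R3

open Matrix Filter Topology

/-! Friedland's theorem on the multiplicative inverse eigenvalue problem. -/

open MvPolynomial in
/-- With a trivial zero fibre the polynomial ring is finite over the ring generated by `E`. -/
theorem Fried_finite {m : ℕ} (E : Fin m → MvPolynomial (Fin m) ℂ) (d : Fin m → ℕ)
    (hd : ∀ k, 0 < d k) (hE : ∀ k, (E k).IsHomogeneous (d k))
    (h0 : ∀ t : Fin m → ℂ, (∀ k, MvPolynomial.eval t (E k) = 0) → t = 0) :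
    Module.Finite (Algebra.adjoin ℂ (Set.range E)) (MvPolynomial (Fin m) ℂ) := by
  have h1 : idealOfVars (Fin m) ℂ ≤ (Ideal.span (Set.range E)).radical := by
    rw [← vanishingIdeal_zeroLocus_eq_radical (K := ℂ), idealOfVars, Ideal.span_le]
    rintro _ ⟨i, rfl⟩ t ht
    rw [h0 t fun k => ht _ (Ideal.subset_span ⟨k, rfl⟩)]
    simp
  obtain ⟨D, hD⟩ := Ideal.exists_pow_le_of_le_radical_of_fg h1 (idealOfVars_fg _ _)
  set M := Submodule.span (Algebra.adjoin ℂ (Set.range E))
    (restrictTotalDegree (Fin m) ℂ D : Set (MvPolynomial (Fin m) ℂ)) with hM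
  have key : ∀ (n : ℕ) (p : MvPolynomial (Fin m) ℂ), p.IsHomogeneous n → p ∈ M := by
    intro n
    induction n using Nat.strong_induction_on with
    | _ n ih =>
      intro p hp
      rcases le_total n D with h | h
      · exact Submodule.subset_span ((mem_restrictTotalDegree _ _ _).2 (hp.totalDegree_le.trans h))
      · obtain ⟨g, hg⟩ := Ideal.mem_span_range_iff_exists_fun.1 (hD
          ((mem_pow_idealOfVars_iff' D p).2 fun x hx => hp.coeff_eq_zero (by omega)))
        have e : homogeneousComponent n p = p := by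
          rw [homogeneousComponent_of_mem hp, if_pos rfl]
        rw [← e, ← hg, map_sum]
        refine M.sum_mem fun k _ => ?_
        rw [← sum_homogeneousComponent (g k), Finset.sum_mul, map_sum]
        refine M.sum_mem fun j _ => ?_
        have h2 := homogeneousComponent_isHomogeneous j (g k)
        rw [homogeneousComponent_of_mem (h2.mul (hE k))]
        split_ifs with h3
        · rw [mul_comm]
          exact M.smul_mem ⟨E k, Algebra.subset_adjoin ⟨k, rfl⟩⟩
            (ih j (by have := hd k; omega) _ h2)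
        · exact M.zero_mem
  have htop : M = ⊤ := by
    refine eq_top_iff.2 fun p _ => ?_
    rw [← sum_homogeneousComponent p]
    exact M.sum_mem fun j _ => key j _ (homogeneousComponent_isHomogeneous j p)
  refine Module.Finite.of_fg_top ?_
  rw [← htop]
  exact Submodule.FG.span (Module.Finite.iff_fg.1 inferInstance)

theorem Fried_coeff {m : ℕ} (a : Mat ℂ m m) (t : Fin m → ℂ) {k : ℕ} (hk : k ≤ m) :
    (a * diagonal t).charpoly.coeff (m - k) = (-1) ^ k * ∑ S ∈ Finset.univ.powersetCard k,
      (a.submatrix (Subtype.val : S → Fin m) (Subtype.val : S → Fin m)).det * ∏ j ∈ S, t j := by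
  have h := Matrix.charpoly_coeff_eq_sum_minors (a * diagonal t) k (by simpa using hk)
  rw [Fintype.card_fin] at h
  rw [h]
  congr 1
  refine Finset.sum_congr rfl fun S _ => ?_
  rw [mul_comm, ← Finset.prod_coe_sort S, ← Matrix.det_mul_row]
  congr 1
  ext i j
  simp [mul_comm]

/-- A homogeneous polynomial map with trivial zero fibre is onto. -/
theorem homog_surj {m : ℕ} (E : Fin m → MvPolynomial (Fin m) ℂ) (d : Fin m → ℕ)
    (hd : ∀ k, 0 < d k) (hE : ∀ k, (E k).IsHomogeneous (d k))
    (h0 : ∀ t : Fin m → ℂ, (∀ k, MvPolynomial.eval t (E k) = 0) → t = 0) (y : Fin m → ℂ) :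
    ∃ t : Fin m → ℂ, ∀ k, MvPolynomial.eval t (E k) = y k := by
  have := Fried_finite E d hd hE h0
  have hI := Algebra.IsIntegral.of_finite (Algebra.adjoin ℂ (Set.range E)) (MvPolynomial (Fin m) ℂ)
  have hA := (Algebra.IsAlgebraic.isTranscendenceBasis_of_le_trdeg_of_finite ℂ E
    (by rw [MvPolynomial.trdeg_of_isDomain, Cardinal.lift_id])).1
  set χ : Algebra.adjoin ℂ (Set.range E) →ₐ[ℂ] ℂ :=
    (MvPolynomial.aeval y).comp hA.aevalEquiv.symm.toAlgHom with hχ
  have hmax : (RingHom.ker χ).IsMaximal :=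
    RingHom.ker_isMaximal_of_surjective χ fun c => ⟨algebraMap ℂ _ c, by simp⟩
  obtain ⟨Q, hQ, hQ'⟩ := Ideal.exists_ideal_over_maximal_of_isIntegral
    (S := MvPolynomial (Fin m) ℂ) (RingHom.ker χ) (by
      rw [(RingHom.injective_iff_ker_eq_bot _).1 Subtype.val_injective]
      exact bot_le)
  obtain ⟨t, rfl⟩ := MvPolynomial.isMaximal_iff_eq_vanishingIdeal_singleton.1 hQ
  refine ⟨t, fun k => ?_⟩
  have h1 : hA.aevalEquiv (MvPolynomial.X k - MvPolynomial.C (y k)) ∈ RingHom.ker χ := by
    simp [hχ, RingHom.mem_ker]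
  rw [← hQ', Ideal.mem_comap, hA.algebraMap_aevalEquiv,
    MvPolynomial.mem_vanishingIdeal_singleton_iff] at h1
  simpa [sub_eq_zero] using h1

theorem friedland {m : ℕ} (a : Mat ℂ m m) (h : PMin a) (χ : Polynomial ℂ) (hχ : χ.Monic)
    (hd : χ.natDegree = m) : ∃ t : Fin m → ℂ, (a * diagonal t).charpoly = χ := by
  set E : Fin m → MvPolynomial (Fin m) ℂ := fun k => MvPolynomial.C ((-1) ^ (k.val + 1)) *
    ∑ S ∈ Finset.univ.powersetCard (k.val + 1), MvPolynomial.C
      (a.submatrix (Subtype.val : S → Fin m) (Subtype.val : S → Fin m)).det *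
        ∏ j ∈ S, MvPolynomial.X j with hE
  have hev : ∀ t k, MvPolynomial.eval t (E k) =
      (a * diagonal t).charpoly.coeff (m - (k.val + 1)) := fun t k => by
    rw [Fried_coeff a t k.2]
    simp [hE]
  obtain ⟨t, ht⟩ := homog_surj E (fun k => k.val + 1) (fun k => k.val.succ_pos) (fun k => by
    refine (MvPolynomial.IsHomogeneous.sum _ _ _ fun S hS => ?_).C_mul _
    have h1 := MvPolynomial.IsHomogeneous.prod S (fun j => (MvPolynomial.X j : MvPolynomial _ ℂ))
      (fun _ => 1) fun j _ => MvPolynomial.isHomogeneous_X ℂ j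
    rw [Finset.sum_const, (Finset.mem_powersetCard.1 hS).2, smul_eq_mul, mul_one] at h1
    exact h1.C_mul _) (fun t ht => by
    by_contra h0
    set S : Finset (Fin m) := Finset.univ.filter fun j => t j ≠ 0 with hS
    have h1 : 0 < S.card := by
      obtain ⟨j, hj⟩ := Function.ne_iff.1 h0
      exact Finset.card_pos.2 ⟨j, by simpa [hS] using hj⟩
    have h2 : S.card ≤ m := by simpa using S.card_le_univ
    have h3 := ht ⟨S.card - 1, by omega⟩
    rw [hev] at h3
    simp only [Nat.sub_add_cancel h1] at h3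
    rw [Fried_coeff a t h2, Finset.sum_eq_single S] at h3
    · exact mul_ne_zero (pow_ne_zero _ (by norm_num)) (mul_ne_zero (h S)
        (Finset.prod_ne_zero_iff.2 fun j hj => by simpa [hS] using hj)) h3
    · intro T hT hne
      obtain ⟨j, hj, hj'⟩ := Finset.not_subset.1 fun hs : T ⊆ S =>
        hne (Finset.eq_of_subset_of_card_le hs (Finset.mem_powersetCard.1 hT).2.ge)
      rw [Finset.prod_eq_zero hj (by simpa [hS] using hj'), mul_zero]
    · intro hn
      exact absurd (Finset.mem_powersetCard.2 ⟨S.subset_univ, rfl⟩) hn)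
    fun k => χ.coeff (m - (k.val + 1))
  refine ⟨t, Polynomial.ext fun i => ?_⟩
  have hd' : (a * diagonal t).charpoly.natDegree = m := by
    rw [Matrix.charpoly_natDegree_eq_dim, Fintype.card_fin]
  rcases lt_trichotomy i m with hi | hi | hi
  · have h1 := ht ⟨m - (i + 1), by omega⟩
    rw [hev] at h1
    simpa only [show m - (m - (i + 1) + 1) = i by omega] using h1
  · rw [show χ.coeff i = 1 by rw [hi, ← hd]; exact hχ.coeff_natDegree, hi]
    have := (Matrix.charpoly_monic (a * diagonal t)).coeff_natDegree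
    rwa [hd'] at this
  · rw [Polynomial.coeff_eq_zero_of_natDegree_lt (hd'.trans_lt hi),
      Polynomial.coeff_eq_zero_of_natDegree_lt (hd.trans_lt hi)]

theorem diag_of_charpoly {m : ℕ} (M : Mat ℂ m m) (t : Fin m → ℂ) (ht : Function.Injective t)
    (h : M.charpoly = ∏ j, (Polynomial.X - Polynomial.C (t j))) :
    ∃ P : G m ℂ, M = P.val * diagonal t * (P⁻¹).val := by
  have h1 : ∀ j, ∃ v, Module.End.HasEigenvector (Matrix.toLin' M) (t j) v := fun j => by
    refine Module.End.HasEigenvalue.exists_hasEigenvector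
      ((Module.End.hasEigenvalue_iff_isRoot_charpoly _ _).2 ?_)
    rw [Matrix.charpoly_toLin', h, Polynomial.IsRoot, Polynomial.eval_prod]
    exact Finset.prod_eq_zero (Finset.mem_univ j) (by simp)
  choose v hv using h1
  have h2 := Module.End.eigenvectors_linearIndependent' _ t ht v hv
  obtain ⟨P, hP⟩ := (Matrix.linearIndependent_cols_iff_isUnit (A := (Matrix.of v)ᵀ)).1 h2
  refine ⟨P, ?_⟩
  have h3 : M * P.val = P.val * diagonal t := by
    ext i j
    have := congrFun (hv j).apply_eq_smul i
    rw [hP, mul_diagonal]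
    simpa [Matrix.mul_apply, Matrix.mulVec, dotProduct, mul_comm] using this
  rw [← h3, Matrix.mul_assoc, Units.mul_inv, Matrix.mul_one]

theorem exists_poly_diag {m : ℕ} (t : Fin m → ℂ) (ht : Function.Injective t) (s : Fin m → ℂ) :
    ∃ c : Fin m → ℂ, diagonal s = ∑ k : Fin m, c k • (diagonal t : Mat ℂ m m) ^ (k : ℕ) := by
  obtain ⟨c, hc⟩ := Matrix.mulVec_surjective_iff_isUnit.2 ((Matrix.isUnit_iff_isUnit_det _).2
    (Matrix.det_vandermonde_ne_zero_iff.2 ht).isUnit) s
  refine ⟨c, ?_⟩
  ext i j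
  rw [← hc]
  by_cases hij : i = j
  · simp [hij, Matrix.sum_apply, diagonal_pow, Matrix.mulVec, dotProduct, mul_comm]
  · simp [hij, Matrix.sum_apply, diagonal_pow]

end Crest.Agent.R3

end
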