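import Crest.Agent.R3.D1
import Crest.Agent.R3.D2
import Crest.Agent.R3.D3
import Crest.Agent.R3.Burn
import Crest.Agent.R3.Fried

set_option autoImplicit false

noncomputable section

namespace Crest.Agent.R3

open Matrix Filter Topology

/-! Good points are dense near simple points. -/

variable {g m : ℕ}

theorem Dense_charpoly {a b n : ℕ} (e : Ex ℂ a b n) (X : Mat ℂ a a) (Y : Mat ℂ b b)
    (Z : Mat ℂ a b) :
    (e.i * X * e.r + e.s * Y * e.p + e.i * Z * e.p).charpoly = X.charpoly * Y.charpoly := by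
  have h1 : e.i * X * e.r + e.s * Y * e.p + e.i * Z * e.p =
      fromCols e.i e.s * (fromBlocks X Z 0 Y * fromRows e.r e.p) := by
    rw [fromBlocks_mul_fromRows, fromCols_mul_fromRows]
    simp only [Matrix.zero_mul, zero_add, Matrix.mul_add, Matrix.mul_assoc]
    abel
  have h2 : fromRows e.r e.p * fromCols e.i e.s = 1 := by
    rw [fromRows_mul_fromCols, e.ri, e.rs, e.pi, e.ps, fromBlocks_one]
  rw [h1, charpoly_mul_comm_of_le _ _ (by simp [e.dim]), Matrix.mul_assoc, h2, Matrix.mul_one,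
    charpoly_fromBlocks_zero₂₁]
  simp [e.dim]

/-- The eigenvalues of a matrix can be moved linearly in any direction. -/
theorem Dense_line (m : ℕ) (b : Mat ℂ m m) : ∃ t : Fin m → ℂ, ∀ s : Fin m → ℂ, ∃ N : Mat ℂ m m,
    ∀ τ : ℂ, (b + τ • N).charpoly = ∏ j, (Polynomial.X - Polynomial.C (t j + τ * s j)) := by
  induction m with
  | zero => exact ⟨0, fun s => ⟨0, fun τ => by simp⟩⟩
  | succ m ih =>
    obtain ⟨c, hc⟩ := Module.End.exists_eigenvalue (Matrix.toLin' b)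
    obtain ⟨v, hv⟩ := hc.exists_hasEigenvector
    have hv1 : b *ᵥ v = c • v := by
      rw [← Matrix.toLin'_apply]; exact hv.apply_eq_smul
    let i : Mat ℂ (m + 1) 1 := Matrix.of fun x _ => v x
    obtain ⟨r, hr⟩ := exists_left_inv i fun x hx => by
      have h1 : x 0 • v = 0 := by
        rw [← hx]; ext y; simp [i, Matrix.mulVec, dotProduct, mul_comm]
      have h2 := (smul_eq_zero.1 h1).resolve_right hv.2
      ext y
      rw [Subsingleton.elim y 0, h2]; rfl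
    obtain ⟨q, e, he⟩ := Ex.exists_of_inj i r hr
    obtain rfl : q = m := by have := e.dim; omega
    have hb : b * e.i = c • e.i := by
      rw [he]; ext x y
      have := congrFun hv1 x
      simpa [i, Matrix.mul_apply, Matrix.mulVec, dotProduct] using this
    obtain ⟨t, ht⟩ := ih (e.p * b * e.s)
    refine ⟨Fin.cons c t, fun s => ?_⟩
    obtain ⟨N, hN⟩ := ht fun j => s j.succ
    refine ⟨s 0 • (e.i * e.r) + e.s * N * e.p, fun τ => ?_⟩
    have h1 : b = c • (e.i * e.r) + e.s * (e.p * b * e.s) * e.p + e.i * (e.r * b * e.s) * e.p := by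
      calc b = b * (e.i * e.r) + (e.i * e.r + e.s * e.p) * b * (e.s * e.p) := by
            rw [e.tot, Matrix.one_mul, ← Matrix.mul_add, e.tot, Matrix.mul_one]
        _ = _ := by
            rw [← Matrix.mul_assoc b, hb]
            simp only [Matrix.add_mul, Matrix.mul_assoc, Matrix.smul_mul]
            abel
    have h2 : b + τ • (s 0 • (e.i * e.r) + e.s * N * e.p) =
        e.i * (diagonal (fun _ => c + τ * s 0) : Mat ℂ 1 1) * e.r + e.s * (e.p * b * e.s + τ • N) * e.p +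
          e.i * (e.r * b * e.s) * e.p := by
      rw [← smul_one_eq_diagonal]
      conv_lhs => rw [h1]
      simp only [Matrix.add_mul, Matrix.mul_add, Matrix.mul_smul, Matrix.smul_mul, Matrix.mul_one]
      module
    rw [h2, Dense_charpoly, hN, Fin.prod_univ_succ, charpoly_diagonal]
    simp

theorem Dense_gen (m : ℕ) : Gen fun i : Fin m => (2 : ℂ) ^ 2 ^ (i : ℕ) := by
  intro I J _ h
  rcases Nat.eq_zero_or_pos m with rfl | hm
  · exact Subsingleton.elim _ _
  rw [Finset.prod_pow_eq_pow_sum, Finset.prod_pow_eq_pow_sum, ← pow_mul, ← pow_mul] at h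
  have h1 : (2 : ℕ) ^ ((∑ i ∈ I, 2 ^ (i : ℕ)) * m) = 2 ^ ((∑ i ∈ J, 2 ^ (i : ℕ)) * m) := by
    exact_mod_cast h
  have h2 := Nat.eq_of_mul_eq_mul_right hm (Nat.pow_right_injective le_rfl h1)
  refine Finset.map_injective Fin.valEmbedding (Finset.geomSum_injective le_rfl ?_)
  simpa using h2

theorem Dense_ev (t : Fin m → ℂ) : ∃ s : Fin m → ℂ,
    ∀ᶠ τ in 𝓝[≠] (0 : ℂ), Gen fun j => t j + τ * s j := by
  refine ⟨fun i => 2 ^ 2 ^ (i : ℕ) - t i, ?_⟩
  simp only [Gen, eventually_all]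
  intro I J hIJ
  by_cases h : I = J
  · exact Eventually.of_forall fun _ _ => h
  have ha : ∀ K : Finset (Fin m), AnalyticOnNhd ℂ
      (fun τ : ℂ => (∏ i ∈ K, (t i + τ * (2 ^ 2 ^ (i : ℕ) - t i))) ^ m) Set.univ := fun K τ _ => by
    fun_prop
  by_contra hc
  rw [not_eventually] at hc
  have := congrFun (AnalyticOnNhd.eq_of_frequently_eq (ha I) (ha J)
    (hc.mono fun τ hτ => (Classical.not_imp.1 hτ).1)) 1
  exact h (Dense_gen m I J hIJ (by simpa using this))

theorem Dense_emb : IsEmbedding (Units.val : G m ℂ → Mat ℂ m m) :=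
  Units.isEmbedding_val_mk' (f := Inv.inv) (fun A hA => by
    obtain ⟨u, hu⟩ := (Matrix.isUnit_iff_isUnit_det A).1 hA
    exact (continuousAt_matrix_inv A (hu ▸ NormedRing.inverse_continuousAt u)).continuousWithinAt)
    fun u => (Matrix.coe_units_inv u).symm

theorem gen_dense (b : G m ℂ) (U : Set (G m ℂ)) (hU : U ∈ 𝓝 b) :
    ∃ b' ∈ U, ∃ (P : G m ℂ) (t : Fin m → ℂ), Gen t ∧ (P⁻¹ * b' * P).val = diagonal t := by
  obtain ⟨t, ht⟩ := Dense_line m b.val
  obtain ⟨s, hs⟩ := Dense_ev t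
  obtain ⟨N, hN⟩ := ht s
  rw [Dense_emb.isInducing.nhds_eq_comap, mem_comap] at hU
  obtain ⟨V, hV, hVU⟩ := hU
  have hc : Continuous fun τ : ℂ => b.val + τ • N := by fun_prop
  have h1 : ∀ᶠ τ in 𝓝 (0 : ℂ), b.val + τ • N ∈ V :=
    hc.continuousAt.eventually_mem (by simpa using hV)
  have h2 : ∀ᶠ τ in 𝓝 (0 : ℂ), (b.val + τ • N).det ≠ 0 :=
    hc.matrix_det.continuousAt.eventually_ne (by
      simpa using ((Matrix.isUnit_iff_isUnit_det _).1 b.isUnit).ne_zero)
  obtain ⟨τ, hg, hτ1, hτ2⟩ := (hs.and ((h1.and h2).filter_mono nhdsWithin_le_nhds)).exists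
  obtain ⟨b', hb'⟩ := (Matrix.isUnit_iff_isUnit_det _).2 hτ2.isUnit
  obtain ⟨P, hP⟩ := diag_of_charpoly _ _ hg.injective (hN τ)
  refine ⟨b', hVU (by rwa [Set.mem_preimage, hb']), P, _, hg, ?_⟩
  rw [Units.val_mul, Units.val_mul, hb', hP]
  simp only [Matrix.mul_assoc, Units.inv_mul, Matrix.mul_one, ExB_inv_mul]

theorem Dense_com {ι : Type*} {T : ι → G m ℂ} (P : G m ℂ) {X : Mat ℂ m m}
    (h : X ∈ Com fun v => P * T v * P⁻¹) : (P⁻¹).val * X * P.val ∈ Com T := fun v => by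
  have := congrArg (fun Y => (P⁻¹).val * Y * P.val) (h v)
  simpa only [Units.val_mul, Matrix.mul_assoc, Units.inv_mul, Matrix.mul_one, ExB_inv_mul]
    using this

theorem Dense_conj (P : G m ℂ) (X : Mat ℂ m m) :
    X = P.val * ((P⁻¹).val * X * P.val) * (P⁻¹).val := by
  simp only [Matrix.mul_assoc, Units.mul_inv, Matrix.mul_one, Fox_mul_inv]

theorem Dense_loc {ι : Type*} {T : ι → G m ℂ} (h : Loc T) (P : G m ℂ) :
    Loc fun v => P * T v * P⁻¹ := fun X hX h0 => by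
  obtain ⟨k, hk⟩ := h _ (Dense_com P hX) (by
    rwa [trace_mul_comm, ← Matrix.mul_assoc, Units.mul_inv, Matrix.one_mul])
  exact ⟨k, by rw [Dense_conj P X, Units.conj_pow, hk, mul_zero, zero_mul]⟩

theorem Dense_scal {ι : Type*} {T : ι → G m ℂ} (h : Scal T) (P : G m ℂ) :
    Scal fun v => P * T v * P⁻¹ := fun X hX => by
  obtain ⟨c, hc⟩ := h _ (Dense_com P hX)
  exact ⟨c, by rw [Dense_conj P X, hc, Matrix.mul_smul, Matrix.smul_mul, Matrix.mul_one,
    Units.mul_inv]⟩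

theorem Dense_cprod {ζ : ℂ} {T : Fin g × Bool → G m ℂ} (h : (cprod T).val = ζ • 1) (P : G m ℂ) :
    (cprod fun v => P * T v * P⁻¹).val = ζ • 1 := by
  rw [cprod_conj, Units.val_mul, Units.val_mul, h, Matrix.mul_smul, Matrix.smul_mul,
    Matrix.mul_one, Units.mul_inv]

theorem good_dense (ζ : ℂ) (T : Fin (g + 2) × Bool → G m ℂ) (hT : (cprod T).val = ζ • 1)
    (hS : Simple T) :
    T ∈ closure {T' : Fin (g + 2) × Bool → G m ℂ | (cprod T').val = ζ • 1 ∧
      ∃ (P : G m ℂ) (t : Fin m → ℂ), Function.Injective t ∧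
        (P⁻¹ * T' (0, true) * P).val = diagonal t ∧ PMin (P⁻¹ * T' (0, false) * P).val} := by
  rw [mem_closure_iff]
  intro U hU hTU
  have hm := hS.1
  have hU0 : IsOpen (U ∩ {T' | Simple T'}) :=
    hU.inter (isOpen_iff_mem_nhds.2 fun T' h => simple_open h)
  set f : (Fin (g + 2) × Bool → G m ℂ) → ℕ := fun T' => Module.finrank ℂ (Com (tail T')) with hf
  obtain ⟨T1, ⟨hT1U, hT1⟩, hmin⟩ := (measure f).wf.has_min
    ((U ∩ {T' | Simple T'}) ∩ {T' | (cprod T').val = ζ • 1}) ⟨T, ⟨hTU, hS⟩, hT⟩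
  have htail : Continuous (tail : (Fin (g + 2) × Bool → G m ℂ) → _) :=
    continuous_pi fun v => continuous_apply _
  have hcut : Continuous (cut : (Fin (g + 2) × Bool → G m ℂ) → _) :=
    continuous_pi fun v => by
      rcases v with _ | v
      · exact continuous_apply _
      · exact continuous_apply _
  have hU1 : IsOpen ((U ∩ {T' | Simple T'}) ∩ {T' | f T' ≤ f T1}) :=
    hU0.inter (isOpen_iff_mem_nhds.2 fun T' h =>
      (htail.continuousAt.eventually (com_usc (tail T'))).mono fun T'' h' => le_trans h' h)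
  set U1 := (U ∩ {T' | Simple T'}) ∩ {T' | f T' ≤ f T1}
  have hP : ∀ T' ∈ U1, (cprod T').val = ζ • 1 → Simple T' ∧ Loc (tail T') := fun T' h h' => by
    refine ⟨h.1.2, d1 T' h.1.2 ?_⟩
    filter_upwards [hU0.mem_nhds h.1] with T'' h1 h2
    exact le_trans h.2 (not_lt.1 (hmin T'' ⟨h1, by rw [Set.mem_ofPred_eq, h2, h']⟩))
  obtain ⟨T2, hT2U, hT2, hc2⟩ := d2a ζ U1 hU1 hP T1 ⟨hT1U, le_refl (f T1)⟩ hT1
  have hU2 : U1 ∩ {T' | Scal (cut T')} ∈ 𝓝 T2 :=
    inter_mem (hU1.mem_nhds hT2U) (hcut.continuousAt.eventually (scal_open hm hc2))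
  obtain ⟨b, ⟨T3, ⟨hT3U, hc3⟩, hT3, rfl⟩, P, t, ht, hb⟩ :=
    gen_dense _ _ (open_lemma hm T2 (0, true) (fsurj_b T2 ζ hT2 hc2) _ hU2)
  have hcc : Continuous fun (T' : Fin (g + 2) × Bool → G m ℂ) v => P * T' v * P⁻¹ := by fun_prop
  obtain ⟨T4, hT4U, hT4, hb4, hpm⟩ := d3 ζ _ (hU1.preimage hcc) (fun T' h h' => by
      obtain ⟨h1, h2⟩ := hP _ h (Dense_cprod h' P)
      have e : ∀ x : G m ℂ, P⁻¹ * (P * x * P⁻¹) * P⁻¹⁻¹ = x := fun x => by group
      have h3 := h1.conj P⁻¹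
      have h4 := Dense_loc h2 P⁻¹
      simp only [tail_apply, e] at h3 h4
      exact ⟨h3, h4⟩)
    (fun v => P⁻¹ * T3 v * P⁻¹⁻¹) (by
      have e : ∀ x : G m ℂ, P * (P⁻¹ * x * P⁻¹⁻¹) * P⁻¹ = x := fun x => by group
      simpa only [Set.mem_preimage, e] using hT3U)
    (Dense_cprod (by rw [hT3, hT2]) _) (by
      have h1 := Dense_scal hc3 P⁻¹
      have e : (fun v => P⁻¹ * cut T3 v * P⁻¹⁻¹) = cut fun v => P⁻¹ * T3 v * P⁻¹⁻¹ := by
        funext v; rcases v with _ | v <;> rfl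
      rwa [e] at h1) t (by rw [inv_inv]; exact hb) ht
  have e : ∀ x : G m ℂ, P⁻¹ * (P * x * P⁻¹) * P = x := fun x => by group
  refine ⟨_, hT4U.1.1, Dense_cprod hT4 P, P, t, ht.injective, ?_, ?_⟩
  · rw [e, hb4, inv_inv]; exact hb
  · rw [e]; exact hpm

end Crest.Agent.R3

end
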