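import Crest.Agent.R3.B3a
import Crest.Agent.R3.B3b
import Crest.Agent.R3.Dense

set_option autoImplicit false

noncomputable section

namespace Crest.Agent.R3

open Matrix Filter Topology

/-! Simple representations of closed surfaces lift. -/

variable {O : Subring ℂ}

theorem cprod_update_flow {H : Type*} [Group H] {g : ℕ} (T : Fin (g + 1) × Bool → H) (h : H)
    (hc : h * T (0, true) = T (0, true) * h) :
    cprod (Function.update T (0, false) (T (0, false) * h)) = cprod T := by
  rw [cprod_succ, cprod_succ]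
  have h1 : tail (Function.update T (0, false) (T (0, false) * h)) = tail T := by
    funext v
    rw [tail_apply, tail_apply, Function.update_of_ne]
    simp
  rw [h1, Function.update_self, Function.update_of_ne (by simp)]
  congr 1
  simp only [comm]
  calc _ = T (0, false) * (h * T (0, true)) * h⁻¹ * (T (0, false))⁻¹ * (T (0, true))⁻¹ := by group
    _ = _ := by rw [hc]; group

theorem liftRep_good {r g m : ℕ} (hN : Nice O r) (hm : 2 ≤ m) (hr : m ≤ r) (hA : PA' O m)
    (ζ : Oˣ) (T : Fin (g + 1) × Bool → G m ℂ) (hT : cprod T = scal ℂ m ζ) (t : Fin m → ℂ)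
    (ht : Function.Injective t) (hb : (T (0, true)).val = diagonal t)
    (ha : PMin (T (0, false)).val) : LiftRep ζ T := by
  classical
  obtain ⟨δ0, hδ0⟩ := hN.del
  set δ : Fin m → Oˣ := fun j => δ0 (Fin.castLE hr j) with hδdef
  have hδ : ∀ i j, i ≠ j → IsUnit ((δ i : O) - (δ j : O)) := fun i j hij =>
    hδ0 _ _ fun h => hij (Fin.castLE_injective hr h)
  have hδinj : Function.Injective fun j => ((δ j : O) : ℂ) := by
    intro i j hij
    by_contra hne
    have h1 := (hδ i j hne).ne_zero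
    exact h1 (sub_eq_zero.2 (Subtype.ext hij))
  obtain ⟨s, hs⟩ := friedland (T (0, false)).val ha
    (∏ j, (Polynomial.X - Polynomial.C ((δ j : O) : ℂ)))
    (Polynomial.monic_prod_of_monic _ _ fun j _ => Polynomial.monic_X_sub_C _)
    (by rw [Polynomial.natDegree_prod_of_monic _ _ fun j _ => Polynomial.monic_X_sub_C _]; simp)
  obtain ⟨P, hP⟩ := diag_of_charpoly _ _ hδinj hs
  have hs0 : ∀ i, s i ≠ 0 := by
    have h1 : ((T (0, false)).val * diagonal s).det ≠ 0 := by
      rw [hP, det_mul, det_mul, det_diagonal]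
      refine mul_ne_zero (mul_ne_zero (Matrix.GeneralLinearGroup.det_ne_zero P) ?_)
        (Matrix.GeneralLinearGroup.det_ne_zero P⁻¹)
      exact Finset.prod_ne_zero_iff.2 fun j _ h => (δ j).ne_zero (Subtype.ext h)
    rw [det_mul, det_diagonal] at h1
    exact fun i => Finset.prod_ne_zero_iff.1 (right_ne_zero_of_mul h1) i (Finset.mem_univ _)
  let h : G m ℂ := ⟨diagonal s, diagonal fun i => (s i)⁻¹,
    by rw [diagonal_mul_diagonal, ← diagonal_one]; congr 1; funext i; exact mul_inv_cancel₀ (hs0 i),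
    by rw [diagonal_mul_diagonal, ← diagonal_one]; congr 1; funext i; exact inv_mul_cancel₀ (hs0 i)⟩
  have hc : h * T (0, true) = T (0, true) * h := by
    ext1
    simp only [Units.val_mul, hb, h, diagonal_mul_diagonal, mul_comm]
  set T1 := Function.update T (0, false) (T (0, false) * h) with hT1
  have hb1 : T1 (0, true) = T (0, true) := Function.update_of_ne (by simp) _ _
  have ha1 : T1 (0, false) = T (0, false) * h := Function.update_self _ _ _
  have h1 : LiftRep ζ T1 := liftRep_diag hA hm δ hδ ζ T1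
    (by rw [hT1, cprod_update_flow T h hc, hT]) P (by rw [ha1, Units.val_mul]; exact hP)
  obtain ⟨c, hcs⟩ := exists_poly_diag t ht fun i => (s i)⁻¹
  have h2 := liftRep_flow hN ζ T1 (by
      rw [hb1, hb, charpoly_diagonal]
      exact Polynomial.separable_prod_X_sub_C_iff.2 ht) c h⁻¹ (by rw [hb1, hb]; exact hcs) h1
  have h3 : Function.update T1 (0, false) (T1 (0, false) * h⁻¹) = T := by
    rw [ha1, hT1, Function.update_idem, mul_inv_cancel_right, Function.update_eq_self]
  rwa [h3] at h2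

theorem pbs_ge2 {r g m : ℕ} (hN : Nice O r) (hm : 2 ≤ m) (hr : m ≤ r) (hA : PA' O m)
    (ζ : Oˣ) (T : Fin (g + 2) × Bool → G m ℂ) (hS : Simple T) (hT : cprod T = scal ℂ m ζ) :
    LiftRep ζ T := by
  have hval : (scal ℂ m ζ).val = ((ζ : O) : ℂ) • (1 : Mat ℂ m m) := scal_val ζ
  refine liftRep_closed ζ T (closure_mono ?_ (good_dense ((ζ : O) : ℂ) T (by rw [hT, hval]) hS))
  rintro T' ⟨h1, P, t, ht, hb, ha⟩
  have h2 : cprod T' = scal ℂ m ζ := Units.ext (h1.trans hval.symm)
  have h3 : LiftRep ζ fun v => P⁻¹ * T' v * P⁻¹⁻¹ := by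
    refine liftRep_good hN hm hr hA ζ _ ?_ t ht (by simpa only [inv_inv] using hb)
      (by simpa only [inv_inv] using ha)
    rw [cprod_conj, h2, ← scal_comm, mul_inv_cancel_right]
  have h4 := liftRep_conj h3 P
  have h5 : (fun v => P * (P⁻¹ * T' v * P⁻¹⁻¹) * P⁻¹) = T' := by funext v; group
  rwa [h5] at h4

theorem pbs_of {r m : ℕ} (hN : Nice O r) (hr : m ≤ r) (hA : PA' O m) : PBs O m := by
  obtain ⟨L₀⟩ := LR.nonempty hN.infinite
  intro g ζ T hS hT
  match g, m, T, hS, hT, hr, hA with
  | 0, _, T, _, hT, _, _ => exact pbs_genus_zero L₀ ζ T hT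
  | 1, _, T, hS, hT, _, _ => exact pbs_genus_one L₀ ζ T hS hT
  | _ + 2, 0, _, hS, _, _, _ => exact absurd hS.1 (lt_irrefl 0)
  | _ + 2, 1, T, _, hT, _, _ => exact pbs_rank_one L₀ ζ T hT
  | _ + 2, _ + 2, T, hS, hT, hr, hA => exact pbs_ge2 hN (by omega) hr hA ζ T hS hT

end Crest.Agent.R3

end
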