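import Crest.Agent.R3.Flag
import Crest.Agent.R3.B2

set_option autoImplicit false

noncomputable section

namespace Crest.Agent.R3

open Matrix Filter Topology

/-! The locus where `a₀` is conjugate to a diagonal matrix with unit differences lifts. -/

variable {O : Subring ℂ}

section Aux
variable {R : Type*} [CommRing R] {m : ℕ}

/-- The sequence with sub spanned by the coordinates `j + 1` and quotient the coordinate `0`. -/
def B3a_ex (R : Type*) [CommRing R] (m : ℕ) : Ex R m 1 (m + 1) where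
  i := (1 : Mat R (m + 1) (m + 1)).submatrix id Fin.succ
  p := (1 : Mat R (m + 1) (m + 1)).submatrix (fun _ => 0) id
  r := (1 : Mat R (m + 1) (m + 1)).submatrix Fin.succ id
  s := (1 : Mat R (m + 1) (m + 1)).submatrix id fun _ => 0
  ri := by
    ext x y
    simp [Matrix.mul_apply, Matrix.one_apply]
  ps := by
    ext x y
    simp [Matrix.mul_apply, Matrix.one_apply, Subsingleton.elim x y]
  pi := by
    ext x y
    simp [Matrix.mul_apply, Matrix.one_apply, (Fin.succ_ne_zero y).symm]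
  rs := by
    ext x y
    simp [Matrix.mul_apply, Matrix.one_apply]
  tot := by
    ext x y
    refine Fin.cases ?_ (fun x => ?_) x <;> refine Fin.cases ?_ (fun y => ?_) y <;>
      simp [Matrix.mul_apply, Matrix.one_apply, (Fin.succ_ne_zero _).symm]

theorem B3a_diag_eq (d : Fin (m + 1) → R) :
    diagonal d = (B3a_ex R m).i * (diagonal fun j => d j.succ : Mat R m m) * (B3a_ex R m).r +
      d 0 • ((B3a_ex R m).s * (B3a_ex R m).p) := by
  ext x y
  refine Fin.cases ?_ (fun x => ?_) x <;> refine Fin.cases ?_ (fun y => ?_) y <;>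
    simp [B3a_ex, Matrix.mul_apply, Matrix.one_apply, diagonal_apply, (Fin.succ_ne_zero _).symm]
  split_ifs with h
  · rw [h]
  · rfl

/-- An invertible diagonal matrix. -/
def B3a_dU (d : Fin m → Rˣ) : G m R :=
  ⟨diagonal fun j => (d j : R), diagonal fun j => (((d j)⁻¹ : Rˣ) : R),
    by simp [diagonal_mul_diagonal], by simp [diagonal_mul_diagonal]⟩

theorem B3a_dU_comm (d d' : Fin m → Rˣ) : B3a_dU d * B3a_dU d' = B3a_dU d' * B3a_dU d :=
  Units.ext (by simp [B3a_dU, diagonal_mul_diagonal, mul_comm])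

variable [Algebra O R]

/-- The diagonal matrix of the units `δ`. -/
def B3a_D (R : Type*) [CommRing R] [Algebra O R] (δ : Fin m → Oˣ) : G m R :=
  B3a_dU fun j => Units.map (algebraMap O R).toMonoidHom (δ j)

theorem B3a_D_val (δ : Fin m → Oˣ) :
    (B3a_D R δ).val = diagonal fun j => algebraMap O R (δ j) := rfl

theorem B3a_D_inv (δ : Fin m → Oˣ) : B3a_D R (fun j => (δ j)⁻¹) = (B3a_D R δ)⁻¹ := rfl

theorem B3a_D_map {S : Type*} [CommRing S] [Algebra O S] (f : R →ₐ[O] S) (δ : Fin m → Oˣ) :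
    gmap (f : R →+* S) (B3a_D R δ) = B3a_D S δ := by
  ext1
  rw [gmap_val, B3a_D_val, B3a_D_val, diagonal_map (map_zero _)]
  simp

theorem B3a_flagged (δ : Fin m → Oˣ) (P : G m R) :
    Flagged R (List.ofFn fun j => (1, δ j)) m (P * B3a_D R δ * P⁻¹) := by
  induction m with
  | zero => exact rfl
  | succ m ih =>
    rw [List.ofFn_succ]
    refine ⟨m, rfl, (B3a_ex R m).twist P 1 1, B3a_D R fun j => δ j.succ, ?_, ?_, by
      simpa using ih (fun j => δ j.succ) 1⟩
    · simp only [Ex.twist_i, Units.val_mul, Units.val_one, Matrix.mul_one, Matrix.mul_assoc,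
        ExB_inv_mul, B3a_D_val]
      rw [B3a_diag_eq]
      simp only [Matrix.add_mul, Matrix.smul_mul, Matrix.mul_assoc, Ex.ri, Ex.pi, Matrix.mul_one,
        Matrix.mul_zero, smul_zero, add_zero]
    · simp only [Ex.twist_p, Units.val_mul, inv_one, Units.val_one, Matrix.one_mul,
        Matrix.mul_assoc, ExB_inv_mul, B3a_D_val, scal_mul_mat]
      rw [B3a_diag_eq, ← Matrix.mul_assoc]
      simp only [Matrix.mul_add, Matrix.mul_smul, ← Matrix.mul_assoc, Ex.ps, Ex.pi, Matrix.one_mul,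
        Matrix.zero_mul, zero_add, Matrix.smul_mul]

/-- Change of the splitting. -/
def B3a_split {a b n : ℕ} (e : Ex R a b n) (y : Mat R a b) : Ex R a b n where
  i := e.i
  p := e.p
  r := e.r - y * e.p
  s := e.s + e.i * y
  ri := by rw [Matrix.sub_mul, Matrix.mul_assoc, e.pi, e.ri, Matrix.mul_zero, sub_zero]
  ps := by rw [Matrix.mul_add, ← Matrix.mul_assoc, e.pi, e.ps, Matrix.zero_mul, add_zero]
  pi := e.pi
  rs := by
    rw [Matrix.sub_mul, Matrix.mul_add, e.rs, ← Matrix.mul_assoc, e.ri, Matrix.mul_assoc,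
      Matrix.mul_add, ← Matrix.mul_assoc e.p, e.pi, e.ps]
    simp
  tot := by
    rw [Matrix.mul_sub, Matrix.add_mul, Matrix.mul_assoc, ← e.tot]
    abel

theorem B3a_diag (δ : Fin m → Oˣ) (hδ : ∀ i j, i ≠ j → IsUnit ((δ i : O) - (δ j : O))) (M : G m R)
    (h : Flagged R (List.ofFn fun j => (1, δ j)) m M) :
    ∃ P : G m R, M = P * B3a_D R δ * P⁻¹ := by
  induction m with
  | zero => exact ⟨1, Subsingleton.elim _ _⟩
  | succ m ih =>
    rw [List.ofFn_succ] at h
    obtain ⟨a, ha, e, M', h1, h2, h3⟩ := h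
    obtain rfl : a = m := by omega
    obtain ⟨P', rfl⟩ := ih (fun j => δ j.succ)
      (fun i j hij => hδ _ _ fun h => hij (Fin.succ_injective _ h)) M' h3
    have k1 : M.val * (e.twist 1 P' 1).i =
        (e.twist 1 P' 1).i * (B3a_D R fun j => δ j.succ).val := by
      simp only [Ex.twist_i, Units.val_one, Matrix.one_mul, ← Matrix.mul_assoc, h1, Units.val_mul]
      rw [Matrix.mul_assoc _ _ P'.val, Units.inv_mul, Matrix.mul_one]
    have k2 : (e.twist 1 P' 1).p * M.val = algebraMap O R (δ 0) • (e.twist 1 P' 1).p := by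
      simp only [Ex.twist_p, inv_one, Units.val_one, Matrix.one_mul, Matrix.mul_one, h2,
        scal_mul_mat]
    generalize e.twist 1 P' 1 = e₁ at k1 k2
    choose u hu using fun j : Fin a => (hδ 0 j.succ (Fin.succ_ne_zero j).symm).map (algebraMap O R)
    have k3 : M.val * e₁.s = e₁.i * (e₁.r * (M.val * e₁.s)) + algebraMap O R (δ 0) • e₁.s := by
      calc M.val * e₁.s = (e₁.i * e₁.r + e₁.s * e₁.p) * (M.val * e₁.s) := by
            rw [e₁.tot, Matrix.one_mul]
        _ = _ := by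
            rw [Matrix.add_mul, Matrix.mul_assoc, Matrix.mul_assoc e₁.s, ← Matrix.mul_assoc e₁.p,
              k2, Matrix.smul_mul, e₁.ps, Matrix.mul_smul, Matrix.mul_one]
    generalize e₁.r * (M.val * e₁.s) = c at k3
    have k4 : c + (B3a_D R fun j => δ j.succ).val * (((B3a_dU u)⁻¹).val * c) =
        algebraMap O R (δ 0) • (((B3a_dU u)⁻¹).val * c) := by
      have : (B3a_dU u).val + (B3a_D R fun j => δ j.succ).val =
          algebraMap O R (δ 0) • (1 : Mat R a a) := by
        rw [B3a_D_val, smul_one_eq_diagonal]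
        simp [B3a_dU, hu]
      conv_lhs => rw [← Matrix.one_mul c, ← (B3a_dU u).mul_inv, Matrix.mul_assoc, ExB_inv_mul]
      rw [← Matrix.add_mul, this, Matrix.smul_mul, Matrix.one_mul]
    generalize ((B3a_dU u)⁻¹).val * c = y at k4
    have k5 : M.val * (B3a_split e₁ y).s = algebraMap O R (δ 0) • (B3a_split e₁ y).s := by
      simp only [B3a_split]
      rw [Matrix.mul_add, k3, ← Matrix.mul_assoc, k1, Matrix.mul_assoc, add_right_comm,
        ← Matrix.mul_add, k4, smul_add, Matrix.mul_smul]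
      exact add_comm _ _
    have k6 : M.val * (B3a_split e₁ y).i =
      (B3a_split e₁ y).i * (B3a_D R fun j => δ j.succ).val := k1
    generalize B3a_split e₁ y = e₂ at k5 k6
    obtain ⟨P, rfl⟩ : ∃ P, (B3a_ex R a).twist P 1 1 = e₂ := ⟨_, LiftB_twist _ _⟩
    refine ⟨P, Units.ext ?_⟩
    rw [← Matrix.mul_one M.val, ← ((B3a_ex R a).twist P 1 1).tot, Matrix.mul_add,
      ← Matrix.mul_assoc, ← Matrix.mul_assoc, k5, k6, Units.val_mul, Units.val_mul, B3a_D_val δ,
      B3a_diag_eq]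
    simp only [Ex.twist_i, Ex.twist_r, Ex.twist_s, Ex.twist_p, inv_one, Units.val_one,
      Matrix.mul_one, Matrix.one_mul, Matrix.mul_add, Matrix.add_mul, Matrix.mul_smul,
      Matrix.smul_mul, Matrix.mul_assoc, B3a_D_val]

/-- The commutator word. -/
def B3a_cw (O : Subring ℂ) {κ : Type} : {g : ℕ} → (Fin g × Bool → κ) → List (Item O κ)
  | 0, _ => []
  | _ + 1, f => .var (f (0, false)) true :: .var (f (0, true)) true :: .var (f (0, false)) false ::
      .var (f (0, true)) false :: B3a_cw O (tail f)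

theorem B3a_cw_eval {κ : Type} {g : ℕ} (f : Fin g × Bool → κ) (y : κ → G m R) :
    evalW y (B3a_cw O f) = cprod fun v => y (f v) := by
  induction g with
  | zero => rfl
  | succ g ih =>
    simp only [B3a_cw, evalW_cons, evalI_true, evalI_false, ih, cprod_succ, comm, mul_assoc]
    rfl

theorem B3a_cw_mem {κ : Type} {g : ℕ} (f : Fin g × Bool → κ) {o : κ × Bool}
    (h : o ∈ vocc (B3a_cw O f)) : ∃ v, f v = o.1 := by
  induction g with
  | zero => simp [B3a_cw] at h
  | succ g ih =>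
    simp only [B3a_cw, vocc_var, Multiset.mem_add, Multiset.mem_singleton] at h
    rcases h with rfl | rfl | rfl | rfl | h
    exacts [⟨_, rfl⟩, ⟨_, rfl⟩, ⟨_, rfl⟩, ⟨_, rfl⟩, let ⟨v, hv⟩ := ih _ h; ⟨_, hv⟩]

theorem B3a_cw_nodup {κ : Type} {g : ℕ} {f : Fin g × Bool → κ} (hf : Function.Injective f) :
    (vocc (B3a_cw O f)).Nodup := by
  induction g with
  | zero => simp [B3a_cw]
  | succ g ih =>
    have h1 : ∀ e e', (f (0, e), e') ∉ vocc (B3a_cw O (tail f)) := fun e e' h => by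
      obtain ⟨v, hv⟩ := B3a_cw_mem _ h
      exact Fin.succ_ne_zero _ (congrArg Prod.fst (hf hv))
    have h2 : Function.Injective (tail f) := fun v w h =>
      Prod.ext (Fin.succ_injective _ (Prod.ext_iff.1 (hf h)).1) (Prod.ext_iff.1 (hf h)).2
    simp [B3a_cw, h1, ih h2, hf.eq_iff]

end Aux

theorem flagged_of_diag {m : ℕ} (δ : Fin m → Oˣ) (M P : G m ℂ)
    (h : M.val = P.val * diagonal (fun j => ((δ j : O) : ℂ)) * (P⁻¹).val) :
    Flagged ℂ (List.ofFn fun j => (1, δ j)) m M := by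
  rw [show M = P * B3a_D ℂ δ * P⁻¹ from Units.ext h]
  exact B3a_flagged δ P

theorem diag_of_flagged {R : Type*} [CommRing R] [Algebra O R] {m : ℕ} (δ : Fin m → Oˣ)
    (hδ : ∀ i j, i ≠ j → IsUnit ((δ i : O) - (δ j : O))) (M : G m R)
    (h : Flagged R (List.ofFn fun j => (1, δ j)) m M) :
    ∃ P : G m R, M.val = P.val * diagonal (fun j => algebraMap O R (δ j)) * (P⁻¹).val := by
  obtain ⟨P, rfl⟩ := B3a_diag δ hδ M h
  exact ⟨P, rfl⟩

theorem liftRep_diag {g m : ℕ} (hA : PA' O m) (hm : 2 ≤ m) (δ : Fin m → Oˣ)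
    (hδ : ∀ i j, i ≠ j → IsUnit ((δ i : O) - (δ j : O))) (ζ : Oˣ)
    (T : Fin (g + 1) × Bool → G m ℂ) (hT : cprod T = scal ℂ m ζ) (P : G m ℂ)
    (ha : (T (0, false)).val = P.val * diagonal (fun j => ((δ j : O) : ℂ)) * (P⁻¹).val) :
    LiftRep ζ T := by
  have ha' : T (0, false) = P * B3a_D ℂ δ * P⁻¹ := Units.ext ha
  have hδ' : ∀ i j, i ≠ j → IsUnit ((((δ i)⁻¹ : Oˣ) : O) - (((δ j)⁻¹ : Oˣ) : O)) := fun i j h => by
    have e : (((δ i)⁻¹ : Oˣ) : O) - (((δ j)⁻¹ : Oˣ) : O) =
        ((δ i)⁻¹ : Oˣ) * ((δ j)⁻¹ : Oˣ) * ((δ j : O) - δ i) := by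
      linear_combination (-(((δ i)⁻¹ : Oˣ) : O)) * (δ j).inv_mul + (((δ j)⁻¹ : Oˣ) : O) * (δ i).inv_mul
    rw [e]
    exact ((Units.isUnit _).mul (Units.isUnit _)).mul (hδ j i h.symm)
  have hok : ∀ δ' : Fin m → Oˣ, FlagOK m m (List.ofFn fun j => (1, δ' j)) := fun δ' => by
    obtain ⟨k, rfl⟩ : ∃ k, m = k + 1 := ⟨m - 1, by omega⟩
    exact ⟨le_rfl, fun _ => ⟨1, _, _, List.ofFn_succ, one_pos, by omega⟩⟩
  set y : Option (Fin g × Bool) → G m ℂ := fun k =>
    k.elim (T (0, true) * (T (0, false))⁻¹ * (T (0, true))⁻¹) (tail T) with hy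
  have h1 : scal ℂ m ζ⁻¹ * (y none * cprod fun v => y (some v)) = (T (0, false))⁻¹ := by
    rw [scal_inv, inv_mul_eq_iff_eq_mul, scal_comm, ← hT, cprod_succ, comm]
    simp only [hy, Option.elim, mul_assoc, inv_mul_cancel_left]
  obtain ⟨L, y', k1, -, k2⟩ := flag_lift_gl hA y []
    [(.sc ζ⁻¹ :: .var none true :: B3a_cw O some, List.ofFn fun j => (1, (δ j)⁻¹)),
      ([.var none false], List.ofFn fun j => (1, δ j))] (fun h => absurd rfl h)
    (by simp only [List.forall_mem_cons]; exact ⟨hok _, hok _, by simp⟩) (by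
      have h2 : ∀ e, (none, e) ∉ vocc (B3a_cw O (some : Fin g × Bool → _)) := fun e h => by
        obtain ⟨v, hv⟩ := B3a_cw_mem _ h
        cases hv
      simp [Multiset.nodup_add, h2, B3a_cw_nodup (Option.some_injective _)]) (by simp) (by
      simp only [List.forall_mem_cons, evalW_cons, evalI_sc, evalI_true, evalI_false, evalW_nil,
        B3a_cw_eval, h1, mul_one]
      refine ⟨?_, ?_, by simp⟩
      · convert B3a_flagged (R := ℂ) (fun j => (δ j)⁻¹) P using 1
        rw [ha', B3a_D_inv]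
        group
      · convert B3a_flagged (R := ℂ) δ (T (0, true) * P) using 1
        simp only [hy, Option.elim, ha']
        group)
  simp only [List.forall_mem_cons, evalW_cons, evalI_sc, evalI_true, evalI_false, evalW_nil,
    B3a_cw_eval, mul_one] at k2
  obtain ⟨P₁, hP₁⟩ := B3a_diag _ hδ' _ k2.1
  obtain ⟨P₂, hP₂⟩ := B3a_diag _ hδ _ k2.2.1
  rw [B3a_D_inv] at hP₁
  have m1 := congrArg (gmap L.t) hP₁
  have m2 := congrArg (gmap L.t) hP₂
  simp only [map_mul, map_inv, gmap_scal, cprod_map, k1, h1, B3a_D_map] at m1 m2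
  have m1' : T (0, false) = gmap L.t P₁ * B3a_D ℂ δ * (gmap L.t P₁)⁻¹ := by
    rw [← inv_inv (T (0, false)), m1]
    group
  have m2' : T (0, true) * T (0, false) * (T (0, true))⁻¹ =
      gmap L.t P₂ * B3a_D ℂ δ * (gmap L.t P₂)⁻¹ := by
    rw [← m2]
    simp only [hy, Option.elim]
    group
  obtain ⟨t, ht⟩ : ∃ t, t = (gmap L.t P₂)⁻¹ * T (0, true) * gmap L.t P₁ := ⟨_, rfl⟩
  have h3 : t * B3a_D ℂ δ = B3a_D ℂ δ * t := by
    calc t * B3a_D ℂ δ = (gmap L.t P₂)⁻¹ * (T (0, true) * T (0, false) * (T (0, true))⁻¹) *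
          T (0, true) * gmap L.t P₁ := by rw [ht, m1']; group
      _ = _ := by rw [m2', ht]; group
  have h4 : t.val = diagonal fun j => t.val j j := by
    ext i j
    by_cases hij : i = j
    · rw [hij, diagonal_apply_eq]
    · have h3' : t.val * (B3a_D ℂ δ).val = (B3a_D ℂ δ).val * t.val := congrArg Units.val h3
      have h5 := congrFun (congrFun h3' i) j
      simp only [B3a_D_val, mul_diagonal, diagonal_mul] at h5
      have h6 := ((hδ i j hij).map (algebraMap O ℂ)).ne_zero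
      rw [map_sub] at h6
      rw [diagonal_apply_ne _ hij]
      exact mul_left_cancel₀ h6 (by linear_combination -h5)
  have h5 : ∀ j, t.val j j ≠ 0 := fun j => by
    have h6 := (Matrix.isUnits_det_units t).ne_zero
    rw [h4, det_diagonal] at h6
    exact Finset.prod_ne_zero_iff.1 h6 j (Finset.mem_univ j)
  choose u hu using fun j => L.rich _ (h5 j)
  have h6 : gmap L.t (B3a_dU u) = t := by
    ext1
    rw [h4, gmap_val, B3a_dU, diagonal_map (map_zero _)]
    exact congrArg diagonal (funext hu)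
  have h7 : B3a_dU u * B3a_D L.A δ = B3a_D L.A δ * B3a_dU u := B3a_dU_comm _ _
  refine ⟨L, fun v => Fin.cases (motive := fun _ => G m L.A)
    (bif v.2 then P₂ * B3a_dU u * P₁⁻¹ else P₁ * B3a_D L.A δ * P₁⁻¹)
    (fun i => y' (some (i, v.2))) v.1, ?_, ?_⟩
  · rintro ⟨i, e⟩
    refine Fin.cases ?_ (fun i => k1 _) i
    cases e
    · simp only [Fin.cases_zero, cond_false, map_mul, map_inv, B3a_D_map, m1']
    · simp only [Fin.cases_zero, cond_true, map_mul, map_inv, h6, ht]
      group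
  · rw [scal_inv, inv_mul_eq_iff_eq_mul, scal_comm] at hP₁
    change comm (P₁ * B3a_D L.A δ * P₁⁻¹) (P₂ * B3a_dU u * P₁⁻¹) *
      (cprod fun v => y' (some v)) = _
    have h8 : comm (P₁ * B3a_D L.A δ * P₁⁻¹) (P₂ * B3a_dU u * P₁⁻¹) =
        P₁ * B3a_D L.A δ * P₁⁻¹ * y' none := by
      calc _ = P₁ * B3a_D L.A δ * P₁⁻¹ *
            (P₂ * (B3a_dU u * B3a_D L.A δ) * (B3a_dU u)⁻¹ * P₂⁻¹)⁻¹ := by rw [comm]; group
        _ = _ := by rw [h7, ← inv_inv (y' none), hP₂]; group
    rw [h8, mul_assoc, hP₁]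
    group

end Crest.Agent.R3

end
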