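import Crest.Agent.R3.LiftB

set_option autoImplicit false

noncomputable section

namespace Crest.Agent.R3

open Matrix Filter Topology

/-! Maps between bifiltered cells; solving for a middle line or a middle isomorphism. -/

variable {A B : Type*} [CommRing A] [CommRing B]

section Aux
variable {a b n a' b' n' : ℕ}

theorem Bimap_ri (e : Ex A a b n) {k : ℕ} (X : Mat A a k) : e.r * (e.i * X) = X := by
  rw [← Matrix.mul_assoc, e.ri, Matrix.one_mul]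

theorem Bimap_ps (e : Ex A a b n) {k : ℕ} (X : Mat A b k) : e.p * (e.s * X) = X := by
  rw [← Matrix.mul_assoc, e.ps, Matrix.one_mul]

theorem Bimap_pi (e : Ex A a b n) {k : ℕ} (X : Mat A a k) : e.p * (e.i * X) = 0 := by
  rw [← Matrix.mul_assoc, e.pi, Matrix.zero_mul]

theorem Bimap_rs (e : Ex A a b n) {k : ℕ} (X : Mat A b k) : e.r * (e.s * X) = 0 := by
  rw [← Matrix.mul_assoc, e.rs, Matrix.zero_mul]

/-- A matrix that is the identity on the sub and on the quotient is unipotent. -/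
theorem Bimap_unip (e : Ex A a b n) (M : Mat A n n) (h1 : M * e.i = e.i) (h2 : e.p * M = e.p) :
    ∃ M' : Mat A n n, M' * M = 1 ∧ M * M' = 1 := by
  have k1 : (M - 1) * e.i = 0 := by rw [Matrix.sub_mul, h1, Matrix.one_mul, sub_self]
  have k2 : e.p * (M - 1) = 0 := by rw [Matrix.mul_sub, h2, Matrix.mul_one, sub_self]
  have k3 : (M - 1) * (M - 1) = 0 := by
    calc (M - 1) * (M - 1) = (M - 1) * (e.i * (e.r * (M - 1))) := by rw [← e.fac_i _ k2]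
      _ = 0 := by rw [← Matrix.mul_assoc, k1, Matrix.zero_mul]
  refine ⟨1 - (M - 1), ?_, ?_⟩
  · calc (1 - (M - 1)) * M = 1 - (M - 1) * (M - 1) := by noncomm_ring
      _ = 1 := by rw [k3, sub_zero]
  · calc M * (1 - (M - 1)) = 1 - (M - 1) * (M - 1) := by noncomm_ring
      _ = 1 := by rw [k3, sub_zero]

/-- The five lemma. -/
theorem Bimap_iso (e e' : Ex A a b n) (f : Mat A n n) (h1 : f * e.i = e'.i) (h2 : e'.p * f = e.p) :
    ∃ φ : G n A, φ.val = f := by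
  obtain ⟨M', hM, -⟩ := Bimap_unip e ((e.i * e'.r + e.s * e'.p) * f)
    (by rw [Matrix.mul_assoc, h1, Matrix.add_mul, Matrix.mul_assoc, Matrix.mul_assoc, e'.ri, e'.pi,
      Matrix.mul_one, Matrix.mul_zero, add_zero])
    (by rw [← Matrix.mul_assoc, Matrix.mul_add, Bimap_pi, Bimap_ps, zero_add, h2])
  rw [← Matrix.mul_assoc] at hM
  exact ⟨⟨f, M' * (e.i * e'.r + e.s * e'.p), mul_eq_one_comm.1 hM, hM⟩, rfl⟩

theorem Bimap_sim (e e' : Ex A a b n) (φ : G n A) (h1 : φ.val * e.i = e'.i)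
    (h2 : e'.p * φ.val = e.p) : (e.twist φ 1 1).Sim e' := by
  refine ⟨?_, ?_⟩
  · rw [Ex.twist_i, Units.val_one, Matrix.mul_one, h1]
  · rw [Ex.twist_p, inv_one, Units.val_one, Matrix.one_mul, ← h2, Matrix.mul_assoc, Units.mul_inv,
      Matrix.mul_one]

theorem Bimap_of_sim {e e' : Ex A a b n} {φ : G n A} (h : (e.twist φ 1 1).Sim e') :
    φ.val * e.i = e'.i ∧ e'.p * φ.val = e.p := by
  obtain ⟨h1, h2⟩ := h
  refine ⟨?_, ?_⟩
  · rwa [Ex.twist_i, Units.val_one, Matrix.mul_one] at h1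
  · rw [Ex.twist_p, inv_one, Units.val_one, Matrix.one_mul] at h2
    rw [← h2, Matrix.mul_assoc, Units.inv_mul, Matrix.mul_one]

theorem Bimap_map_add (θ : A →+* B) {m k : ℕ} (X Y : Mat A m k) :
    (X + Y).map θ = X.map θ + Y.map θ := Matrix.map_add _ (map_add θ) _ _

theorem Bimap_map_sub (θ : A →+* B) {m k : ℕ} (X Y : Mat A m k) :
    (X - Y).map θ = X.map θ - Y.map θ := Matrix.map_sub _ (map_sub θ) _ _

theorem Bimap_lift1 (θ : A →+* B) (hθ : Function.Surjective θ) {m k l j : ℕ} (ι : Mat A m k)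
    (π : Mat A l j) (f : Mat A m j) (g : Mat B m j) (h0 : Mat B k l)
    (h : g - f.map θ = ι.map θ * h0 * π.map θ) :
    ∃ h' : Mat A k l, (f + ι * h' * π).map θ = g := by
  obtain ⟨h', rfl⟩ := lift_mat θ hθ h0
  refine ⟨h', ?_⟩
  rw [Bimap_map_add, Matrix.map_mul, Matrix.map_mul, ← h, add_sub_cancel]

/-- Lifting a map with prescribed restriction to the sub and projection to the quotient. -/
theorem Bimap_lift2 (θ : A →+* B) (hθ : Function.Surjective θ) (e : Ex A a b n)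
    (e' : Ex A a' b' n') (f : Mat A n' n) (g : Mat B n' n)
    (h1 : g * e.i.map θ = (f * e.i).map θ) (h2 : e'.p.map θ * g = (e'.p * f).map θ) :
    ∃ f' : Mat A n' n, f'.map θ = g ∧ f' * e.i = f * e.i ∧ e'.p * f' = e'.p * f := by
  have k1 : (g - f.map θ) * (e.map θ).i = 0 := by
    rw [Ex.map_i, Matrix.sub_mul, h1, Matrix.map_mul, sub_self]
  have k2 : (e'.map θ).p * (g - f.map θ) = 0 := by
    rw [Ex.map_p, Matrix.mul_sub, h2, Matrix.map_mul, sub_self]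
  obtain ⟨h', hh⟩ := Bimap_lift1 θ hθ e'.i e.p f g
    ((e'.map θ).r * (g - f.map θ) * (e.map θ).s) (by
      calc g - f.map θ = (e'.map θ).i * ((e'.map θ).r * (g - f.map θ)) := (e'.map θ).fac_i _ k2
        _ = (e'.map θ).i * ((e'.map θ).r * ((g - f.map θ) * (e.map θ).s * (e.map θ).p)) := by
            rw [← (e.map θ).fac_p _ k1]
        _ = _ := by simp only [Ex.map_i, Ex.map_p, Matrix.mul_assoc])
  refine ⟨f + e'.i * h' * e.p, hh, ?_, ?_⟩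
  · rw [Matrix.add_mul, Matrix.mul_assoc _ e.p, e.pi, Matrix.mul_zero, add_zero]
  · rw [Matrix.mul_add, Matrix.mul_assoc, Bimap_pi, add_zero]

end Aux

section One
variable {n11 n12 n13 n21 n22 n23 n31 n32 n33 : ℕ}
  {r1 : Ex A n11 n13 n12} {r2 : Ex A n21 n23 n22} {r3 : Ex A n31 n33 n32}
  {c1 : Ex A n11 n31 n21} {c2 : Ex A n12 n32 n22} {c3 : Ex A n13 n33 n23}

theorem Grid0.pull (H : Grid0 r1 r2 r3 c1 c2 c3) {k : ℕ} (α : Mat A n23 k) (β : Mat A n32 k)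
    (h : c3.p * α = r3.p * β) : ∃ z : Mat A n22 k, r2.p * z = α ∧ c2.p * z = β := by
  have h0 : r3.p * (β - c2.p * (r2.s * α)) = 0 := by
    rw [Matrix.mul_sub, ← Matrix.mul_assoc r3.p c2.p, ← H.pp, Matrix.mul_assoc, Bimap_ps, h,
      sub_self]
  refine ⟨r2.s * α + r2.i * (c1.s * (r3.r * (β - c2.p * (r2.s * α)))), ?_, ?_⟩
  · rw [Matrix.mul_add, Bimap_ps, Bimap_pi, add_zero]
  · rw [Matrix.mul_add, ← Matrix.mul_assoc c2.p r2.i, H.ip, Matrix.mul_assoc, Bimap_ps,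
      ← r3.fac_i _ h0, add_sub_cancel]

theorem Grid0.push (H : Grid0 r1 r2 r3 c1 c2 c3) {k : ℕ} (α : Mat A k n21) (β : Mat A k n12)
    (h : α * c1.i = β * r1.i) : ∃ z : Mat A k n22, z * r2.i = α ∧ z * c2.i = β := by
  have h0 : (β - α * r2.r * c2.i) * r1.i = 0 := by
    rw [Matrix.sub_mul, Matrix.mul_assoc _ c2.i, H.ii, Matrix.mul_assoc, Bimap_ri, h, sub_self]
  refine ⟨α * r2.r + (β - α * r2.r * c2.i) * r1.s * c3.r * r2.p, ?_, ?_⟩
  · rw [Matrix.add_mul, Matrix.mul_assoc _ r2.p, r2.pi, Matrix.mul_zero, add_zero,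
      Matrix.mul_assoc, r2.ri, Matrix.mul_one]
  · rw [Matrix.add_mul, Matrix.mul_assoc _ r2.p, H.pi, Matrix.mul_assoc _ c3.r, Bimap_ri,
      ← r1.fac_p _ h0, add_sub_cancel]

theorem Grid0.ker (H : Grid0 r1 r2 r3 c1 c2 c3) {k : ℕ} (z : Mat A n22 k) (h1 : r2.p * z = 0)
    (h2 : c2.p * z = 0) : z = c2.i * r1.i * (r1.r * c2.r * z) := by
  have k1 := c2.fac_i z h2
  have k2 : r1.p * (c2.r * z) = 0 := by
    refine c3.i_cancel ?_
    rw [← Matrix.mul_assoc, ← H.pi, Matrix.mul_assoc, ← k1, h1, Matrix.mul_zero]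
  rw [Matrix.mul_assoc, Matrix.mul_assoc, ← r1.fac_i _ k2, ← k1]

theorem Grid0.coker (H : Grid0 r1 r2 r3 c1 c2 c3) {k : ℕ} (z : Mat A k n22) (h1 : z * r2.i = 0)
    (h2 : z * c2.i = 0) : z = z * c2.s * r3.s * (r3.p * c2.p) := by
  have k1 := c2.fac_p z h2
  have k2 : z * c2.s * r3.i = 0 := by
    refine c1.p_cancel ?_
    rw [Matrix.mul_assoc, ← H.ip, ← Matrix.mul_assoc, ← k1, h1, Matrix.zero_mul]
  rw [← Matrix.mul_assoc, ← r3.fac_p _ k2, ← k1]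

/-- The middle version of the nine lemma: the middle column is split exact. -/
theorem exists_c2 (r1 : Ex A n11 n13 n12) (r2 : Ex A n21 n23 n22) (r3 : Ex A n31 n33 n32)
    (c1 : Ex A n11 n31 n21) (c3 : Ex A n13 n33 n23) (h : n12 + n32 = n22)
    (i : Mat A n22 n12) (p : Mat A n32 n22) (hpi : p * i = 0)
    (h1 : i * r1.i = r2.i * c1.i) (h2 : r2.p * i = c3.i * r1.p)
    (h3 : p * r2.i = r3.i * c1.p) (h4 : c3.p * r2.p = r3.p * p) :
    ∃ c2 : Ex A n12 n32 n22, c2.i = i ∧ c2.p = p := by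
  obtain ⟨M, hM, -⟩ := Bimap_unip r1 ((r1.i * (c1.r * r2.r) + r1.s * (c3.r * r2.p)) * i)
    (by
      rw [Matrix.mul_assoc, h1, Matrix.add_mul]
      simp only [Matrix.mul_assoc, Bimap_ri, Bimap_pi, c1.ri, Matrix.mul_one, Matrix.mul_zero,
        add_zero])
    (by rw [← Matrix.mul_assoc, Matrix.mul_add, Bimap_pi, Bimap_ps, zero_add, Matrix.mul_assoc, h2,
      Bimap_ri])
  obtain ⟨M', -, hM'⟩ := Bimap_unip r3 (p * (r2.i * (c1.s * r3.r) + r2.s * (c3.s * r3.p)))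
    (by
      rw [Matrix.mul_assoc, Matrix.add_mul]
      simp only [Matrix.mul_assoc, r3.ri, r3.pi, Matrix.mul_one, Matrix.mul_zero, add_zero]
      rw [← Matrix.mul_assoc, h3, Matrix.mul_assoc, c1.ps, Matrix.mul_one])
    (by rw [← Matrix.mul_assoc, ← h4, Matrix.mul_assoc, Matrix.mul_add, Bimap_pi, Bimap_ps,
      zero_add, Bimap_ps])
  rw [← Matrix.mul_assoc] at hM
  rw [Matrix.mul_assoc] at hM'
  exact Ex.exists_of h i p _ _ hM hM' hpi

/-- Solving for the middle column. -/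
theorem center_c2 (θ : A →+* B) (hθ : Function.Surjective θ)
    (r1 : Ex A n11 n13 n12) (r2 : Ex A n21 n23 n22) (r3 : Ex A n31 n33 n32)
    (c1 : Ex A n11 n31 n21) (c3 : Ex A n13 n33 n23) (h : n12 + n32 = n22)
    (c0 : Ex B n12 n32 n22)
    (H : Grid0 (r1.map θ) (r2.map θ) (r3.map θ) (c1.map θ) c0 (c3.map θ)) :
    ∃ c2 : Ex A n12 n32 n22, (c2.map θ).Sim c0 ∧ Grid0 r1 r2 r3 c1 c2 c3 := by
  have a1 : (r2.i * (c1.i * r1.r) + r2.s * (c3.i * r1.p)) * r1.i = r2.i * c1.i := by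
    rw [Matrix.add_mul]
    simp only [Matrix.mul_assoc, r1.ri, r1.pi, Matrix.mul_one, Matrix.mul_zero, add_zero]
  have a2 : r2.p * (r2.i * (c1.i * r1.r) + r2.s * (c3.i * r1.p)) = c3.i * r1.p := by
    rw [Matrix.mul_add, Bimap_pi, Bimap_ps, zero_add]
  have b1 : (r3.i * (c1.p * r2.r) + r3.s * (c3.p * r2.p)) * r2.i = r3.i * c1.p := by
    rw [Matrix.add_mul]
    simp only [Matrix.mul_assoc, r2.ri, r2.pi, Matrix.mul_one, Matrix.mul_zero, add_zero]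
  have b2 : r3.p * (r3.i * (c1.p * r2.r) + r3.s * (c3.p * r2.p)) = c3.p * r2.p := by
    rw [Matrix.mul_add, Bimap_pi, Bimap_ps, zero_add]
  obtain ⟨i, hi, hi1, hi2⟩ := Bimap_lift2 θ hθ r1 r2 _ c0.i
    (by rw [a1, Matrix.map_mul]; exact H.ii) (by rw [a2, Matrix.map_mul]; exact H.pi)
  obtain ⟨p, hp, hp1, hp2⟩ := Bimap_lift2 θ hθ r2 r3 _ c0.p
    (by rw [b1, Matrix.map_mul]; exact H.ip) (by rw [b2, Matrix.map_mul]; exact H.pp.symm)
  rw [a1] at hi1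
  rw [a2] at hi2
  rw [b1] at hp1
  rw [b2] at hp2
  have k1 : p * i * r1.i = 0 := by
    rw [Matrix.mul_assoc, hi1, ← Matrix.mul_assoc, hp1, Matrix.mul_assoc, c1.pi, Matrix.mul_zero]
  have k2 : r3.p * (p * i) = 0 := by
    rw [← Matrix.mul_assoc, hp2, Matrix.mul_assoc, hi2, Bimap_pi]
  have k3 : (p * i).map θ = 0 := by rw [Matrix.map_mul, hp, hi, c0.pi]
  obtain ⟨c2, hc1, hc2⟩ := exists_c2 r1 r2 r3 c1 c3 h (i - r2.i * (c1.s * (r3.r * (p * i)))) p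
    (by rw [Matrix.mul_sub, ← Matrix.mul_assoc p r2.i, hp1, Matrix.mul_assoc, Bimap_ps,
      ← r3.fac_i _ k2, sub_self])
    (by
      rw [Matrix.sub_mul, hi1, Matrix.mul_assoc, Matrix.mul_assoc, Matrix.mul_assoc, k1]
      simp only [Matrix.mul_zero, sub_zero])
    (by rw [Matrix.mul_sub, hi2, Bimap_pi, sub_zero]) hp1 hp2.symm
  refine ⟨c2, ⟨?_, ?_⟩, ?_, ?_, ?_, ?_⟩
  · rw [Ex.map_i, hc1, Bimap_map_sub, Matrix.map_mul, Matrix.map_mul, Matrix.map_mul, k3, hi]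
    simp only [Matrix.mul_zero, sub_zero]
  · rw [Ex.map_p, hc2, hp]
  · rw [hc1, Matrix.sub_mul, hi1, Matrix.mul_assoc, Matrix.mul_assoc, Matrix.mul_assoc, k1]
    simp only [Matrix.mul_zero, sub_zero]
  · rw [hc1, Matrix.mul_sub, hi2, Bimap_pi, sub_zero]
  · rw [hc2, hp1]
  · rw [hc2, hp2]

theorem Grid0.Bimap_pi_r (H : Grid0 r1 r2 r3 c1 c2 c3) : r3.p * c2.p * r2.i = 0 := by
  rw [Matrix.mul_assoc, H.ip, Bimap_pi]

theorem Grid0.Bimap_pi_c (r3 : Ex A n31 n33 n32) (c2 : Ex A n12 n32 n22) :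
    r3.p * c2.p * c2.i = 0 := by
  rw [Matrix.mul_assoc, c2.pi, Matrix.mul_zero]

theorem Grid0.Bimap_r_io (H : Grid0 r1 r2 r3 c1 c2 c3) : r2.p * (c2.i * r1.i) = 0 := by
  rw [H.ii, Bimap_pi]

end One

section Two
variable {n11 n12 n13 n21 n22 n23 n31 n32 n33 m11 m12 m13 m21 m22 m23 m31 m32 m33 : ℕ}
  {yr1 : Ex A n11 n13 n12} {yr2 : Ex A n21 n23 n22} {yr3 : Ex A n31 n33 n32}
  {yc1 : Ex A n11 n31 n21} {yc2 : Ex A n12 n32 n22} {yc3 : Ex A n13 n33 n23}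
  {zr1 : Ex A m11 m13 m12} {zr2 : Ex A m21 m23 m22} {zr3 : Ex A m31 m33 m32}
  {zc1 : Ex A m11 m31 m21} {zc2 : Ex A m12 m32 m22} {zc3 : Ex A m13 m33 m23}

/-- A map between the middle cells with prescribed restrictions and projections. -/
theorem bimap (HY : Grid0 yr1 yr2 yr3 yc1 yc2 yc3) (HZ : Grid0 zr1 zr2 zr3 zc1 zc2 zc3)
    (α21 : Mat A m22 n21) (α12 : Mat A m22 n12) (β23 : Mat A m23 n22) (β32 : Mat A m32 n22)
    (hα : α21 * yc1.i = α12 * yr1.i) (hβ : zc3.p * β23 = zr3.p * β32)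
    (h1 : zr2.p * α21 = β23 * yr2.i) (h2 : zr2.p * α12 = β23 * yc2.i)
    (h3 : zc2.p * α21 = β32 * yr2.i) (h4 : zc2.p * α12 = β32 * yc2.i) :
    ∃ f : Mat A m22 n22, f * yr2.i = α21 ∧ f * yc2.i = α12 ∧ zr2.p * f = β23 ∧
      zc2.p * f = β32 := by
  obtain ⟨f0, hf1, hf2⟩ := HY.push α21 α12 hα
  have d1 := HY.coker (β23 - zr2.p * f0)
    (by rw [Matrix.sub_mul, Matrix.mul_assoc, hf1, h1, sub_self])
    (by rw [Matrix.sub_mul, Matrix.mul_assoc, hf2, h2, sub_self])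
  have d2 := HY.coker (β32 - zc2.p * f0)
    (by rw [Matrix.sub_mul, Matrix.mul_assoc, hf1, h3, sub_self])
    (by rw [Matrix.sub_mul, Matrix.mul_assoc, hf2, h4, sub_self])
  have d3 : zc3.p * (β23 - zr2.p * f0) = zr3.p * (β32 - zc2.p * f0) := by
    rw [Matrix.mul_sub, Matrix.mul_sub, hβ, ← Matrix.mul_assoc, ← Matrix.mul_assoc, HZ.pp]
  obtain ⟨z, hz1, hz2⟩ := HZ.pull ((β23 - zr2.p * f0) * yc2.s * yr3.s)
    ((β32 - zc2.p * f0) * yc2.s * yr3.s)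
    (by rw [← Matrix.mul_assoc, ← Matrix.mul_assoc, d3, ← Matrix.mul_assoc zr3.p,
      ← Matrix.mul_assoc zr3.p])
  refine ⟨f0 + z * (yr3.p * yc2.p), ?_, ?_, ?_, ?_⟩
  · rw [Matrix.add_mul, hf1, Matrix.mul_assoc, HY.Bimap_pi_r, Matrix.mul_zero, add_zero]
  · rw [Matrix.add_mul, hf2, Matrix.mul_assoc, Grid0.Bimap_pi_c, Matrix.mul_zero, add_zero]
  · rw [Matrix.mul_add, ← Matrix.mul_assoc zr2.p z, hz1, ← d1, add_sub_cancel]
  · rw [Matrix.mul_add, ← Matrix.mul_assoc zc2.p z, hz2, ← d2, add_sub_cancel]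

theorem bimap_lift (θ : A →+* B) (hθ : Function.Surjective θ)
    (HY : Grid0 yr1 yr2 yr3 yc1 yc2 yc3) (HZ : Grid0 zr1 zr2 zr3 zc1 zc2 zc3)
    (α21 : Mat A m22 n21) (α12 : Mat A m22 n12) (β23 : Mat A m23 n22) (β32 : Mat A m32 n22)
    (hα : α21 * yc1.i = α12 * yr1.i) (hβ : zc3.p * β23 = zr3.p * β32)
    (h1 : zr2.p * α21 = β23 * yr2.i) (h2 : zr2.p * α12 = β23 * yc2.i)
    (h3 : zc2.p * α21 = β32 * yr2.i) (h4 : zc2.p * α12 = β32 * yc2.i)
    (f0 : Mat B m22 n22) (k1 : f0 * yr2.i.map θ = α21.map θ) (k2 : f0 * yc2.i.map θ = α12.map θ)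
    (k3 : zr2.p.map θ * f0 = β23.map θ) (k4 : zc2.p.map θ * f0 = β32.map θ) :
    ∃ f : Mat A m22 n22, f.map θ = f0 ∧ f * yr2.i = α21 ∧ f * yc2.i = α12 ∧ zr2.p * f = β23 ∧
      zc2.p * f = β32 := by
  obtain ⟨f, e1, e2, e3, e4⟩ := bimap HY HZ α21 α12 β23 β32 hα hβ h1 h2 h3 h4
  have d1 := (HY.map θ).coker (f0 - f.map θ)
    (by rw [Ex.map_i, Matrix.sub_mul, k1, ← Matrix.map_mul, e1, sub_self])
    (by rw [Ex.map_i, Matrix.sub_mul, k2, ← Matrix.map_mul, e2, sub_self])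
  have d2 := (HZ.map θ).ker (f0 - f.map θ)
    (by rw [Ex.map_p, Matrix.mul_sub, k3, ← Matrix.map_mul, e3, sub_self])
    (by rw [Ex.map_p, Matrix.mul_sub, k4, ← Matrix.map_mul, e4, sub_self])
  obtain ⟨h', hh⟩ := Bimap_lift1 θ hθ (zc2.i * zr1.i) (yr3.p * yc2.p) f f0
    ((zr1.map θ).r * (zc2.map θ).r * ((f0 - f.map θ) * (yc2.map θ).s * (yr3.map θ).s)) (by
      calc f0 - f.map θ = _ := d2
        _ = (zc2.map θ).i * (zr1.map θ).i * ((zr1.map θ).r * (zc2.map θ).r *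
            ((f0 - f.map θ) * (yc2.map θ).s * (yr3.map θ).s * ((yr3.map θ).p * (yc2.map θ).p))) := by
            rw [← d1]
        _ = _ := by simp only [Ex.map_i, Ex.map_p, Matrix.map_mul, Matrix.mul_assoc])
  refine ⟨f + zc2.i * zr1.i * h' * (yr3.p * yc2.p), hh, ?_, ?_, ?_, ?_⟩
  · rw [Matrix.add_mul, e1, Matrix.mul_assoc _ _ yr2.i, HY.Bimap_pi_r, Matrix.mul_zero, add_zero]
  · rw [Matrix.add_mul, e2, Matrix.mul_assoc _ _ yc2.i, Grid0.Bimap_pi_c, Matrix.mul_zero, add_zero]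
  · rw [Matrix.mul_add, e3, Matrix.mul_assoc _ h', ← Matrix.mul_assoc zr2.p, HZ.Bimap_r_io,
      Matrix.zero_mul, add_zero]
  · rw [Matrix.mul_add, e4, Matrix.mul_assoc _ h', Matrix.mul_assoc zc2.i, Bimap_pi, add_zero]

end Two

/-- An isomorphism carrying one sequence to another. -/
theorem edge1 (θ : A →+* B) (hθ : Function.Surjective θ) {a b n : ℕ} (e e' : Ex A a b n)
    (φ0 : G n B) (h : ((e.map θ).twist φ0 1 1).Sim (e'.map θ)) :
    ∃ φ : G n A, gmap θ φ = φ0 ∧ (e.twist φ 1 1).Sim e' := by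
  obtain ⟨h1, h2⟩ := Bimap_of_sim h
  have a1 : (e'.i * e.r + e'.s * e.p) * e.i = e'.i := by
    rw [Matrix.add_mul, Matrix.mul_assoc, Matrix.mul_assoc, e.ri, e.pi, Matrix.mul_one,
      Matrix.mul_zero, add_zero]
  have a2 : e'.p * (e'.i * e.r + e'.s * e.p) = e.p := by
    rw [Matrix.mul_add, Bimap_pi, Bimap_ps, zero_add]
  obtain ⟨f, hf, hf1, hf2⟩ := Bimap_lift2 θ hθ e e' _ φ0.val (by rw [a1]; exact h1)
    (by rw [a2]; exact h2)
  rw [a1] at hf1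
  rw [a2] at hf2
  obtain ⟨φ, rfl⟩ := Bimap_iso e e' f hf1 hf2
  exact ⟨φ, Units.ext hf, Bimap_sim e e' φ hf1 hf2⟩

/-- An isomorphism carrying two sequences to two others in the same relative position. -/
theorem edge2 (θ : A →+* B) (hθ : Function.Surjective θ) {n11 n13 n31 n33 a b a' b' n : ℕ}
    (σ1 : Ex A n11 n13 a) (σ3 : Ex A n31 n33 b) (τ1 : Ex A n11 n31 a') (τ3 : Ex A n13 n33 b')
    (g h : Ex A a b n) (k g' : Ex A a' b' n)
    (HA : Grid0 σ1 k σ3 τ1 g τ3) (HB : Grid0 τ1 h τ3 σ1 g' σ3) (φ0 : G n B)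
    (h1 : ((g.map θ).twist φ0 1 1).Sim (h.map θ))
    (h2 : ((k.map θ).twist φ0 1 1).Sim (g'.map θ)) :
    ∃ φ : G n A, gmap θ φ = φ0 ∧ (g.twist φ 1 1).Sim h ∧ (k.twist φ 1 1).Sim g' := by
  obtain ⟨a1, a2⟩ := Bimap_of_sim h1
  obtain ⟨b1, b2⟩ := Bimap_of_sim h2
  obtain ⟨f, hf, e1, e2, e3, e4⟩ := bimap_lift θ hθ HA HB.tr g'.i h.i k.p g.p HB.ii HA.pp
    (by rw [g'.pi, k.pi]) (by rw [HB.ip, HA.pi]) (by rw [HB.pi, HA.ip]) (by rw [h.pi, g.pi])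
    φ0.val b1 a1 b2 a2
  obtain ⟨φ, rfl⟩ := Bimap_iso g h f e2 e4
  exact ⟨φ, Units.ext hf, Bimap_sim g h φ e2 e4, Bimap_sim k g' φ e1 e3⟩

end Crest.Agent.R3

end
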