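import Crest.Agent.R3.ExB
import Crest.Agent.R3.Syn
import Crest.Agent.R3.Rep

set_option autoImplicit false

noncomputable section

namespace Crest.Agent.R3

open Matrix Filter Topology

/-! Canonical flags determine the conjugacy class generically. -/

variable {O : Subring ℂ}

theorem Canon_tri {a b n : ℕ} (e e' : Ex ℂ a b n) (X : Mat ℂ a b) (Y : G b ℂ) :
    ∃ P : G n ℂ, P.val = e'.i * e.r + (e'.i * X + e'.s * Y.val) * e.p := by
  have h : (e'.i * e.r + (e'.i * X + e'.s * Y.val) * e.p) *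
      (e.i * e'.r + (e.s - e.i * X) * (Y⁻¹).val * e'.p) = 1 := by
    have h1 : ∀ {k : ℕ} (Z : Mat ℂ a k), e.r * (e.i * Z) = Z := fun Z => by
      rw [← Matrix.mul_assoc, e.ri, Matrix.one_mul]
    have h2 : ∀ {k : ℕ} (Z : Mat ℂ a k), e.p * (e.i * Z) = 0 := fun Z => by
      rw [← Matrix.mul_assoc, e.pi, Matrix.zero_mul]
    have h3 : ∀ {k : ℕ} (Z : Mat ℂ b k), e.r * (e.s * Z) = 0 := fun Z => by
      rw [← Matrix.mul_assoc, e.rs, Matrix.zero_mul]
    have h4 : ∀ {k : ℕ} (Z : Mat ℂ b k), e.p * (e.s * Z) = Z := fun Z => by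
      rw [← Matrix.mul_assoc, e.ps, Matrix.one_mul]
    have h5 : Y.val * ((Y⁻¹).val * e'.p) = e'.p := by
      rw [← Matrix.mul_assoc, Units.mul_inv, Matrix.one_mul]
    simp only [Matrix.add_mul, Matrix.mul_add, Matrix.sub_mul, Matrix.mul_sub, Matrix.mul_assoc,
      h1, h2, h3, h4, h5, Matrix.mul_zero]
    rw [← e'.tot]
    abel
  exact ⟨⟨_, _, h, mul_eq_one_comm.1 h⟩, rfl⟩

/-- Two surjections differ by an automorphism of the source. -/
theorem Canon_surj {b d : ℕ} (p p' : Mat ℂ d b) (s s' : Mat ℂ b d) (h : p * s = 1)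
    (h' : p' * s' = 1) : ∃ Y : G b ℂ, p' * Y.val = p := by
  obtain ⟨c, e, rfl⟩ := Ex.exists_of_surj p s h
  obtain ⟨c', e', rfl⟩ := Ex.exists_of_surj p' s' h'
  obtain rfl : c = c' := by have := e.dim; have := e'.dim; omega
  obtain ⟨P, hP⟩ := Canon_tri e e' 0 1
  refine ⟨P, ?_⟩
  rw [hP, Matrix.mul_zero, zero_add, Units.val_one, Matrix.mul_one, Matrix.mul_add,
    ← Matrix.mul_assoc, ← Matrix.mul_assoc, e'.pi, e'.ps, Matrix.zero_mul, zero_add, Matrix.one_mul]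

theorem kp_lemma {n a : ℕ} (i i' : Mat ℂ n a) (h h' : Mat ℂ a n) (r r' : Mat ℂ a n)
    (s s' : Mat ℂ n a) (hr : r * i = 1) (hr' : r' * i' = 1) (hs : h * s = 1) (hs' : h' * s' = 1)
    (hh : h * i = h' * i') : ∃ P : G n ℂ, P.val * i = i' ∧ h' * P.val = h := by
  obtain ⟨b, e, rfl⟩ := Ex.exists_of_inj i r hr
  obtain ⟨b', e', rfl⟩ := Ex.exists_of_inj i' r' hr'
  obtain rfl : b = b' := by have := e.dim; have := e'.dim; omega
  obtain ⟨a₀, c, d, f, f', hf⟩ := exists_rank_fac (h * e.i)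
  have key : ∀ (e : Ex ℂ a b n) (h : Mat ℂ a n) (s : Mat ℂ n a), h * s = 1 → h * e.i = f'.i * f.p →
      f'.p * (h * e.s) * (e.p * s * f'.s) = 1 := fun e h s hs hf => by
    have h1 : f'.p * h * e.i = 0 := by
      rw [Matrix.mul_assoc, hf, ← Matrix.mul_assoc, f'.pi, Matrix.zero_mul]
    calc _ = f'.p * h * e.s * e.p * s * f'.s := by simp only [Matrix.mul_assoc]
      _ = 1 := by rw [← e.fac_p _ h1, Matrix.mul_assoc f'.p, hs, Matrix.mul_one, f'.ps]
  obtain ⟨Y, hY⟩ := Canon_surj _ _ _ _ (key e h s hs hf) (key e' h' s' hs' (hh ▸ hf))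
  have h2 := f'.fac_i (h * e.s - h' * e'.s * Y.val) (by
    rw [Matrix.mul_sub, ← hY, Matrix.mul_assoc f'.p, sub_self])
  obtain ⟨P, hP⟩ := Canon_tri e e' (f.s * (f'.r * (h * e.s - h' * e'.s * Y.val))) Y
  refine ⟨P, ?_, ?_⟩
  · rw [hP, Matrix.add_mul, Matrix.mul_assoc, Matrix.mul_assoc, e.ri, e.pi, Matrix.mul_one,
      Matrix.mul_zero, add_zero]
  · have h3 : h' * (e'.i * (f.s * (f'.r * (h * e.s - h' * e'.s * Y.val)))) =
        h * e.s - h' * e'.s * Y.val := by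
      rw [← Matrix.mul_assoc, ← hh, hf, Matrix.mul_assoc, ← Matrix.mul_assoc f.p, f.ps,
        Matrix.one_mul, ← h2]
    rw [hP, Matrix.mul_add, ← Matrix.mul_assoc, ← Matrix.mul_assoc, Matrix.mul_add, h3, ← hh,
      ← Matrix.mul_assoc, sub_add_cancel, Matrix.mul_assoc, Matrix.mul_assoc, ← Matrix.mul_add,
      e.tot, Matrix.mul_one]

theorem Canon_qk_cons {R : Type*} [CommRing R] [Algebra O R] {n : ℕ} (M : G n R) (x : Oˣ)
    (ξ : List Oˣ) : qk M (x :: ξ) = (M.val - (scal R n x).val) * qk M ξ := by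
  rw [qk, List.map_cons, List.prod_cons, qk]

theorem Canon_qk_int {R : Type*} [CommRing R] [Algebra O R] {n a : ℕ} {M : G n R} {M' : G a R}
    {φ : Mat R a n} (h : φ * M.val = M'.val * φ) (ξ : List Oˣ) : φ * qk M ξ = qk M' ξ * φ := by
  induction ξ with
  | nil => simp [qk]
  | cons x ξ ih =>
    rw [Canon_qk_cons, Canon_qk_cons, Matrix.mul_assoc, ← ih, ← Matrix.mul_assoc,
      ← Matrix.mul_assoc, Matrix.mul_sub, Matrix.sub_mul M'.val, h, mat_mul_scal, scal_mul_mat]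

theorem Canon_step {n a b : ℕ} {M : G n ℂ} {M₁ : G a ℂ} {x : Oˣ} (e : Ex ℂ a b n) {h : Mat ℂ a n}
    (h1 : M.val - (scal ℂ n x).val = e.i * h) (h2 : M.val * e.i = e.i * M₁.val) :
    h * e.i = M₁.val - (scal ℂ a x).val ∧ ∀ ξ, qk M (x :: ξ) = e.i * qk M₁ ξ * h := by
  have h3 : h * e.i = M₁.val - (scal ℂ a x).val := e.i_cancel (by
    rw [← Matrix.mul_assoc, ← h1, Matrix.sub_mul, Matrix.mul_sub, h2, scal_mul_mat, mat_mul_scal])
  refine ⟨h3, fun ξ => ?_⟩
  rw [Canon_qk_cons, h1, Matrix.mul_assoc, Matrix.mul_assoc, Canon_qk_int]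
  rw [sub_eq_iff_eq_add.1 h1, sub_eq_iff_eq_add.1 h3.symm, Matrix.mul_add, Matrix.add_mul,
    mat_mul_scal, scal_mul_mat, Matrix.mul_assoc]

theorem Canon_rank_le {n a : ℕ} (i : Mat ℂ n a) (Z : Mat ℂ a a) (h : Mat ℂ a n) :
    (i * Z * h).rank ≤ Z.rank := (rank_mul_le_left _ _).trans (rank_mul_le_right _ _)

theorem canon_flag (ξ : List Oˣ) {n : ℕ} (M : G n ℂ) (h : qk M ξ = 0) :
    ∃ l : List (ℕ × Oˣ), Flagged ℂ l n M ∧ ∀ M' : G n ℂ, Flagged ℂ l n M' →
      (∀ k ≤ ξ.length, (qk M (ξ.take k)).rank ≤ (qk M' (ξ.take k)).rank) →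
        ∃ P : G n ℂ, M' = P * M * P⁻¹ := by
  induction ξ generalizing n with
  | nil =>
    obtain rfl : n = 0 := by
      rcases n with _ | n
      · rfl
      · simpa [qk] using congrFun (congrFun h 0) 0
    exact ⟨[], rfl, fun M' _ _ => ⟨1, Units.ext (Subsingleton.elim _ _)⟩⟩
  | cons x ξ ih =>
    obtain ⟨a₀, a, b, f, e, hf⟩ := exists_rank_fac (M.val - (scal ℂ n x).val)
    have hp : e.p * M.val = (scal ℂ b x).val * e.p := by
      rw [sub_eq_iff_eq_add.1 hf, Matrix.mul_add, ← Matrix.mul_assoc, e.pi, Matrix.zero_mul,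
        zero_add, mat_mul_scal, scal_mul_mat]
    obtain ⟨W, -, hW, -⟩ := exists_sub_quot (fun _ : Unit => M) e fun _ => by
      rw [hp, Matrix.mul_assoc, e.pi, Matrix.mul_zero]
    obtain ⟨k1, k2⟩ := Canon_step e hf (hW ()).symm
    obtain ⟨l, hl, hl'⟩ := ih (W ()) (e.i_cancel (f.p_cancel (by
      rw [← k2, h, Matrix.mul_zero, Matrix.zero_mul])))
    refine ⟨(b, x) :: l, ⟨a, e.dim, e, W (), (hW ()).symm, hp, hl⟩, ?_⟩
    rintro M' ⟨a', ha', e', W', g1, g2, g3⟩ hr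
    obtain rfl : a = a' := by have := e.dim; omega
    have hf' := e'.fac_i (M'.val - (scal ℂ n x).val) (by
      rw [Matrix.mul_sub, g2, mat_mul_scal, scal_mul_mat, sub_self])
    set h' := e'.r * (M'.val - (scal ℂ n x).val)
    obtain ⟨k1', k2'⟩ := Canon_step e' hf' g1
    have hrk : ∀ k ≤ ξ.length, (qk (W ()) (ξ.take k)).rank ≤
        (e'.i * qk W' (ξ.take k) * h').rank := fun k hk => by
      have := hr (k + 1) (by simpa using hk)
      rw [List.take_succ_cons, k2, k2'] at this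
      refine le_trans ?_ this
      refine le_trans (le_of_eq ?_) ((rank_mul_le_left _ f.s).trans (rank_mul_le_right e.r _))
      congr 1
      rw [← Matrix.mul_assoc, ← Matrix.mul_assoc, e.ri, Matrix.one_mul, Matrix.mul_assoc, f.ps,
        Matrix.mul_one]
    obtain ⟨P₁, hP₁⟩ := hl' W' g3 fun k hk => (hrk k hk).trans (Canon_rank_le _ _ _)
    obtain ⟨s', hs'⟩ := exists_right_inv h' fun y => by
      have h0 := (hrk 0 (Nat.zero_le _)).trans (rank_mul_le_right _ _)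
      rw [List.take_zero, qk, List.map_nil, List.prod_nil, rank_one, Fintype.card_fin] at h0
      have h1 : LinearMap.range h'.mulVecLin = ⊤ := Submodule.eq_top_of_finrank_eq
        (le_antisymm (Submodule.finrank_le _) (by rw [Module.finrank_fin_fun]; exact h0))
      exact LinearMap.range_eq_top.1 h1 y
    obtain ⟨P, hP1, hP2⟩ := kp_lemma e.i (e'.i * P₁.val) f.p ((P₁⁻¹).val * h') e.r
      ((P₁⁻¹).val * e'.r) f.s (s' * P₁.val) e.ri
      (by rw [Matrix.mul_assoc, ← Matrix.mul_assoc e'.r, e'.ri, Matrix.one_mul, Units.inv_mul]) f.ps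
      (by rw [Matrix.mul_assoc, ← Matrix.mul_assoc h', hs', Matrix.one_mul, Units.inv_mul])
      (by
        rw [Matrix.mul_assoc, ← Matrix.mul_assoc h', k1, k1', hP₁, Matrix.sub_mul, Matrix.mul_sub,
          ← Units.val_mul, ← Units.val_mul, ← Units.val_mul, ← Units.val_mul, scal_comm]
        congr 2 <;> group)
    refine ⟨P, ?_⟩
    rw [eq_mul_inv_iff_mul_eq]
    refine Units.ext ?_
    rw [Units.val_mul, Units.val_mul, sub_eq_iff_eq_add.1 hf, sub_eq_iff_eq_add.1 hf',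
      Matrix.add_mul, Matrix.mul_add, mat_mul_scal, scal_mul_mat, ← hP2, ← Matrix.mul_assoc P.val,
      hP1]
    simp only [Matrix.mul_assoc]
    rw [← Matrix.mul_assoc P₁.val, Units.mul_inv, Matrix.one_mul]

end Crest.Agent.R3

end
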