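import Crest.Agent.R3.Bimap

set_option autoImplicit false

noncomputable section

namespace Crest.Agent.R3

open Matrix Filter Topology

/-! Complex linear algebra: relative position of two subspaces, insertions. -/

section CxAux
variable {R : Type*} [CommRing R] {a b n k : ℕ}

theorem Cx_ri (e : Ex R a b n) (X : Mat R a k) : e.r * (e.i * X) = X := by
  rw [← Matrix.mul_assoc, e.ri, Matrix.one_mul]
theorem Cx_ps (e : Ex R a b n) (X : Mat R b k) : e.p * (e.s * X) = X := by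
  rw [← Matrix.mul_assoc, e.ps, Matrix.one_mul]
theorem Cx_pi (e : Ex R a b n) (X : Mat R a k) : e.p * (e.i * X) = 0 := by
  rw [← Matrix.mul_assoc, e.pi, Matrix.zero_mul]
theorem Cx_sp (e : Ex R a b n) (X : Mat R n k) : e.s * (e.p * X) = X - e.i * (e.r * X) := by
  rw [eq_sub_iff_add_eq', ← Matrix.mul_assoc, ← Matrix.mul_assoc, ← Matrix.add_mul, e.tot,
    Matrix.one_mul]
theorem Cx_zero (X : Mat R n 0) (Y : Mat R 0 k) : X * Y = 0 := by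
  ext
  simp [Matrix.mul_apply]
theorem Cx_assoc {l m : ℕ} {X : Mat R a b} {Y : Mat R b n} {X' : Mat R a l} {Y' : Mat R l n}
    (h : X * Y = X' * Y') (Z : Mat R n m) : X * (Y * Z) = X' * (Y' * Z) := by
  rw [← Matrix.mul_assoc, h, Matrix.mul_assoc]
theorem Cx_assoc' {m : ℕ} {X : Mat R a b} {Y : Mat R b n} {W : Mat R a n}
    (h : X * Y = W) (Z : Mat R n m) : X * (Y * Z) = W * Z := by
  rw [← Matrix.mul_assoc, h]

theorem Cx_cap_half {n11 n31 n21 n23 n22 c : ℕ} (r2 : Ex ℂ n21 n23 n22) (c1 : Ex ℂ n11 n31 n21)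
    (J : Ex ℂ n11 c n22) (hJ : J.i = r2.i * c1.i) :
    ∃ a : Ex ℂ n31 n23 c, J.p * r2.i = a.i * c1.p ∧ r2.p = a.p * J.p := by
  have h1 : J.p * r2.i = J.p * r2.i * c1.s * c1.p :=
    c1.fac_p _ (by rw [Matrix.mul_assoc, ← hJ, J.pi])
  have h2 : r2.p = r2.p * J.s * J.p := J.fac_p _ (by rw [hJ, Cx_pi])
  have d1 := r2.dim
  have d2 := c1.dim
  have d3 := J.dim
  obtain ⟨a, ha, ha'⟩ := Ex.exists_of (show n31 + n23 = c by omega) (J.p * r2.i * c1.s)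
    (r2.p * J.s) (c1.p * r2.r * J.s) (J.p * r2.s)
    (by simp only [Matrix.mul_assoc, Cx_sp, hJ, Matrix.mul_sub, Cx_ri, Cx_pi, c1.ps, sub_zero])
    (by rw [← Matrix.mul_assoc, ← h2, r2.ps])
    (by rw [← Matrix.mul_assoc, ← Matrix.mul_assoc, ← h2, r2.pi, Matrix.zero_mul])
  exact ⟨a, by rw [ha]; exact h1, by rw [ha']; exact h2⟩

theorem Cx_sum_half {n13 n33 n21 n23 n22 c : ℕ} (r2 : Ex ℂ n21 n23 n22) (c3 : Ex ℂ n13 n33 n23)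
    (J : Ex ℂ c n33 n22) (hJ : J.p = c3.p * r2.p) :
    ∃ a : Ex ℂ n21 n13 c, J.i * a.i = r2.i ∧ r2.p * J.i = c3.i * a.p := by
  have h1 : r2.i = J.i * (J.r * r2.i) :=
    J.fac_i _ (by rw [hJ, Matrix.mul_assoc, r2.pi, Matrix.mul_zero])
  have h2 : r2.p * J.i = c3.i * (c3.r * (r2.p * J.i)) :=
    c3.fac_i _ (by rw [← Matrix.mul_assoc, ← hJ, J.pi])
  have h3 : r2.s * c3.i = J.i * (J.r * (r2.s * c3.i)) :=
    J.fac_i _ (by rw [hJ, Matrix.mul_assoc, Cx_ps, c3.pi])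
  have d1 := r2.dim
  have d2 := c3.dim
  have d3 := J.dim
  obtain ⟨a, ha, ha'⟩ := Ex.exists_of (show n21 + n13 = c by omega) (J.r * r2.i)
    (c3.r * (r2.p * J.i)) (r2.r * J.i) (J.r * (r2.s * c3.i))
    (by rw [Matrix.mul_assoc, ← h1, r2.ri])
    (by rw [Matrix.mul_assoc, Matrix.mul_assoc, ← h3, Cx_ps, c3.ri])
    (by rw [Matrix.mul_assoc, Matrix.mul_assoc, ← h1, r2.pi, Matrix.mul_zero])
  exact ⟨a, by rw [ha]; exact h1.symm, by rw [ha']; exact h2⟩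

end CxAux

/-- Relative position of two sequences. -/
theorem corner {a b a' b' n : ℕ} (g : Ex ℂ a b n) (k : Ex ℂ a' b' n) :
    ∃ (n11 n13 n31 n33 : ℕ) (r1 : Ex ℂ n11 n13 a) (r3 : Ex ℂ n31 n33 b) (c1 : Ex ℂ n11 n31 a')
      (c3 : Ex ℂ n13 n33 b'), Grid0 r1 k r3 c1 g c3 := by
  obtain ⟨n11, n13, n33, r1, c3, hM⟩ := exists_rank_fac (k.p * g.i)
  have h1 : g.i * r1.i = k.i * (k.r * (g.i * r1.i)) :=
    k.fac_i _ (by rw [Cx_assoc hM, r1.pi, Matrix.mul_zero])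
  obtain ⟨n31, c1, hc1⟩ := Ex.exists_of_inj (k.r * (g.i * r1.i)) (r1.r * g.r * k.i)
    (by rw [Matrix.mul_assoc, ← h1, Matrix.mul_assoc, Cx_ri, r1.ri])
  rw [← hc1] at h1
  have h2 : c3.p * k.p = c3.p * k.p * g.s * g.p :=
    g.fac_p _ (by rw [Matrix.mul_assoc, hM, Cx_pi])
  have h3 : g.p * k.i = g.p * k.i * c1.s * c1.p :=
    c1.fac_p _ (by rw [Matrix.mul_assoc, ← h1, Cx_pi])
  have d1 := g.dim
  have d2 := k.dim
  have d3 := r1.dim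
  have d4 := c3.dim
  have d5 := c1.dim
  obtain ⟨r3, hr, hr'⟩ := Ex.exists_of (show n31 + n33 = b by omega) (g.p * k.i * c1.s)
    (c3.p * k.p * g.s) (c1.p * k.r * (g.s - g.i * r1.s * c3.r * k.p * g.s)) (g.p * k.s * c3.s)
    (by simp only [Matrix.mul_assoc, Matrix.sub_mul, Matrix.mul_sub, Cx_sp g, Cx_pi, Cx_assoc hM,
      Cx_ri, Matrix.mul_zero, zero_sub, Matrix.mul_neg, Cx_sp r1, Cx_assoc h1, c1.ps, sub_zero,
      sub_neg_eq_add, sub_add_cancel])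
    (by rw [← Matrix.mul_assoc, ← Matrix.mul_assoc, ← h2, Matrix.mul_assoc c3.p, k.ps,
      Matrix.mul_one, c3.ps])
    (by rw [← Matrix.mul_assoc, ← Matrix.mul_assoc, ← h2, Matrix.mul_assoc c3.p, k.pi,
      Matrix.mul_zero, Matrix.zero_mul])
  exact ⟨n11, n13, n31, n33, r1, r3, c1, c3, h1, hM, by rw [hr]; exact h3, by rw [hr']; exact h2⟩

theorem tprime_ex {a b ρ : ℕ} (e1 e3 : Ex ℂ b a ρ) (e : Ex ℂ a b ρ) (A1 A2 : G a ℂ)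
    (B1 B2 : G b ℂ) (k1 : e1.p * e.i = A1.val) (k2 : e3.p * e.i = A2.val)
    (k3 : e.p * e1.i = B1.val) (k4 : e.p * e3.i = B2.val) :
    ∃ (n11 t n33 : ℕ) (α1 γ1 : Ex ℂ n11 t b) (α3 γ3 : Ex ℂ t n33 a) (x : G t ℂ),
      Grid0 α1 e1 α3 γ1 e3 γ3 ∧ (γ1.twist (B2⁻¹ * B1) 1 (-x)).Sim α1 ∧
        (γ3.twist (A2 * A1⁻¹) x⁻¹ 1).Sim α3 := by
  obtain ⟨n11, t, n31, n33, α1, α3, γ1, γ3, H⟩ := corner e3 e1
  have d1 := α1.dim
  have d2 := γ1.dim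
  obtain rfl : t = n31 := by omega
  obtain ⟨M, hM⟩ : ∃ M : G a ℂ, M = A2 * A1⁻¹ := ⟨_, rfl⟩
  obtain ⟨N, hN⟩ : ∃ N : G b ℂ, N = B2⁻¹ * B1 := ⟨_, rfl⟩
  have iA1 : A1.val * (A1⁻¹).val = 1 := A1.mul_inv
  have iB1 : (B1⁻¹).val * B1.val = 1 := B1.inv_mul
  have iB2 : (B2⁻¹).val * B2.val = 1 := B2.inv_mul
  have iM : M.val * (M⁻¹).val = 1 := M.mul_inv
  have iN : N.val * (N⁻¹).val = 1 := N.mul_inv
  have iN' : (N⁻¹).val * N.val = 1 := N.inv_mul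
  have vM : M.val = A2.val * (A1⁻¹).val := by rw [hM, Units.val_mul]
  have vN : N.val = (B2⁻¹).val * B1.val := by rw [hN, Units.val_mul]
  have vN' : (N⁻¹).val = (B1⁻¹).val * B2.val := by
    rw [hN, _root_.mul_inv_rev, inv_inv, Units.val_mul]
  have h0 : B2.val * α1.i = B1.val * γ1.i := by
    rw [← k3, ← k4, Matrix.mul_assoc, Matrix.mul_assoc, H.ii]
  have h1 : N.val * γ1.i = α1.i := by
    rw [vN, Matrix.mul_assoc, ← h0, Cx_assoc' iB2, Matrix.one_mul]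
  have h2 : α3.p * M.val = γ3.p := by
    rw [vM, ← k2, Matrix.mul_assoc, ← Cx_assoc H.pp, Cx_assoc' k1, iA1, Matrix.mul_one]
  have h3 : M.val * γ3.i = α3.i * (α3.r * (M.val * γ3.i)) :=
    α3.fac_i _ (by rw [Cx_assoc' h2, γ3.pi])
  have h4 : α1.p * N.val = α1.p * N.val * γ1.s * γ1.p :=
    γ1.fac_p _ (by rw [Matrix.mul_assoc, h1, α1.pi])
  have h5 : α1.p * N.val * γ1.s * (γ1.p * (N⁻¹).val) = α1.p := by
    rw [← Matrix.mul_assoc, ← h4, Matrix.mul_assoc, iN, Matrix.mul_one]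
  have h6 : α1.p * N.val * γ1.s * (γ1.p * (N⁻¹).val * α1.s) = 1 := by
    rw [← Matrix.mul_assoc, h5, α1.ps]
  obtain ⟨x0, hx0⟩ : ∃ x0, x0 = α3.r * (M.val * γ3.i) := ⟨_, rfl⟩
  rw [← hx0] at h3
  have h7 := H.ker (e.i * ((A1⁻¹).val * γ3.i) - e3.i * α1.s - e1.i * (γ1.s * x0))
    (by rw [Matrix.mul_sub, Matrix.mul_sub, Cx_assoc' k1, Cx_assoc' iA1, Matrix.one_mul,
      Cx_assoc H.pi, α1.ps, Matrix.mul_one, Cx_pi, sub_self, sub_zero])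
    (by rw [Matrix.mul_sub, Matrix.mul_sub, Cx_assoc' k2, ← Matrix.mul_assoc A2.val, ← vM, h3,
      Cx_pi, Cx_assoc H.ip, Cx_ps, sub_zero, sub_self])
  generalize α1.r * e3.r * _ = h at h7
  have h8 := congrArg (fun Z => γ1.p * ((B1⁻¹).val * (e.p * Z))) h7
  simp only [Matrix.mul_sub, Cx_pi, Matrix.mul_assoc, Cx_assoc' k3, Cx_assoc' k4, Cx_assoc h0,
    Cx_assoc' iB1, Matrix.one_mul, Cx_ps, zero_sub, Matrix.mul_neg, neg_zero, sub_zero] at h8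
  have h9 : x0 = -(γ1.p * (N⁻¹).val * α1.s) := by
    rw [vN', Matrix.mul_assoc, Matrix.mul_assoc]
    exact (sub_eq_zero.1 h8).symm
  obtain ⟨u, hu, hu'⟩ : ∃ u : G t ℂ, u.val = γ1.p * (N⁻¹).val * α1.s ∧
      (u⁻¹).val = α1.p * N.val * γ1.s := ⟨⟨_, _, mul_eq_one_comm.1 h6, h6⟩, rfl, rfl⟩
  refine ⟨n11, t, n33, α1, γ1, α3, γ3, -u, H, ⟨?_, ?_⟩, ⟨?_, ?_⟩⟩
  · rw [Ex.twist_i, ← hN, h1, Units.val_one, Matrix.mul_one]
  · rw [Ex.twist_p, ← hN, neg_neg, hu', Matrix.mul_assoc, h5]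
  · have h10 : x0 * ((-u)⁻¹).val = 1 := by
      rw [h9, ← hu, ← Units.val_neg]
      exact (-u).mul_inv
    rw [Ex.twist_i, ← hM, h3, Matrix.mul_assoc, h10, Matrix.mul_one]
  · rw [Ex.twist_p, ← hM, inv_one, Units.val_one, Matrix.one_mul, ← h2, Matrix.mul_assoc, iM,
      Matrix.mul_one]

section Ins
variable {n11 n12 n13 n21 n22 n23 n31 n32 n33 : ℕ}

theorem ins_cap_ex {r1 : Ex ℂ n11 n13 n12} {r2 : Ex ℂ n21 n23 n22} {r3 : Ex ℂ n31 n33 n32}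
    {c1 : Ex ℂ n11 n31 n21} {c2 : Ex ℂ n12 n32 n22} {c3 : Ex ℂ n13 n33 n23}
    (H : Grid0 r1 r2 r3 c1 c2 c3) :
    ∃ (c : ℕ) (J : Ex ℂ n11 c n22) (a : Ex ℂ n31 n23 c) (b : Ex ℂ n13 n32 c),
      Grid0 (Ex.std ℂ (Nat.add_zero n11)) r2 a c1 J (Ex.std ℂ (Nat.zero_add n23)) ∧
      Grid0 r1 J (Ex.std ℂ (Nat.zero_add n32)) (Ex.std ℂ (Nat.add_zero n11)) c2 b ∧
      Grid0 (Ex.std ℂ (Nat.zero_add n13)) a r3 (Ex.std ℂ (Nat.zero_add n31)) b c3 := by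
  obtain ⟨c, J, hJ⟩ := Ex.exists_of_inj (c2.i * r1.i) (r1.r * c2.r)
    (by rw [Matrix.mul_assoc, Cx_ri, r1.ri])
  obtain ⟨a, a1, a2⟩ := Cx_cap_half r2 c1 J (hJ.trans H.ii)
  obtain ⟨b, b1, b2⟩ := Cx_cap_half c2 r1 J hJ
  refine ⟨c, J, a, b, ⟨?_, ?_, a1, ?_⟩, ⟨?_, b1, ?_, ?_⟩, ⟨Subsingleton.elim _ _, ?_, ?_, ?_⟩⟩
  · rw [Ex.std_i_S, Matrix.mul_one, hJ, H.ii]
  · rw [Cx_zero, hJ, H.ii, Cx_pi]
  · rw [Ex.std_p_Q, Matrix.one_mul, ← a2]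
  · rw [Ex.std_i_S, Matrix.mul_one, hJ]
  · rw [Cx_zero, hJ, Cx_pi]
  · rw [Ex.std_p_Q, Matrix.one_mul, ← b2]
  · rw [Ex.std_p_Q, Matrix.mul_one]
    exact r1.p_cancel (by rw [Matrix.mul_assoc, ← b1, ← Matrix.mul_assoc, ← a2, H.pi])
  · rw [Ex.std_p_Q, Matrix.mul_one]
    exact c1.p_cancel (by rw [Matrix.mul_assoc, ← a1, ← Matrix.mul_assoc, ← b2, H.ip])
  · exact J.p_cancel (by rw [Matrix.mul_assoc, Matrix.mul_assoc, ← a2, ← b2, H.pp])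

theorem ins_cap_sat {R : Type*} [CommRing R]
    {r1 : Ex R n11 n13 n12} {r2 : Ex R n21 n23 n22} {r3 : Ex R n31 n33 n32}
    {c1 : Ex R n11 n31 n21} {c2 : Ex R n12 n32 n22} {c3 : Ex R n13 n33 n23}
    {c : ℕ} {J : Ex R n11 c n22} {a : Ex R n31 n23 c} {b : Ex R n13 n32 c}
    (ha : Grid0 (Ex.std R (Nat.add_zero n11)) r2 a c1 J (Ex.std R (Nat.zero_add n23)))
    (hb : Grid0 r1 J (Ex.std R (Nat.zero_add n32)) (Ex.std R (Nat.add_zero n11)) c2 b)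
    (hu : Grid0 (Ex.std R (Nat.zero_add n13)) a r3 (Ex.std R (Nat.zero_add n31)) b c3) :
    Grid0 r1 r2 r3 c1 c2 c3 := by
  have a1 := ha.ii
  have a2 := ha.pp
  have b1 := hb.ii
  have b2 := hb.pp
  have u1 := hu.pi
  have u2 := hu.ip
  rw [Ex.std_i_S, Matrix.mul_one] at a1 b1
  rw [Ex.std_p_Q, Matrix.one_mul] at a2 b2
  rw [Ex.std_p_Q, Matrix.mul_one] at u1 u2
  refine ⟨b1.trans a1, ?_, ?_, ?_⟩
  · rw [a2, Matrix.mul_assoc, hb.pi, Cx_assoc' u1]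
  · rw [← b2, Matrix.mul_assoc, ha.ip, Cx_assoc' u2]
  · rw [a2, ← b2, Cx_assoc hu.pp]

theorem ins_sum_ex {r1 : Ex ℂ n11 n13 n12} {r2 : Ex ℂ n21 n23 n22} {r3 : Ex ℂ n31 n33 n32}
    {c1 : Ex ℂ n11 n31 n21} {c2 : Ex ℂ n12 n32 n22} {c3 : Ex ℂ n13 n33 n23}
    (H : Grid0 r1 r2 r3 c1 c2 c3) :
    ∃ (c : ℕ) (J : Ex ℂ c n33 n22) (a : Ex ℂ n21 n13 c) (b : Ex ℂ n12 n31 c),
      Grid0 a r2 (Ex.std ℂ (Nat.zero_add n33)) (Ex.std ℂ (Nat.add_zero n21)) J c3 ∧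
      Grid0 (Ex.std ℂ (Nat.add_zero n12)) J r3 b c2 (Ex.std ℂ (Nat.zero_add n33)) ∧
      Grid0 r1 a (Ex.std ℂ (Nat.add_zero n31)) c1 b (Ex.std ℂ (Nat.add_zero n13)) := by
  obtain ⟨c, J, hJ⟩ := Ex.exists_of_surj (c3.p * r2.p) (r2.s * c3.s)
    (by rw [Matrix.mul_assoc, Cx_ps, c3.ps])
  obtain ⟨a, a1, a2⟩ := Cx_sum_half r2 c3 J hJ
  obtain ⟨b, b1, b2⟩ := Cx_sum_half c2 r3 J (hJ.trans H.pp)
  refine ⟨c, J, a, b, ⟨?_, a2, ?_, ?_⟩, ⟨?_, ?_, b2, ?_⟩, ⟨?_, ?_, ?_, Subsingleton.elim _ _⟩⟩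
  · rw [Ex.std_i_S, Matrix.mul_one, a1]
  · rw [Cx_zero, hJ, Matrix.mul_assoc, r2.pi, Matrix.mul_zero]
  · rw [Ex.std_p_Q, Matrix.one_mul, hJ]
  · rw [Ex.std_i_S, Matrix.mul_one, b1]
  · rw [Cx_zero, hJ, H.pp, Matrix.mul_assoc, c2.pi, Matrix.mul_zero]
  · rw [Ex.std_p_Q, Matrix.one_mul, hJ, H.pp]
  · exact J.i_cancel (by rw [Cx_assoc' a1, Cx_assoc' b1, H.ii])
  · rw [Ex.std_i_S, Matrix.one_mul]
    exact c3.i_cancel (by rw [← Cx_assoc a2, b1, H.pi])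
  · rw [Ex.std_i_S, Matrix.one_mul]
    exact r3.i_cancel (by rw [← Cx_assoc b2, a1, H.ip])

theorem ins_sum_sat {R : Type*} [CommRing R]
    {r1 : Ex R n11 n13 n12} {r2 : Ex R n21 n23 n22} {r3 : Ex R n31 n33 n32}
    {c1 : Ex R n11 n31 n21} {c2 : Ex R n12 n32 n22} {c3 : Ex R n13 n33 n23}
    {c : ℕ} {J : Ex R c n33 n22} {a : Ex R n21 n13 c} {b : Ex R n12 n31 c}
    (ha : Grid0 a r2 (Ex.std R (Nat.zero_add n33)) (Ex.std R (Nat.add_zero n21)) J c3)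
    (hb : Grid0 (Ex.std R (Nat.add_zero n12)) J r3 b c2 (Ex.std R (Nat.zero_add n33)))
    (hu : Grid0 r1 a (Ex.std R (Nat.add_zero n31)) c1 b (Ex.std R (Nat.add_zero n13))) :
    Grid0 r1 r2 r3 c1 c2 c3 := by
  have a1 := ha.ii
  have a2 := ha.pp
  have b1 := hb.ii
  have b2 := hb.pp
  have u1 := hu.pi
  have u2 := hu.ip
  rw [Ex.std_i_S, Matrix.mul_one] at a1 b1
  rw [Ex.std_p_Q, Matrix.one_mul] at a2 b2
  rw [Ex.std_i_S, Matrix.one_mul] at u1 u2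
  refine ⟨?_, ?_, ?_, a2.trans b2⟩
  · rw [b1, ← a1, Matrix.mul_assoc, Matrix.mul_assoc, hu.ii]
  · rw [b1, Cx_assoc ha.pi, u1]
  · rw [← a1, Cx_assoc hb.ip, u2]

end Ins

end Crest.Agent.R3

end
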