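import Crest.Agent.R3.Syn
import Crest.Agent.R3.Cx

set_option autoImplicit false

noncomputable section

namespace Crest.Agent.R3

open Matrix Filter Topology

/-! Inserting the intersection or the sum; normalisation of improper grids. -/

variable {O : Subring ℂ} {ρ : ℕ} {rest : Sys O} {x : Val ℂ}

theorem MvIns_red {Γ Γa Γb U : Grid O} {x' : Val ℂ} {K : ℕ} {F : Multiset (Var × Bool)}
    (hW : WF (.grid Γ ::ₘ rest)) (hT : Top ρ (.grid Γ ::ₘ rest)) (hx : Sat x (.grid Γ ::ₘ rest))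
    (hK : ∀ o ∈ occ (.grid Γ ::ₘ rest), o.1.k < K) (hx' : ∀ v : Var, v.k < K → x' v = x v)
    (hF : F.Nodup) (hFK : ∀ o ∈ F, K ≤ o.1.k) (hocc : Γb.occ + Γa.occ + U.occ = Γ.occ + F)
    (oa : Γa.ok) (ob : Γb.ok) (ou : U.ok) (ra : Γa.n22 = ρ) (rb : Γb.n22 = ρ) (ru : U.n22 < ρ)
    (pa : Γa.proper) (pb : Γb.proper) (sa : Γa.Sat x') (sb : Γb.Sat x') (su : U.Sat x')
    (hs : ∀ (L : LR O) (u : Val L.A), Γa.Sat u → Γb.Sat u → U.Sat u → Γ.Sat u) :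
    Red ρ (.grid Γ ::ₘ rest) x (.grid Γb ::ₘ .grid Γa ::ₘ .grid U ::ₘ rest) x' := by
  refine ⟨⟨fun v hv => ?_, ?_⟩, fun v hv => ?_, ?_, fun h => ?_⟩
  · simp only [Multiset.mem_cons] at hv
    rcases hv with rfl | rfl | rfl | hv
    exacts [ob, oa, ou, hW.ok v (Multiset.mem_cons_of_mem hv)]
  · have h1 := hW.nodup
    rw [occ_cons] at h1 hK
    have h2 := nodup_move h1 hK hF hFK (New := Γb.occ + Γa.occ + U.occ) hocc.le
    simpa only [occ_cons, Vx.occ, add_assoc] using h2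
  · simp only [Multiset.mem_cons] at hv
    rcases hv with rfl | rfl | rfl | hv
    exacts [⟨rb.le, fun _ => pb⟩, ⟨ra.le, fun _ => pa⟩, ⟨ru.le, fun h => absurd h ru.ne⟩,
      hT v (Multiset.mem_cons_of_mem hv)]
  · rw [sat_cons, sat_cons, sat_cons]
    refine ⟨sb, sa, su, Sat.congr (Agree.of_eq fun o ho => (hx' _ (hK o ?_)).symm)
      ((sat_cons _ _ _).1 hx).2⟩
    rw [occ_cons]
    exact Multiset.mem_add.2 (Or.inr ho)
  · rw [← Multiset.singleton_add] at hK ⊢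
    refine lift_move0 (New := .grid Γb ::ₘ .grid Γa ::ₘ {.grid U}) (fun o ho => hx' _ (hK o ho))
      (fun L u _ hN => ?_) (by simpa only [Multiset.cons_add, Multiset.singleton_add] using h)
    rw [sat_cons, sat_cons, sat_singleton] at hN
    exact (sat_singleton _ _).2 (hs L u hN.2.1 hN.1 hN.2.2)

theorem MvIns_sat {Γ : Grid O} {x' : Val ℂ} {K : ℕ}
    (hK : ∀ o ∈ occ (.grid Γ ::ₘ rest), o.1.k < K) (hx' : ∀ v : Var, v.k < K → x' v = x v) :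
    (Γ.r1.val x).Sim (Γ.r1.val x') ∧ (Γ.r2.val x).Sim (Γ.r2.val x') ∧
      (Γ.r3.val x).Sim (Γ.r3.val x') ∧ (Γ.c1.val x).Sim (Γ.c1.val x') ∧
      (Γ.c2.val x).Sim (Γ.c2.val x') ∧ (Γ.c3.val x).Sim (Γ.c3.val x') := by
  have h' : Agree x x' Γ.occ := Agree.of_eq fun o ho => (hx' _ (hK o (by
    rw [occ_cons]; exact Multiset.mem_add.2 (Or.inl ho)))).symm
  exact ⟨HL.val_congr (h'.mono fun o ho => by simp [Grid.occ, ho]),
    TL.val_congr (h'.mono fun o ho => by simp [Grid.occ, ho]),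
    HL.val_congr (h'.mono fun o ho => by simp [Grid.occ, ho]),
    TL.val_congr (h'.mono fun o ho => by simp [Grid.occ, ho]),
    HL.val_congr (h'.mono fun o ho => by simp [Grid.occ, ho]),
    TL.val_congr (h'.mono fun o ho => by simp [Grid.occ, ho])⟩

theorem MvIns_ext (x : Val ℂ) (K : ℕ) {a1 b1 n1 a2 b2 n2 a3 b3 n3 : ℕ} (e1 : Ex ℂ a1 b1 n1)
    (e2 : Ex ℂ a2 b2 n2) (e3 : Ex ℂ a3 b3 n3) :
    ∃ x' : Val ℂ, (∀ v : Var, v.k < K → x' v = x v) ∧ x' ⟨a1, b1, n1, K, e1.dim⟩ = e1 ∧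
      x' ⟨a2, b2, n2, K + 1, e2.dim⟩ = e2 ∧ x' ⟨a3, b3, n3, K + 2, e3.dim⟩ = e3 := by
  obtain ⟨x', h1, h2⟩ := exists_ext x K [⟨⟨a1, b1, n1, K, e1.dim⟩, e1⟩,
    ⟨⟨a2, b2, n2, K + 1, e2.dim⟩, e2⟩, ⟨⟨a3, b3, n3, K + 2, e3.dim⟩, e3⟩] (by simp) (by simp)
  exact ⟨x', h1, h2 ⟨⟨a1, b1, n1, K, e1.dim⟩, e1⟩ (by simp),
    h2 ⟨⟨a2, b2, n2, K + 1, e2.dim⟩, e2⟩ (by simp), h2 ⟨⟨a3, b3, n3, K + 2, e3.dim⟩, e3⟩ (by simp)⟩

/-- The occurrences of three new variables. -/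
def MvIns_F (v1 v2 v3 : Var) : Multiset (Var × Bool) :=
  {(v1, true)} + {(v1, false)} + {(v2, true)} + {(v2, false)} + {(v3, true)} + {(v3, false)}

theorem MvIns_F_nodup {v1 v2 v3 : Var} {K : ℕ} (h1 : v1.k = K) (h2 : v2.k = K + 1)
    (h3 : v3.k = K + 2) : (MvIns_F v1 v2 v3).Nodup := by
  have a : v1 ≠ v2 := by rintro rfl; omega
  have b : v1 ≠ v3 := by rintro rfl; omega
  have c : v2 ≠ v3 := by rintro rfl; omega
  simp [MvIns_F, a, b, c]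

theorem MvIns_F_le {v1 v2 v3 : Var} {K : ℕ} (h1 : v1.k = K) (h2 : v2.k = K + 1)
    (h3 : v3.k = K + 2) : ∀ o ∈ MvIns_F v1 v2 v3, K ≤ o.1.k := by
  intro o ho
  simp only [MvIns_F, Multiset.mem_add, Multiset.mem_singleton] at ho
  rcases ho with ((((rfl | rfl) | rfl) | rfl) | rfl) | rfl <;> simp only <;> omega

theorem mv_ins (Γ : Grid O) (hW : WF (.grid Γ ::ₘ rest)) (hT : Top ρ (.grid Γ ::ₘ rest))
    (hx : Sat x (.grid Γ ::ₘ rest)) (hρ : Γ.n22 = ρ) (hn : 0 < Γ.n11 ∨ 0 < Γ.n33) :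
    ∃ (Γa Γb U : Grid O) (x' : Val ℂ),
      Red ρ (.grid Γ ::ₘ rest) x (.grid Γb ::ₘ .grid Γa ::ₘ .grid U ::ₘ rest) x' ∧
      Γa.n22 = ρ ∧ Γb.n22 = ρ ∧ U.n22 < ρ ∧ Γa.c2.m = [] ∧ Γb.c2.m = Γ.c2.m ∧
      Γb.c2.var = Γ.c2.var ∧ (Γa.n13 = 0 ∨ Γa.n31 = 0) ∧ (Γb.n13 = 0 ∨ Γb.n31 = 0) := by
  obtain ⟨K, hK⟩ := exists_fresh (occ (.grid Γ ::ₘ rest))
  have hok : Γ.ok := hW.ok _ (Multiset.mem_cons_self _ _)
  have hp : Γ.proper := (hT _ (Multiset.mem_cons_self _ _)).2 hρ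
  have hs : Γ.Sat x := hx _ (Multiset.mem_cons_self _ _)
  obtain ⟨p1, p2, p3, p4⟩ := hp
  have d1 := Γ.r1.h
  have d2 := Γ.r2.h
  have d3 := Γ.r3.h
  have d4 := Γ.c2.h
  rcases hn with hn | hn
  · obtain ⟨c, J, a, b, ha, hb, hu⟩ := ins_cap_ex hs
    obtain ⟨x', hx', eJ, ea, eb⟩ := MvIns_ext x K J a b
    obtain ⟨s1, s2, s3, s4, s5, s6⟩ := MvIns_sat hK hx'
    have dJ := J.dim
    refine ⟨⟨Γ.n11, Γ.n11, 0, Γ.n21, Γ.n22, Γ.n23, Γ.n31, c, Γ.n23, HL.cst (Nat.add_zero _), Γ.r2,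
        HL.new a.dim (K + 1), Γ.c1, HL.new J.dim K, TL.cst (Nat.zero_add _)⟩,
      ⟨Γ.n11, Γ.n12, Γ.n13, Γ.n11, Γ.n22, c, 0, Γ.n32, Γ.n32, Γ.r1, TL.new J.dim K,
        HL.cst (Nat.zero_add _), TL.cst (Nat.add_zero _), Γ.c2, TL.new b.dim (K + 2)⟩,
      ⟨0, Γ.n13, Γ.n13, Γ.n31, c, Γ.n23, Γ.n31, Γ.n32, Γ.n33, HL.cst (Nat.zero_add _),
        TL.new a.dim (K + 1), Γ.r3, TL.cst (Nat.zero_add _), HL.new b.dim (K + 2), Γ.c3⟩,
      x', ?_, hρ, hρ, (by omega : c < ρ), rfl, rfl, rfl, Or.inl rfl, Or.inr rfl⟩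
    refine MvIns_red hW hT hx hK hx'
      (F := MvIns_F ⟨_, _, _, K, J.dim⟩ ⟨_, _, _, K + 1, a.dim⟩ ⟨_, _, _, K + 2, b.dim⟩)
      (MvIns_F_nodup rfl rfl rfl) (MvIns_F_le rfl rfl rfl) ?_
      ⟨fun _ => Or.inr rfl, hok.r2, HL.new_ok _ _, hok.c1, HL.new_ok _ _, fun _ => Or.inl rfl⟩
      ⟨hok.r1, TL.new_ok _ _, fun _ => Or.inl rfl, fun _ => Or.inr rfl, hok.c2, TL.new_ok _ _⟩
      ⟨fun _ => Or.inl rfl, TL.new_ok _ _, hok.r3, fun _ => Or.inl rfl, HL.new_ok _ _, hok.c3⟩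
      hρ hρ (by omega : c < ρ) ⟨hn, (by omega : 0 < c), p3, p4⟩ ⟨p1, p2, hn, (by omega : 0 < c)⟩
      ?_ ?_ ?_ fun L u h1 h2 h3 => ?_
    · simp only [Grid.occ, HL.cst_occ, TL.cst_occ, HL.new_occ, TL.new_occ, MvIns_F]
      abel
    · simp only [Grid.Sat, HL.cst_val, TL.cst_val, HL.new_val, eJ, ea]
      exact ha.congr (.refl _) s2 (.refl _) s4 (.refl _) (.refl _)
    · simp only [Grid.Sat, HL.cst_val, TL.cst_val, TL.new_val, eJ, eb]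
      exact hb.congr s1 (.refl _) (.refl _) (.refl _) s5 (.refl _)
    · simp only [Grid.Sat, HL.cst_val, TL.cst_val, HL.new_val, TL.new_val, ea, eb]
      exact hu.congr (.refl _) (.refl _) s3 (.refl _) (.refl _) s6
    · simp only [Grid.Sat, HL.cst_val, TL.cst_val, HL.new_val, TL.new_val] at h1 h2 h3
      exact ins_cap_sat h1 h2 h3
  · obtain ⟨c, J, a, b, ha, hb, hu⟩ := ins_sum_ex hs
    obtain ⟨x', hx', eJ, ea, eb⟩ := MvIns_ext x K J a b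
    obtain ⟨s1, s2, s3, s4, s5, s6⟩ := MvIns_sat hK hx'
    have dJ := J.dim
    refine ⟨⟨Γ.n21, c, Γ.n13, Γ.n21, Γ.n22, Γ.n23, 0, Γ.n33, Γ.n33, HL.new a.dim (K + 1), Γ.r2,
        HL.cst (Nat.zero_add _), TL.cst (Nat.add_zero _), HL.new J.dim K, Γ.c3⟩,
      ⟨Γ.n12, Γ.n12, 0, c, Γ.n22, Γ.n33, Γ.n31, Γ.n32, Γ.n33, HL.cst (Nat.add_zero _),
        TL.new J.dim K, Γ.r3, TL.new b.dim (K + 2), Γ.c2, TL.cst (Nat.zero_add _)⟩,
      ⟨Γ.n11, Γ.n12, Γ.n13, Γ.n21, c, Γ.n13, Γ.n31, Γ.n31, 0, Γ.r1, TL.new a.dim (K + 1),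
        HL.cst (Nat.add_zero _), Γ.c1, HL.new b.dim (K + 2), TL.cst (Nat.add_zero _)⟩,
      x', ?_, hρ, hρ, (by omega : c < ρ), rfl, rfl, rfl, Or.inr rfl, Or.inl rfl⟩
    refine MvIns_red hW hT hx hK hx'
      (F := MvIns_F ⟨_, _, _, K, J.dim⟩ ⟨_, _, _, K + 1, a.dim⟩ ⟨_, _, _, K + 2, b.dim⟩)
      (MvIns_F_nodup rfl rfl rfl) (MvIns_F_le rfl rfl rfl) ?_
      ⟨HL.new_ok _ _, hok.r2, fun _ => Or.inl rfl, fun _ => Or.inr rfl, HL.new_ok _ _, hok.c3⟩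
      ⟨fun _ => Or.inr rfl, TL.new_ok _ _, hok.r3, TL.new_ok _ _, hok.c2, fun _ => Or.inl rfl⟩
      ⟨hok.r1, TL.new_ok _ _, fun _ => Or.inr rfl, hok.c1, HL.new_ok _ _, fun _ => Or.inr rfl⟩
      hρ hρ (by omega : c < ρ) ⟨(by omega : 0 < c), hn, p3, p4⟩ ⟨p1, p2, (by omega : 0 < c), hn⟩
      ?_ ?_ ?_ fun L u h1 h2 h3 => ?_
    · simp only [Grid.occ, HL.cst_occ, TL.cst_occ, HL.new_occ, TL.new_occ, MvIns_F]
      abel
    · simp only [Grid.Sat, HL.cst_val, TL.cst_val, HL.new_val, eJ, ea]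
      exact ha.congr (.refl _) s2 (.refl _) (.refl _) (.refl _) s6
    · simp only [Grid.Sat, HL.cst_val, TL.cst_val, TL.new_val, eJ, eb]
      exact hb.congr (.refl _) (.refl _) s3 (.refl _) s5 (.refl _)
    · simp only [Grid.Sat, HL.cst_val, TL.cst_val, HL.new_val, TL.new_val, ea, eb]
      exact hu.congr s1 (.refl _) (.refl _) s4 (.refl _) (.refl _)
    · simp only [Grid.Sat, HL.cst_val, TL.cst_val, HL.new_val, TL.new_val] at h1 h2 h3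
      exact ins_sum_sat h1 h2 h3

section Norm
variable {a b n : ℕ}

theorem MvIns_mulR {R : Type*} [CommRing R] (g : G b R) (X Y : Mat R a b) :
    X * g.val = Y ↔ X = Y * (g⁻¹).val := by
  constructor
  · rintro rfl
    rw [Matrix.mul_assoc, g.mul_inv, Matrix.mul_one]
  · rintro rfl
    rw [Matrix.mul_assoc, g.inv_mul, Matrix.mul_one]

theorem MvIns_mulL {R : Type*} [CommRing R] (g : G a R) (X Y : Mat R a b) :
    g.val * X = Y ↔ X = (g⁻¹).val * Y := by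
  constructor
  · rintro rfl
    rw [← Matrix.mul_assoc, g.inv_mul, Matrix.one_mul]
  · rintro rfl
    rw [← Matrix.mul_assoc, g.mul_inv, Matrix.one_mul]

/-- Twisting a head line by words. -/
def MvIns_tw (l : HL O a b n) (m s q : Word O) : HL O a b n :=
  ⟨l.h, l.x, m ++ l.m, l.s ++ s, l.q ++ q⟩

theorem MvIns_tw_val {R : Type*} [CommRing R] [Algebra O R] (u : Val R) (l : HL O a b n)
    (m s q : Word O) :
    (MvIns_tw l m s q).val u = (l.val u).twist (ev n u m) (ev a u s) (ev b u q) := by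
  simp only [MvIns_tw, HL.val, ev_append, Ex.twist_twist]

theorem MvIns_tw_occ (l : HL O a b n) (m s q : Word O) :
    (MvIns_tw l m s q).occ = l.occ + wocc n m + wocc a s + wocc b q := by
  simp only [MvIns_tw, HL.occ, wocc_append]
  abel

theorem MvIns_r2 (c : HL O a b n) (r : TL O a b n) (hc : c.ok) (hr : r.ok) :
    ∃ v : Vx O, v.rank = n ∧ v.ok ∧ v.occ ≤ c.occ + r.occ ∧ (v.proper ∨ ∃ w, v = .closed n w) ∧
      ∀ (R : Type) [CommRing R] [Algebra O R] (u : Val R), v.Sat u ↔ (c.val u).Sim (r.val u) := by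
  have h := c.h
  rcases Nat.eq_zero_or_pos b with rfl | hb
  · obtain rfl : a = n := h
    refine ⟨.closed a (c.wS ++ r.wS), rfl, trivial, ?_, Or.inr ⟨_, rfl⟩, fun R _ _ u => ?_⟩
    · rw [c.wS_occ, r.wS_occ, Vx.occ, wocc_append]
      exact add_le_add (Multiset.le_add_right _ _) (Multiset.le_add_right _ _)
    · rw [Vx.Sat, ev_append, Ex.Sim, c.wS_val, r.wS_val, mul_eq_one_iff_eq_inv, Units.val_inj]
      exact (and_iff_left (Subsingleton.elim _ _)).symm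
  rcases Nat.eq_zero_or_pos a with rfl | ha
  · obtain rfl : b = n := by omega
    refine ⟨.closed b (c.wQ ++ r.wQ), rfl, trivial, ?_, Or.inr ⟨_, rfl⟩, fun R _ _ u => ?_⟩
    · rw [c.wQ_occ, r.wQ_occ, Vx.occ, wocc_append]
      exact add_le_add (Multiset.le_add_right _ _) (Multiset.le_add_right _ _)
    · rw [Vx.Sat, ev_append, Ex.Sim, c.wQ_val, r.wQ_val, mul_eq_one_iff_inv_eq, Units.val_inj]
      exact (and_iff_right (Subsingleton.elim _ _)).symm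
  exact ⟨.grid (r2form c r), rfl, r2form_ok hc hr, (r2form_occ c r).le, Or.inl ⟨ha, hb, ha, hb⟩,
    fun R _ _ u => r2form_sat u c r⟩

end Norm

theorem norm_step (Γ : Grid O) (hok : Γ.ok) (hp : ¬ Γ.proper) :
    ∃ v : Vx O, v.rank = Γ.n22 ∧ v.ok ∧ v.occ ≤ Γ.occ ∧ (v.proper ∨ ∃ w, v = .closed Γ.n22 w) ∧
      ∀ (R : Type) [CommRing R] [Algebra O R] (u : Val R), v.Sat u ↔ Γ.Sat u := by
  obtain ⟨n11, n12, n13, n21, n22, n23, n31, n32, n33, r1, r2, r3, c1, c2, c3⟩ := Γ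
  obtain ⟨o1, o2, o3, o4, o5, o6⟩ := hok
  have d1 := r1.h
  have d2 := r2.h
  have d3 := r3.h
  have d4 := c1.h
  have d5 := c2.h
  have d6 := c3.h
  simp only [Grid.proper] at hp
  simp only [Grid.Sat, Grid.occ]
  have hcase : n32 = 0 ∨ n12 = 0 ∨ n23 = 0 ∨ n21 = 0 := by omega
  rcases hcase with rfl | rfl | rfl | rfl
  · obtain rfl : n31 = 0 := by omega
    obtain rfl : n33 = 0 := by omega
    obtain rfl : n12 = n22 := by omega
    obtain rfl : n11 = n21 := by omega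
    obtain rfl : n13 = n23 := by omega
    obtain ⟨v, h1, h2, h3, h4, h5⟩ := MvIns_r2 (MvIns_tw r1 c2.wS c1.wS c3.wS) r2 o1 o2
    refine ⟨v, h1, h2, h3.trans ?_, h4, fun R _ _ u => (h5 R u).trans ?_⟩
    · rw [MvIns_tw_occ, c1.wS_occ, c2.wS_occ, c3.wS_occ, Multiset.le_iff_exists_add]
      exact ⟨r3.occ + wocc 0 c1.q + wocc 0 c2.q + wocc 0 c3.q, by abel⟩
    · rw [MvIns_tw_val, Ex.Sim, Ex.twist_i, Ex.twist_p, MvIns_mulR, MvIns_mulR, inv_inv,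
        ← c1.wS_val, ← c2.wS_val, ← c3.wS_val]
      exact ⟨fun h => ⟨h.1, h.2.symm, Subsingleton.elim _ _, Subsingleton.elim _ _⟩,
        fun h => ⟨h.ii, h.pi.symm⟩⟩
  · obtain rfl : n11 = 0 := by omega
    obtain rfl : n13 = 0 := by omega
    obtain rfl : n32 = n22 := by omega
    obtain rfl : n31 = n21 := by omega
    obtain rfl : n33 = n23 := by omega
    obtain ⟨v, h1, h2, h3, h4, h5⟩ := MvIns_r2 (MvIns_tw r3 c2.wQ c1.wQ c3.wQ) r2 o3 o2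
    refine ⟨v, h1, h2, h3.trans ?_, h4, fun R _ _ u => (h5 R u).trans ?_⟩
    · rw [MvIns_tw_occ, c1.wQ_occ, c2.wQ_occ, c3.wQ_occ, Multiset.le_iff_exists_add]
      exact ⟨r1.occ + wocc 0 c1.s + wocc 0 c2.s + wocc 0 c3.s, by abel⟩
    · rw [MvIns_tw_val, Ex.Sim, Ex.twist_i, Ex.twist_p, Matrix.mul_assoc, Matrix.mul_assoc,
        MvIns_mulL, MvIns_mulL, inv_inv, ← c1.wQ_val, ← c2.wQ_val, ← c3.wQ_val]
      exact ⟨fun h => ⟨Subsingleton.elim _ _, Subsingleton.elim _ _, h.1.symm, h.2.symm⟩,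
        fun h => ⟨h.ip.symm, h.pp.symm⟩⟩
  · obtain rfl : n13 = 0 := by omega
    obtain rfl : n33 = 0 := by omega
    obtain rfl : n21 = n22 := by omega
    obtain rfl : n11 = n12 := by omega
    obtain rfl : n31 = n32 := by omega
    obtain ⟨v, h1, h2, h3, h4, h5⟩ := MvIns_r2 (MvIns_tw c2 r2.wS r1.wS r3.wS) c1 o5 o4
    refine ⟨v, h1, h2, h3.trans ?_, h4, fun R _ _ u => (h5 R u).trans ?_⟩
    · rw [MvIns_tw_occ, r1.wS_occ, r2.wS_occ, r3.wS_occ, Multiset.le_iff_exists_add]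
      exact ⟨c3.occ + wocc 0 r1.q + wocc 0 r2.q + wocc 0 r3.q, by abel⟩
    · rw [MvIns_tw_val, Ex.Sim, Ex.twist_i, Ex.twist_p, Matrix.mul_assoc, Matrix.mul_assoc,
        MvIns_mulL, MvIns_mulL, inv_inv, ← r1.wS_val, ← r2.wS_val, ← r3.wS_val]
      exact ⟨fun h => ⟨h.1, Subsingleton.elim _ _, h.2, Subsingleton.elim _ _⟩,
        fun h => ⟨h.ii, h.ip⟩⟩
  · obtain rfl : n11 = 0 := by omega
    obtain rfl : n31 = 0 := by omega
    obtain rfl : n23 = n22 := by omega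
    obtain rfl : n13 = n12 := by omega
    obtain rfl : n33 = n32 := by omega
    obtain ⟨v, h1, h2, h3, h4, h5⟩ := MvIns_r2 (MvIns_tw c2 r2.wQ r1.wQ r3.wQ) c3 o5 o6
    refine ⟨v, h1, h2, h3.trans ?_, h4, fun R _ _ u => (h5 R u).trans ?_⟩
    · rw [MvIns_tw_occ, r1.wQ_occ, r2.wQ_occ, r3.wQ_occ, Multiset.le_iff_exists_add]
      exact ⟨c1.occ + wocc 0 r1.s + wocc 0 r2.s + wocc 0 r3.s, by abel⟩
    · rw [MvIns_tw_val, Ex.Sim, Ex.twist_i, Ex.twist_p, MvIns_mulR, MvIns_mulR, inv_inv,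
        ← r1.wQ_val, ← r2.wQ_val, ← r3.wQ_val]
      exact ⟨fun h => ⟨Subsingleton.elim _ _, h.1, Subsingleton.elim _ _, h.2.symm⟩,
        fun h => ⟨h.pi, h.pp.symm⟩⟩

end Crest.Agent.R3

end
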