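import Crest.Agent.R3.ExB

set_option autoImplicit false

noncomputable section

namespace Crest.Agent.R3

open Matrix Filter Topology

/-! Products of commutators and their Fox derivatives. -/

section Grp
variable {H H' : Type*} [Group H] [Group H'] {g : ℕ}

@[simp] theorem cprod_zero (T : Fin 0 × Bool → H) : cprod T = 1 := rfl
theorem cprod_succ (T : Fin (g + 1) × Bool → H) :
    cprod T = comm (T (0, false)) (T (0, true)) * cprod (tail T) := rfl
theorem tail_apply {α : Type*} (T : Fin (g + 1) × Bool → α) (v : Fin g × Bool) :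
    tail T v = T (v.1.succ, v.2) := rfl

theorem cprod_eq (T : Fin g × Bool → H) : cprod T = ((List.finRange g).map fun i =>
    T (i, false) * T (i, true) * (T (i, false))⁻¹ * (T (i, true))⁻¹).prod := by
  induction g with
  | zero => rfl
  | succ g ih =>
    rw [cprod_succ, ih, List.finRange_succ, List.map_cons, List.prod_cons, List.map_map]
    rfl
theorem Fox_map_comm (f : H →* H') (a b : H) : f (comm a b) = comm (f a) (f b) := by
  simp only [comm, map_mul, map_inv]
theorem cprod_map (f : H →* H') (T : Fin g × Bool → H) :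
    f (cprod T) = cprod fun v => f (T v) := by
  induction g with
  | zero => exact map_one f
  | succ g ih =>
    rw [cprod_succ, cprod_succ, map_mul, ih, Fox_map_comm]
    rfl
theorem cprod_conj (P : H) (T : Fin g × Bool → H) :
    cprod (fun v => P * T v * P⁻¹) = P * cprod T * P⁻¹ :=
  (cprod_map (MulAut.conj P).toMonoidHom T).symm
theorem cprod_snocH (T : Fin g × Bool → H) (a b : H) :
    cprod (snocH T a b) = cprod T * comm a b := by
  rw [cprod_eq, cprod_eq, List.finRange_succ_last, List.map_append, List.prod_append, List.map_map]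
  simp [snocH, comm, Function.comp_def]
theorem snocH_last {α : Type*} (T : Fin g × Bool → α) (a b : α) (e : Bool) :
    snocH T a b (Fin.last g, e) = if e then b else a := by
  simp [snocH]
theorem snocH_castSucc {α : Type*} (T : Fin g × Bool → α) (a b : α) (i : Fin g) (e : Bool) :
    snocH T a b (i.castSucc, e) = T (i, e) := by
  simp [snocH]
theorem cprod_comm_group {K : Type*} [CommGroup K] (T : Fin g × Bool → K) : cprod T = 1 := by
  induction g with
  | zero => rfl
  | succ g ih => rw [cprod_succ, ih, comm, mul_inv_cancel_comm, mul_inv_cancel, mul_one]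
theorem srel_map {s : ℕ} (f : H →* H') (T : (Fin g × Bool) ⊕ Fin s → H) :
    f (srel T) = srel fun v => f (T v) := by
  rw [srel, srel, map_mul, cprod_map, map_list_prod, List.map_ofFn]
  rfl

end Grp

variable {R S : Type*} [CommRing R] [CommRing S] {g m w q n : ℕ}

theorem mem_Com {ι : Type*} {T : ι → G m R} {X : Mat R m m} : X ∈ Com T ↔ Eqv X T T := Iff.rfl

theorem det_cprod (T : Fin g × Bool → G m R) : (cprod T).val.det = 1 := by
  have h := cprod_map (Matrix.GeneralLinearGroup.det : G m R →* Rˣ) T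
  rw [cprod_comm_group] at h
  exact congrArg Units.val h

theorem Fox_inv_mul {k : ℕ} (a : G n R) (X : Mat R n k) : (a⁻¹).val * (a.val * X) = X :=
  ExB_inv_mul a X

theorem Fox_mul_inv {k : ℕ} (a : G n R) (X : Mat R n k) : a.val * ((a⁻¹).val * X) = X :=
  ExB_inv_mul a⁻¹ X

theorem Fox_int_mul {φ : Mat R q w} {a b : G w R} {a' b' : G q R} (h : φ * a.val = a'.val * φ)
    (h' : φ * b.val = b'.val * φ) : φ * (a * b).val = (a' * b').val * φ := by
  rw [Units.val_mul, Units.val_mul, ← Matrix.mul_assoc, h, Matrix.mul_assoc, h', Matrix.mul_assoc]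

theorem Fox_int_inv {φ : Mat R q w} {a : G w R} {a' : G q R} (h : φ * a.val = a'.val * φ) :
    φ * (a⁻¹).val = (a'⁻¹).val * φ := by
  rw [← Fox_inv_mul a' (φ * (a⁻¹).val), ← Matrix.mul_assoc a'.val, ← h, Matrix.mul_assoc φ,
    Units.mul_inv, Matrix.mul_one]

theorem Fox_int_comm {φ : Mat R q w} {a b : G w R} {a' b' : G q R} (h : φ * a.val = a'.val * φ)
    (h' : φ * b.val = b'.val * φ) : φ * (comm a b).val = (comm a' b').val * φ :=
  Fox_int_mul (Fox_int_mul (Fox_int_mul h h') (Fox_int_inv h)) (Fox_int_inv h')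

theorem Fox_tail {φ : Mat R q w} {W : Fin (g + 1) × Bool → G w R} {Q : Fin (g + 1) × Bool → G q R}
    (h : Eqv φ W Q) : Eqv φ (tail W) (tail Q) := fun _ => h _

theorem Eqv.inv {ι : Type*} {φ : Mat R q w} {W : ι → G w R} {Q : ι → G q R} (h : Eqv φ W Q)
    (v : ι) : φ * ((W v)⁻¹).val = ((Q v)⁻¹).val * φ := Fox_int_inv (h v)

theorem Eqv.cprod {φ : Mat R q w} {W : Fin g × Bool → G w R} {Q : Fin g × Bool → G q R}
    (h : Eqv φ W Q) : φ * (cprod W).val = (cprod Q).val * φ := by
  induction g with
  | zero => simp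
  | succ g ih => exact Fox_int_mul (Fox_int_comm (h _) (h _)) (ih (Fox_tail h))

theorem Eqv.srel {s : ℕ} {φ : Mat R q w} {W : (Fin g × Bool) ⊕ Fin s → G w R}
    {Q : (Fin g × Bool) ⊕ Fin s → G q R} (h : Eqv φ W Q) :
    φ * (srel W).val = (srel Q).val * φ := by
  refine Fox_int_mul (Eqv.cprod fun _ => h _) ?_
  have key : ∀ (s : ℕ) (A : Fin s → G w R) (B : Fin s → G q R), Eqv φ A B →
      φ * (List.ofFn A).prod.val = (List.ofFn B).prod.val * φ := by
    intro s
    induction s with
    | zero => intro A B _; simp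
    | succ s ih =>
      intro A B hAB
      rw [List.ofFn_succ, List.ofFn_succ, List.prod_cons, List.prod_cons]
      exact Fox_int_mul (hAB 0) (ih _ _ fun _ => hAB _)
  exact key s _ _ fun _ => h _

theorem fox_succ (W : Fin (g + 1) × Bool → G w R) (Q : Fin (g + 1) × Bool → G q R)
    (c : Fin (g + 1) × Bool → Mat R w q) : fox W Q c =
      dcomm (W (0, false)) (W (0, true)) (Q (0, false)) (Q (0, true)) (c (0, false)) (c (0, true))
          * (cprod (tail Q)).val
        + (comm (W (0, false)) (W (0, true))).val * fox (tail W) (tail Q) (tail c) := rfl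

theorem fox_add (W : Fin g × Bool → G w R) (Q : Fin g × Bool → G q R)
    (c c' : Fin g × Bool → Mat R w q) : fox W Q (c + c') = fox W Q c + fox W Q c' := by
  induction g with
  | zero => exact (add_zero _).symm
  | succ g ih =>
    rw [fox_succ, fox_succ, fox_succ, show tail (c + c') = tail c + tail c' from rfl, ih]
    simp only [dcomm, Pi.add_apply, Matrix.add_mul, Matrix.mul_add, Matrix.sub_mul]
    abel

theorem fox_smul (W : Fin g × Bool → G w R) (Q : Fin g × Bool → G q R) (a : R)
    (c : Fin g × Bool → Mat R w q) : fox W Q (a • c) = a • fox W Q c := by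
  induction g with
  | zero => exact (smul_zero _).symm
  | succ g ih =>
    rw [fox_succ, fox_succ, show tail (a • c) = a • tail c from rfl, ih]
    simp only [dcomm, Pi.smul_apply, Matrix.add_mul, Matrix.sub_mul, Matrix.smul_mul,
      Matrix.mul_smul, smul_add, smul_sub]

/-- `fox` as a linear map. -/
def foxL (W : Fin g × Bool → G w R) (Q : Fin g × Bool → G q R) :
    (Fin g × Bool → Mat R w q) →ₗ[R] Mat R w q where
  toFun := fox W Q
  map_add' := fox_add W Q
  map_smul' := fox_smul W Q

@[simp] theorem foxL_apply (W : Fin g × Bool → G w R) (Q : Fin g × Bool → G q R)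
    (c : Fin g × Bool → Mat R w q) : foxL W Q c = fox W Q c := rfl

theorem fox_map (f : R →+* S) (W : Fin g × Bool → G w R) (Q : Fin g × Bool → G q R)
    (c : Fin g × Bool → Mat R w q) : (fox W Q c).map f =
      fox (fun v => gmap f (W v)) (fun v => gmap f (Q v)) fun v => (c v).map f := by
  induction g with
  | zero => exact Matrix.map_zero _ (map_zero f)
  | succ g ih =>
    rw [fox_succ, fox_succ, Matrix.map_add _ (map_add f), Matrix.map_mul, Matrix.map_mul, ih,
      ← gmap_val, ← gmap_val, cprod_map, Fox_map_comm]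
    congr 2
    simp only [dcomm, Matrix.map_add _ (map_add f), Matrix.map_sub _ (map_sub f), Matrix.map_mul,
      ← gmap_val, map_mul, map_inv, Fox_map_comm]

theorem fox_left {w' : ℕ} {φ : Mat R w' w} {W : Fin g × Bool → G w R}
    {W' : Fin g × Bool → G w' R} (h : Eqv φ W W') (Q : Fin g × Bool → G q R)
    (c : Fin g × Bool → Mat R w q) : φ * fox W Q c = fox W' Q fun v => φ * c v := by
  induction g with
  | zero => exact Matrix.mul_zero _
  | succ g ih =>
    have ha := h (0, false)
    have hb := h (0, true)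
    have h1 := Fox_int_mul (Fox_int_mul ha hb) (Fox_int_inv ha)
    have h2 := Fox_int_comm ha hb
    rw [fox_succ, fox_succ, Matrix.mul_add, ← Matrix.mul_assoc φ (Units.val (comm _ _)), h2,
      Matrix.mul_assoc _ φ, ih (Fox_tail h), ← Matrix.mul_assoc]
    congr 2
    simp only [dcomm, Matrix.mul_add, Matrix.mul_sub, ← Matrix.mul_assoc, ha, h1, h2]

theorem fox_right {q' : ℕ} {φ : Mat R q q'} {Q' : Fin g × Bool → G q' R}
    {Q : Fin g × Bool → G q R} (h : Eqv φ Q' Q) (W : Fin g × Bool → G w R)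
    (c : Fin g × Bool → Mat R w q) : fox W Q c * φ = fox W Q' fun v => c v * φ := by
  induction g with
  | zero => exact Matrix.zero_mul _
  | succ g ih =>
    have ha := h (0, false)
    have hb := h (0, true)
    have h1 := Fox_int_mul (Fox_int_mul hb (Fox_int_inv ha)) (Fox_int_inv hb)
    have h2 := Fox_int_mul (Fox_int_inv ha) (Fox_int_inv hb)
    have h3 := Fox_int_inv hb
    rw [fox_succ, fox_succ, Matrix.add_mul, Matrix.mul_assoc _ _ φ, ← (Fox_tail h).cprod,
      Matrix.mul_assoc _ _ φ, ih (Fox_tail h), ← Matrix.mul_assoc]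
    congr 2
    simp only [dcomm, Matrix.add_mul, Matrix.sub_mul, Matrix.mul_assoc, h1, h2, h3]

theorem Fox_blk_mul (e : Ex R w q n) (X X' : Mat R w w) (Y Y' : Mat R q q) (Z Z' : Mat R w q) :
    (e.i * X * e.r + e.s * Y * e.p + e.i * Z * e.p) *
      (e.i * X' * e.r + e.s * Y' * e.p + e.i * Z' * e.p) =
      e.i * (X * X') * e.r + e.s * (Y * Y') * e.p + e.i * (Z * Y' + X * Z') * e.p := by
  have h1 : ∀ {k : ℕ} (M : Mat R w k), e.r * (e.i * M) = M := fun M => by
    rw [← Matrix.mul_assoc, e.ri, Matrix.one_mul]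
  have h2 : ∀ {k : ℕ} (M : Mat R q k), e.r * (e.s * M) = 0 := fun M => by
    rw [← Matrix.mul_assoc, e.rs, Matrix.zero_mul]
  have h3 : ∀ {k : ℕ} (M : Mat R w k), e.p * (e.i * M) = 0 := fun M => by
    rw [← Matrix.mul_assoc, e.pi, Matrix.zero_mul]
  have h4 : ∀ {k : ℕ} (M : Mat R q k), e.p * (e.s * M) = M := fun M => by
    rw [← Matrix.mul_assoc, e.ps, Matrix.one_mul]
  simp only [Matrix.add_mul, Matrix.mul_add, Matrix.mul_assoc, h1, h2, h3, h4, Matrix.mul_zero,
    add_zero, zero_add]
  abel

/-- `T` has the blocks `W`, `Q`, `c`. -/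
def Fox_Blk (e : Ex R w q n) (T : G n R) (W : G w R) (Q : G q R) (c : Mat R w q) : Prop :=
  T.val = e.i * W.val * e.r + e.s * Q.val * e.p + e.i * c * e.p

theorem Fox_Blk.mul {e : Ex R w q n} {T T' : G n R} {W W' : G w R} {Q Q' : G q R}
    {c c' : Mat R w q} (h : Fox_Blk e T W Q c) (h' : Fox_Blk e T' W' Q' c') :
    Fox_Blk e (T * T') (W * W') (Q * Q') (c * Q'.val + W.val * c') := by
  unfold Fox_Blk at *
  rw [Units.val_mul, h, h', Fox_blk_mul, Units.val_mul, Units.val_mul]

theorem Fox_Blk.inv {e : Ex R w q n} {T : G n R} {W : G w R} {Q : G q R} {c : Mat R w q}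
    (h : Fox_Blk e T W Q c) : Fox_Blk e T⁻¹ W⁻¹ Q⁻¹ (-((W⁻¹).val * (c * (Q⁻¹).val))) := by
  unfold Fox_Blk at *
  refine Units.inv_eq_of_mul_eq_one_right ?_
  rw [h, Fox_blk_mul, Units.mul_inv, Units.mul_inv, Matrix.mul_neg, Fox_mul_inv, add_neg_cancel,
    Matrix.mul_zero, Matrix.zero_mul, add_zero, Matrix.mul_one, Matrix.mul_one, e.tot]

theorem Fox_dcomm_eq (a b : G w R) (a' b' : G q R) (x y : Mat R w q) :
    dcomm a b a' b' x y = ((x * b'.val + a.val * y) * (a'⁻¹).val +
      (a * b).val * -((a⁻¹).val * (x * (a'⁻¹).val))) * (b'⁻¹).val +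
      (a * b * a⁻¹).val * -((b⁻¹).val * (y * (b'⁻¹).val)) := by
  simp only [dcomm, comm, Units.val_mul, Matrix.add_mul, Matrix.mul_neg, Matrix.neg_mul,
    Matrix.mul_assoc, sub_eq_add_neg]

theorem Fox_Blk.comm {e : Ex R w q n} {T T' : G n R} {W W' : G w R} {Q Q' : G q R}
    {c c' : Mat R w q} (h : Fox_Blk e T W Q c) (h' : Fox_Blk e T' W' Q' c') :
    Fox_Blk e (comm T T') (comm W W') (comm Q Q') (dcomm W W' Q Q' c c') := by
  rw [Fox_dcomm_eq]
  exact ((h.mul h').mul h.inv).mul h'.inv

theorem fox_block (e : Ex R w q n) (W : Fin g × Bool → G w R) (Q : Fin g × Bool → G q R)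
    (c : Fin g × Bool → Mat R w q) (T : Fin g × Bool → G n R)
    (hT : ∀ v, (T v).val = e.i * (W v).val * e.r + e.s * (Q v).val * e.p + e.i * c v * e.p) :
    (cprod T).val = e.i * (cprod W).val * e.r + e.s * (cprod Q).val * e.p
      + e.i * fox W Q c * e.p := by
  induction g with
  | zero =>
    simp only [cprod_zero, Units.val_one, fox, Matrix.mul_one, Matrix.mul_zero, Matrix.zero_mul,
      add_zero, e.tot]
  | succ g ih =>
    exact (Fox_Blk.comm (hT (0, false)) (hT (0, true))).mul
      (ih (tail W) (tail Q) (tail c) (tail T) fun _ => hT _)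

theorem Fox_tr_mul (a b : G q R) (x y : Mat R q q) :
    ((x * b.val + a.val * y) * ((a * b)⁻¹).val).trace =
      (x * (a⁻¹).val).trace + (y * (b⁻¹).val).trace := by
  rw [_root_.mul_inv_rev, Units.val_mul, Matrix.add_mul, trace_add, Matrix.mul_assoc x,
    Fox_mul_inv, Matrix.mul_assoc a.val, trace_mul_comm a.val]
  simp only [Matrix.mul_assoc, Units.inv_mul, Matrix.mul_one]

theorem Fox_tr_inv (a : G q R) (x : Mat R q q) :
    (-((a⁻¹).val * (x * (a⁻¹).val)) * (a⁻¹⁻¹).val).trace = -(x * (a⁻¹).val).trace := by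
  rw [inv_inv, Matrix.neg_mul, trace_neg, trace_mul_comm, Fox_mul_inv]

theorem Fox_tr_dcomm (a b : G q R) (x y : Mat R q q) :
    (dcomm a b a b x y * ((comm a b)⁻¹).val).trace = 0 := by
  rw [Fox_dcomm_eq, comm, Fox_tr_mul, Fox_tr_mul, Fox_tr_mul, Fox_tr_inv, Fox_tr_inv]
  ring

theorem fox_trace {φ : Mat R q w} {W : Fin g × Bool → G w R} {Q : Fin g × Bool → G q R}
    (h : Eqv φ W Q) (c : Fin g × Bool → Mat R w q) :
    (φ * fox W Q c * ((cprod Q)⁻¹).val).trace = 0 := by
  rw [fox_left h]
  generalize (fun v => φ * c v) = d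
  clear h W c
  induction g with
  | zero => simp [fox]
  | succ g ih => rw [fox_succ, cprod_succ, Fox_tr_mul, Fox_tr_dcomm, ih, add_zero]

theorem Fox_zero (W : Fin g × Bool → G w R) (Q : Fin g × Bool → G q R) : fox W Q 0 = 0 :=
  (foxL W Q).map_zero

theorem Fox_ann_handle {ψ : Mat R q w} {a b : G w R} {a' b' : G q R}
    (h : ∀ x y, (ψ * dcomm a b a' b' x y).trace = 0) :
    ψ * (comm a b).val * a.val = a'.val * (ψ * (comm a b).val) ∧
      ψ * (comm a b).val * b.val = b'.val * (ψ * (comm a b).val) := by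
  have h1 : (b' * a'⁻¹ * b'⁻¹).val * ψ = (a'⁻¹ * b'⁻¹).val * ψ * (a * b * a⁻¹).val := by
    refine Matrix.ext_iff_trace_mul_right.2 fun x => ?_
    have := h x 0
    simp only [dcomm, Matrix.mul_zero, Matrix.zero_mul, add_zero, sub_zero, Matrix.mul_sub,
      trace_sub, sub_eq_zero, ← Matrix.mul_assoc] at this
    rw [trace_mul_comm, trace_mul_comm _ (a'⁻¹ * b'⁻¹).val] at this
    simpa only [Matrix.mul_assoc] using this
  have h2 : (a'⁻¹ * b'⁻¹).val * ψ * a.val = (b'⁻¹).val * ψ * (comm a b).val := by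
    refine Matrix.ext_iff_trace_mul_right.2 fun y => ?_
    have := h 0 y
    simp only [dcomm, Matrix.mul_zero, Matrix.zero_mul, zero_add, sub_zero, Matrix.mul_sub,
      trace_sub, sub_eq_zero, ← Matrix.mul_assoc] at this
    rw [trace_mul_comm, trace_mul_comm _ (b'⁻¹).val] at this
    simpa only [Matrix.mul_assoc] using this
  set η := (a'⁻¹ * b'⁻¹).val * ψ * a.val with hη
  set χ := ψ * (comm a b).val with hχ
  have h3 : b'.val * η = η * b.val := by
    have := congrArg (· * a.val) h1
    simpa only [hη, Units.val_mul, Matrix.mul_assoc, Units.inv_mul, Matrix.mul_one] using this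
  have h4 : b'.val * η = χ := by rw [h2, Matrix.mul_assoc, Fox_mul_inv]
  have h5 : χ * b.val = b'.val * χ := by
    rw [← h4, Matrix.mul_assoc, ← h3]
  refine ⟨?_, h5⟩
  have h6 : χ * b.val * a.val = ψ * (a.val * b.val) := by
    simp only [hχ, comm, Units.val_mul, Matrix.mul_assoc, Fox_inv_mul, Units.inv_mul,
      Matrix.mul_one]
  have h7 : a'.val * χ = (b'⁻¹).val * (ψ * (a.val * b.val)) := by
    rw [← h4, h3]
    simp only [hη, Units.val_mul, Matrix.mul_assoc, Fox_mul_inv]
  rw [h7, ← h6, h5, Matrix.mul_assoc b'.val, Fox_inv_mul]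

theorem fox_ann {φ : Mat R q w} {W : Fin g × Bool → G w R} {Q : Fin g × Bool → G q R}
    (h : ∀ c, (φ * fox W Q c).trace = 0) : Eqv (φ * (cprod W).val) W Q := by
  induction g generalizing φ with
  | zero => exact fun v => v.1.elim0
  | succ g ih =>
    have h1 : Eqv (φ * (comm (W (0, false)) (W (0, true))).val * (cprod (tail W)).val)
        (tail W) (tail Q) := by
      refine ih fun c => ?_
      have := h fun v => Fin.cases (motive := fun _ => Mat R w q) 0 (fun i => c (i, v.2)) v.1
      rw [fox_succ] at this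
      simp only [dcomm, Fin.cases_zero, Matrix.mul_zero, Matrix.zero_mul, add_zero, sub_zero,
        zero_add, ← Matrix.mul_assoc] at this
      exact this
    have h2 := Fox_ann_handle (ψ := (cprod (tail Q)).val * φ) (a := W (0, false))
      (b := W (0, true)) (a' := Q (0, false)) (b' := Q (0, true)) fun x y => by
        have := h fun v => Fin.cases (motive := fun _ => Mat R w q) (if v.2 then y else x)
          (fun _ => 0) v.1
        rw [fox_succ, show tail (fun v : Fin (g + 1) × Bool => Fin.cases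
          (motive := fun _ => Mat R w q) (if v.2 then y else x) (fun _ => 0) v.1) = 0 from rfl,
          Fox_zero, Matrix.mul_zero, add_zero, ← Matrix.mul_assoc, trace_mul_comm,
          ← Matrix.mul_assoc] at this
        exact this
    have h3 : φ * (cprod W).val =
        φ * (comm (W (0, false)) (W (0, true))).val * (cprod (tail W)).val := by
      rw [cprod_succ, Units.val_mul, Matrix.mul_assoc]
    have h4 : φ * (cprod W).val =
        (cprod (tail Q)).val * φ * (comm (W (0, false)) (W (0, true))).val := by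
      have := (ExB_eq_iff_r _ _ _).1 h1.cprod
      rw [h3, this]
      simp only [Matrix.mul_assoc, Units.mul_inv, Matrix.mul_one]
    rintro ⟨i, e⟩
    refine Fin.cases ?_ (fun i => ?_) i
    · rw [h4]
      cases e
      exacts [h2.1, h2.2]
    · rw [h3]
      exact h1 (i, e)

/-- The trace pairing is perfect. -/
theorem trace_dual (U : Submodule ℂ (Mat ℂ w q)) (ω : Mat ℂ w q)
    (h : ∀ X : Mat ℂ q w, (∀ u ∈ U, (X * u).trace = 0) → (X * ω).trace = 0) : ω ∈ U := by
  by_contra hω
  obtain ⟨f, h1, h2⟩ := U.exists_dual_map_eq_bot_of_notMem hω inferInstance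
  have key : ∀ u : Mat ℂ w q,
      ((Matrix.of fun j i => f (Matrix.single i j 1) : Mat ℂ q w) * u).trace = f u := fun u => by
    conv_rhs => rw [matrix_eq_sum_single u]
    simp only [trace, diag, Matrix.mul_apply, Matrix.of_apply, map_sum]
    rw [Finset.sum_comm]
    refine Finset.sum_congr rfl fun i _ => Finset.sum_congr rfl fun j _ => ?_
    rw [mul_comm, ← smul_eq_mul, ← map_smul, smul_single, smul_eq_mul, mul_one]
  refine h1 ((key ω).symm.trans (h _ fun u hu => (key u).trans ?_))
  exact (Submodule.eq_bot_iff _).1 h2 _ (Submodule.mem_map_of_mem hu)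

theorem fox_surj (T : Fin g × Bool → G m ℂ) (ω : Mat ℂ m m)
    (h : ∀ X ∈ Com T, (X * ω).trace = 0) : ∃ ξ, fox T T ξ = ω * (cprod T).val := by
  refine trace_dual (LinearMap.range (foxL T T)) _ fun X hX => ?_
  have h1 : Eqv (X * (cprod T).val) T T := fox_ann fun c => hX _ ⟨c, rfl⟩
  have h2 : X * (cprod T).val = (cprod T).val * X := by
    rw [(ExB_eq_iff_r _ _ _).1 h1.cprod]
    simp only [Matrix.mul_assoc, Units.mul_inv, Matrix.mul_one]
  rw [← Matrix.mul_assoc, trace_mul_comm, ← Matrix.mul_assoc, ← h2]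
  exact h _ h1

end Crest.Agent.R3

end
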