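import Crest.Agent.R3.Syn
import Crest.Agent.R3.Fox

set_option autoImplicit false

noncomputable section

namespace Crest.Agent.R3

open Matrix Filter Topology

/-! Orientable surface words. -/

variable {O : Subring ℂ}

/-- `M` or `M⁻¹`. -/
def swSgn {H : Type*} [Group H] : Bool → H → H
  | true, M => M
  | false, M => M⁻¹

theorem swSgn_swSgn {H : Type*} [Group H] (e : Bool) (M : H) : swSgn e (swSgn e M) = M := by
  cases e
  · exact inv_inv M
  · rfl

theorem map_swSgn {H H' : Type*} [Group H] [Group H'] (f : H →* H') (e : Bool) (M : H) :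
    f (swSgn e M) = swSgn e (f M) := by
  cases e
  · exact map_inv f M
  · rfl

theorem evalI_swSgn {κ : Type} {R : Type*} [CommRing R] [Algebra O R] {n : ℕ} (y : κ → G n R)
    (x : κ) (e : Bool) : evalI y (.var x e : Item O κ) = swSgn e (y x) := by
  cases e <;> rfl

/-- Every letter occurs once with each sign or not at all. -/
def SWGood {κ : Type} (M : Multiset (κ × Bool)) : Prop :=
  M.Nodup ∧ ∀ x e, (x, e) ∈ M → (x, !e) ∈ M

theorem sw_sign {κ : Type} {M : Multiset (κ × Bool)} {x : κ} {e : Bool} (h : (x, e) ∈ M)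
    (h' : (x, !e) ∈ M) (e' : Bool) : (x, e') ∈ M := by
  cases e <;> cases e' <;> assumption

theorem SWGood.erase {κ : Type} {M : Multiset (κ × Bool)} {X : κ} {ε : Bool}
    (h : SWGood ({(X, ε)} + {(X, !ε)} + M)) : SWGood M ∧ ∀ o ∈ M, o.1 ≠ X := by
  obtain ⟨-, h1, h2⟩ := Multiset.nodup_add.1 h.1
  have h3 : ∀ o ∈ M, o.1 ≠ X := by
    rintro ⟨x, e⟩ ho rfl
    exact Multiset.disjoint_left.1 h2 (sw_sign (e := ε) (by simp) (by simp) e) ho
  refine ⟨⟨h1, fun x e hx => ?_⟩, h3⟩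
  have h4 := h.2 x e (Multiset.mem_add.2 (Or.inr hx))
  have h5 : x ≠ X := h3 _ hx
  simpa [h5] using h4

/-- The statement that is proved by induction. -/
def SWP {κ : Type} (m : ℕ) (w : List (Item O κ)) : Prop :=
  ∀ (ζ : Oˣ) (g : ℕ) (T : Fin g × Bool → G m ℂ) (y : κ → G m ℂ),
    cprod T * evalW y w = scal ℂ m ζ →
    ∃ (L : LR O) (T' : Fin g × Bool → G m L.A) (y' : κ → G m L.A),
      (∀ v, gmap L.t (T' v) = T v) ∧ (∀ k, gmap L.t (y' k) = y k) ∧
        cprod T' * evalW y' w = scal L.A m ζ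

section
variable {κ : Type} {m : ℕ}

theorem sw_ev (L : LR O) {y' : κ → G m L.A} {y : κ → G m ℂ} (h : ∀ k, gmap L.t (y' k) = y k)
    (w : List (Item O κ)) : gmap L.t (evalW y' w) = evalW y w :=
  (evalW_map L.θ y' w).trans (evalW_congr fun o _ => h o.1)

theorem swp_nil (hB : PB O m) : SWP m ([] : List (Item O κ)) := by
  intro ζ g T y h
  obtain ⟨L, T', h1, h2⟩ := hB g ζ T (by simpa using h)
  choose y' hy using fun k => L.lift_gl (y k)
  exact ⟨L, T', y', h1, hy, by simpa using h2⟩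

theorem swp_sc (u : Oˣ) {w : List (Item O κ)} (ih : SWP m w) : SWP m (.sc u :: w) := by
  intro ζ g T y h
  rw [evalW_cons, evalI_sc, ← mul_assoc, ← scal_comm, mul_assoc] at h
  obtain ⟨L, T', y', h1, h2, h3⟩ := ih (u⁻¹ * ζ) g T y (by
    rw [scal_mul, scal_inv, ← h, inv_mul_cancel_left])
  refine ⟨L, T', y', h1, h2, ?_⟩
  rw [evalW_cons, evalI_sc, ← mul_assoc, ← scal_comm, mul_assoc, h3, ← scal_mul,
    mul_inv_cancel_left]

theorem swp_conj {X : κ} {ε : Bool} {Q S : List (Item O κ)} (hX : ∀ o ∈ vocc Q, o.1 ≠ X)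
    (hd : ∀ o ∈ vocc Q, ∀ o' ∈ vocc S, o.1 ≠ o'.1) (ih : SWP m (Q ++ S)) :
    SWP m (.var X ε :: (Q ++ .var X (!ε) :: S)) := by
  classical
  intro ζ g T y h
  have key : ∀ (R : Type) [CommRing R] [Algebra O R] (z : κ → G m R) (A : G m R),
      evalW (fun k => if ∃ o ∈ vocc Q, o.1 = k then A * z k * A⁻¹ else z k) Q =
        A * evalW z Q * A⁻¹ ∧
      evalW (fun k => if ∃ o ∈ vocc Q, o.1 = k then A * z k * A⁻¹ else z k) S = evalW z S :=
    fun R _ _ z A => ⟨(evalW_congr fun o ho => if_pos ⟨o, ho, rfl⟩).trans (evalW_conj A z Q),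
      evalW_congr fun o ho => if_neg fun ⟨o', ho', e⟩ => hd o' ho' o ho e⟩
  have hn : ¬ ∃ o ∈ vocc Q, o.1 = X := fun ⟨o, ho, e⟩ => hX o ho e
  obtain ⟨L, T', z, h1, h2, h3⟩ := ih ζ g T (fun k => if ∃ o ∈ vocc Q, o.1 = k then
      swSgn ε (y X) * y k * (swSgn ε (y X))⁻¹ else y k) (by
    rw [evalW_append, (key ℂ y _).1, (key ℂ y _).2, ← h, evalW_cons, evalW_append, evalW_cons,
      evalI_not, evalI_swSgn]
    simp only [mul_assoc])
  have h4 : gmap L.t (z X) = y X := (h2 X).trans (if_neg hn)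
  refine ⟨L, T', fun k => if ∃ o ∈ vocc Q, o.1 = k then
    (swSgn ε (z X))⁻¹ * z k * (swSgn ε (z X))⁻¹⁻¹ else z k, h1, fun k => ?_, ?_⟩
  · have h5 := h2 k
    beta_reduce at h5 ⊢
    by_cases hk : ∃ o ∈ vocc Q, o.1 = k
    · rw [if_pos hk] at h5 ⊢
      rw [map_mul, map_mul, inv_inv, map_inv, map_swSgn, h4, h5]
      group
    · rw [if_neg hk] at h5 ⊢
      exact h5
  · rw [evalW_cons, evalW_append, evalW_cons, evalI_not, evalI_swSgn, (key L.A z _).1,
      (key L.A z _).2, if_neg hn, ← h3, evalW_append]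
    group

theorem sw_handle {H : Type*} [Group H] (A B p q r s : H) :
    A * (p * (B * q) * (A⁻¹ * (r * (B⁻¹ * s)))) =
      comm (A * (r * q)⁻¹) (r * q * p * B * q * (r * q)⁻¹) * (r * q * p * s) := by
  unfold comm
  group

theorem swp_handle {X Y : κ} {ε η : Bool} {P Q R S : List (Item O κ)} (hXY : X ≠ Y)
    (hX : ∀ o ∈ vocc (R ++ Q ++ P ++ S), o.1 ≠ X) (hY : ∀ o ∈ vocc (R ++ Q ++ P ++ S), o.1 ≠ Y)
    (ih : SWP m (R ++ Q ++ P ++ S)) :
    SWP m (.var X ε :: (P ++ .var Y η :: Q ++ .var X (!ε) :: (R ++ .var Y (!η) :: S))) := by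
  classical
  intro ζ g T y h
  simp only [evalW_cons, evalW_append, evalI_not] at h
  rw [evalI_swSgn, evalI_swSgn, sw_handle, ← mul_assoc, ← cprod_snocH] at h
  obtain ⟨L, T', z, h1, h2, h3⟩ := ih ζ (g + 1) _ y (by simpa only [evalW_append] using h)
  have e : T' = snocH (fun v => T' (v.1.castSucc, v.2)) (T' (Fin.last g, false))
      (T' (Fin.last g, true)) := by
    funext ⟨i, e⟩
    refine Fin.lastCases ?_ (fun i => ?_) i
    · rw [snocH_last]
      cases e <;> rfl
    · rw [snocH_castSucc]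
  have ha := h1 (Fin.last g, false)
  have hb := h1 (Fin.last g, true)
  rw [snocH_last] at ha hb
  rw [if_neg Bool.false_ne_true] at ha
  rw [if_pos rfl] at hb
  rw [e, cprod_snocH] at h3
  generalize T' (Fin.last g, false) = a at ha h3
  generalize T' (Fin.last g, true) = b at hb h3
  obtain ⟨z', hz⟩ : ∃ z', z' = Function.update (Function.update z X
      (swSgn ε (a * (evalW z R * evalW z Q)))) Y (swSgn η ((evalW z R * evalW z Q * evalW z P)⁻¹ *
        b * (evalW z R * evalW z Q) * (evalW z Q)⁻¹)) := ⟨_, rfl⟩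
  have z1 : z' X = swSgn ε (a * (evalW z R * evalW z Q)) := by
    rw [hz, Function.update_of_ne hXY, Function.update_self]
  have z2 : z' Y = swSgn η ((evalW z R * evalW z Q * evalW z P)⁻¹ *
      b * (evalW z R * evalW z Q) * (evalW z Q)⁻¹) := by rw [hz, Function.update_self]
  have z3 : ∀ k, k ≠ X → k ≠ Y → z' k = z k := fun k k1 k2 => by
    rw [hz, Function.update_of_ne k2, Function.update_of_ne k1]
  have z4 : ∀ W : List (Item O κ), vocc W ⊆ vocc (R ++ Q ++ P ++ S) → evalW z' W = evalW z W :=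
    fun W hW => evalW_congr fun o ho => z3 _ (hX o (hW ho)) (hY o (hW ho))
  refine ⟨L, fun v => T' (v.1.castSucc, v.2), z', fun v => (h1 _).trans (snocH_castSucc _ _ _ _ _),
    fun k => ?_, ?_⟩
  · by_cases k1 : k = X
    · rw [k1, z1, map_swSgn, map_mul, map_mul, sw_ev L h2, sw_ev L h2, ha, inv_mul_cancel_right,
        swSgn_swSgn]
    · by_cases k2 : k = Y
      · rw [k2, z2, map_swSgn, ← swSgn_swSgn η (y Y)]
        simp only [map_mul, map_inv, sw_ev L h2, hb]
        congr 1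
        group
      · rw [z3 k k1 k2, h2]
  · simp only [evalW_cons, evalW_append, evalI_not] at h3 ⊢
    rw [evalI_swSgn, evalI_swSgn, z1, z2, swSgn_swSgn, swSgn_swSgn,
      z4 P fun o ho => by simp [ho], z4 Q fun o ho => by simp [ho], z4 R fun o ho => by simp [ho],
      z4 S fun o ho => by simp [ho], sw_handle, ← h3, mul_assoc (cprod _)]
    congr 3 <;> group

theorem swp_all (hB : PB O m) : ∀ (N : ℕ) (w : List (Item O κ)), w.length ≤ N →
    SWGood (vocc w) → SWP m w := by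
  intro N
  induction N with
  | zero =>
    intro w hw _
    rw [List.length_eq_zero_iff.1 (Nat.le_zero.1 hw)]
    exact swp_nil hB
  | succ N ih =>
    rintro (_ | ⟨u | ⟨X, ε⟩, w⟩) hw hG
    · exact swp_nil hB
    · exact swp_sc u (ih w (by simpa using hw) (by simpa using hG))
    have h1 : (X, !ε) ∈ vocc w := by simpa using hG.2 X ε (by simp)
    obtain ⟨Q, S, rfl⟩ := List.append_of_mem (mem_vocc.1 h1)
    obtain ⟨hG', hX⟩ := SWGood.erase (X := X) (ε := ε) (M := vocc (Q ++ S)) (by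
      convert hG using 1
      simp only [vocc_var, vocc_append]
      abel)
    by_cases hQ : ∀ x e, (x, e) ∈ vocc Q → (x, !e) ∈ vocc Q
    · refine swp_conj (fun o ho => hX o (by simp [ho])) ?_ (ih _ (by simp at hw ⊢; omega) hG')
      rintro ⟨x, e⟩ ho ⟨x', e'⟩ ho' rfl
      have h2 := hG'.1
      rw [vocc_append] at h2
      exact Multiset.disjoint_left.1 (Multiset.nodup_add.1 h2).2.2
        (sw_sign ho (hQ _ _ ho) e') ho'
    · push Not at hQ
      obtain ⟨Y, η, y1, y2⟩ := hQ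
      have y3 : (Y, !η) ∈ vocc S := by
        simpa [y2] using hG'.2 Y η (by simp [y1])
      have y4 : X ≠ Y := (hX (Y, η) (by simp [y1])).symm
      obtain ⟨P, Q', rfl⟩ := List.append_of_mem (mem_vocc.1 y1)
      obtain ⟨R, S', rfl⟩ := List.append_of_mem (mem_vocc.1 y3)
      obtain ⟨hG'', hY⟩ := SWGood.erase (X := Y) (ε := η) (M := vocc (R ++ Q' ++ P ++ S')) (by
        convert hG' using 1
        simp only [vocc_var, vocc_append]
        abel)
      refine swp_handle y4 (fun o ho => hX o ?_) hY (ih _ (by simp at hw ⊢; omega) hG'')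
      simp only [vocc_var, vocc_append, Multiset.mem_add] at ho ⊢
      tauto

end

theorem sw {κ : Type} [DecidableEq κ] {m : ℕ} (hB : PB O m) (w : List (Item O κ))
    (hnd : (vocc w).Nodup) (hp : ∀ x e, (x, e) ∈ vocc w → (x, !e) ∈ vocc w) {g : ℕ}
    (T : Fin g × Bool → G m ℂ) (y : κ → G m ℂ) (h : cprod T * evalW y w = 1) :
    ∃ (L : LR O) (T' : Fin g × Bool → G m L.A) (y' : κ → G m L.A),
      (∀ v, gmap L.t (T' v) = T v) ∧ (∀ k, gmap L.t (y' k) = y k) ∧
        cprod T' * evalW y' w = 1 := by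
  obtain ⟨L, T', y', h1, h2, h3⟩ :=
    swp_all hB _ w le_rfl ⟨hnd, hp⟩ 1 g T y (h.trans scal_one.symm)
  exact ⟨L, T', y', h1, h2, h3.trans scal_one⟩

end Crest.Agent.R3

end
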