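import Crest.Agent.R3.Loc
import Crest.Agent.R3.SW
import Crest.Agent.R3.MvIns

set_option autoImplicit false

noncomputable section

namespace Crest.Agent.R3

open Matrix Filter Topology

/-! Closed words of top rank. -/

variable {O : Subring ℂ} {ρ : ℕ}

theorem cl_mem_wocc (hρ : 0 < ρ) {w : Word O} {φ : Bool × ℕ} {e : Bool} :
    (letterVar ρ φ, e) ∈ wocc ρ w ↔ (φ, e) ∈ vocc w := by
  constructor
  · intro h
    obtain ⟨⟨ψ, e'⟩, h1, h2⟩ := Multiset.mem_map.1 h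
    obtain ⟨h3, rfl⟩ := Prod.mk.inj h2
    rw [← letterVar_inj hρ h3]
    exact h1
  · exact fun h => Multiset.mem_map_of_mem (fun o : (Bool × ℕ) × Bool => (letterVar ρ o.1, o.2)) h

theorem cl_exists_val {R : Type} [CommRing R] (hρ : 0 < ρ) (y : Bool × ℕ → G ρ R) :
    ∃ u : Val R, ∀ φ, u (letterVar ρ φ) = ofL ρ φ (y φ) := by
  have h : ∀ v : Var, ∃ e : Ex R v.a v.b v.n, ∀ φ, letterVar ρ φ = v → HEq e (ofL ρ φ (y φ)) := by
    intro v
    by_cases hv : ∃ φ, letterVar ρ φ = v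
    · obtain ⟨φ, rfl⟩ := hv
      refine ⟨ofL ρ φ (y φ), fun ψ hψ => ?_⟩
      rw [letterVar_inj hρ hψ]
    · exact ⟨Ex.std R v.h, fun φ hφ => absurd ⟨φ, hφ⟩ hv⟩
  choose u hu using h
  exact ⟨u, fun φ => eq_of_heq (hu _ φ rfl)⟩

/-- A closed word in which every letter occurs with both signs lifts. -/
theorem cl_surface (hρ : 0 < ρ) (hB : PB O ρ) {w : Word O} (hnd : (wocc ρ w).Nodup)
    (hp : ∀ φ e, (φ, e) ∈ vocc w → (φ, !e) ∈ vocc w) {x : Val ℂ} (hx : ev ρ x w = 1) :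
    Lift {Vx.closed ρ w} x := by
  obtain ⟨L, T', y', -, h2, h3⟩ := sw hB w (Multiset.Nodup.of_map _ hnd) hp (g := 0)
    (fun v => v.1.elim0) (letters ρ x) ((one_mul _).trans hx)
  obtain ⟨u, hu⟩ := cl_exists_val hρ y'
  refine lift_of_agree L u ((sat_singleton _ _).2 ?_) fun o ho => ?_
  · exact (evalW_congr fun o _ => letters_of_eq_ofL o.1 _ (hu o.1)).trans
      ((one_mul _).symm.trans h3)
  · rw [occ_singleton] at ho
    obtain ⟨⟨φ, e⟩, -, rfl⟩ := Multiset.mem_map.1 ho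
    change ((u (letterVar ρ φ)).map L.t).Sim (x (letterVar ρ φ))
    rw [hu]
    exact ofL_sim _ x φ _ (h2 φ)

theorem cl_ev {R : Type} [CommRing R] [Algebra O R] {u : Val R} {w1 w2 : Word O} {φ : Bool × ℕ}
    {ε : Bool} (h : ev ρ u (w1 ++ .var φ ε :: w2) = 1) :
    ev ρ u ([.var φ (!ε)] : Word O) = ev ρ u (w2 ++ w1) := by
  rw [ev_append, ev_cons] at h
  rw [ev_cons, ev_nil, evalI_not, ev_append, mul_one, inv_eq_iff_mul_eq_one, ← mul_assoc,
    mul_eq_one_comm, h]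

/-- Solving a closed word for a letter that occurs once in it. -/
theorem cl_solve {w1 w2 : Word O} {φ : Bool × ℕ} {ε : Bool} {Old New rest : Sys O} {x : Val ℂ}
    (hg : ∀ e, (letterVar ρ φ, e) ∉ wocc ρ w1 + wocc ρ w2 + occ New + occ rest)
    (hx : ev ρ x (w1 ++ .var φ ε :: w2) = 1)
    (hs : ∀ (L : LR O) (u : Val L.A), ev ρ u ([.var φ (!ε)] : Word O) = ev ρ u (w2 ++ w1) →
      Sat u New → Sat u Old)
    (h : Lift (New + rest) x) :
    Lift ((.closed ρ (w1 ++ .var φ ε :: w2) ::ₘ Old) + rest) x := by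
  refine lift_moveL ρ φ (fun e he => hg e (by simp [he])) (fun _ _ _ => rfl)
    (fun L u hu hN => ⟨swSgn ε ((ev ρ u w1)⁻¹ * (ev ρ u w2)⁻¹), ?_, fun u' h1 h2 => ?_⟩) h
  · rw [ev_append, ev_cons, evalI_swSgn] at hx
    rw [map_swSgn, map_mul, map_inv, map_inv, hu.ev, hu.ev, ← swSgn_swSgn ε (letters ρ x φ)]
    congr 1
    rw [inv_mul_eq_iff_eq_mul, inv_eq_iff_mul_eq_one, mul_eq_one_comm, mul_assoc, hx]
  · have ag : ∀ m : Multiset (Var × Bool), m ⊆ wocc ρ w1 + wocc ρ w2 + occ New + occ rest →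
        Agree u u' m := fun m hm => Agree.of_eq fun o ho =>
      (h1 _ fun e => hg o.2 (e ▸ hm ho)).symm
    have h3 : ev ρ u' (w1 ++ .var φ ε :: w2) = 1 := by
      rw [ev_append, ev_cons, evalI_swSgn, h2, swSgn_swSgn,
        ← ev_congr (ag (wocc ρ w1) fun o ho => by simp [ho]),
        ← ev_congr (ag (wocc ρ w2) fun o ho => by simp [ho])]
      group
    exact (sat_cons _ _ _).2
      ⟨h3, hs L u' (cl_ev h3) (hN.congr (ag _ fun o ho => by simp [ho]))⟩

/-- A vertex of rank `ρ` with a hole for a word in rank `ρ`. -/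
structure ClHole (ρ : ℕ) (F : Word O → Vx O) (B : Multiset (Var × Bool)) : Prop where
  occ : ∀ z, (F z).occ = wocc ρ z + B
  rank : ∀ z, (F z).rank = ρ
  ok : ∀ z z', (F z).ok → (F z').ok
  top : ∀ z z', ((F z).proper ∨ ∃ w, F z = .closed ρ w) → (F z').proper ∨ ∃ w, F z' = .closed ρ w
  sat : ∀ (R : Type) [CommRing R] [Algebra O R] (u : Val R) (z z' : Word O),
    ev ρ u z = ev ρ u z' → (F z).Sat u → (F z').Sat u

theorem cl_hole {S : Sys O} (hT : Top2 ρ S) (hρ : 0 < ρ) {φ : Bool × ℕ} {ε : Bool}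
    (h : (letterVar ρ φ, ε) ∈ occ S) :
    ∃ (F : Word O → Vx O) (B : Multiset (Var × Bool)), ClHole ρ F B ∧ F [.var φ ε] ∈ S := by
  rcases loc_letter2 hT hρ φ ε h with ⟨Γ, h1, rfl, h2⟩ | ⟨w, h1, h2⟩
  · obtain ⟨n11, n12, n13, n21, n22, n23, n31, n32, n33, r1, r2, r3, c1, ⟨d, k, m, s, q⟩, c3⟩ := Γ
    obtain ⟨m1, m2, rfl⟩ := List.append_of_mem h2
    have hp : (Vx.grid ⟨n11, n12, n13, n21, n22, n23, n31, n32, n33, r1, r2, r3, c1,
        ⟨d, k, m1 ++ .var φ ε :: m2, s, q⟩, c3⟩).proper :=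
      ((hT _ h1).2 rfl).resolve_right fun ⟨_, e⟩ => by cases e
    refine ⟨fun z => .grid ⟨n11, n12, n13, n21, n22, n23, n31, n32, n33, r1, r2, r3, c1,
      ⟨d, k, m1 ++ (z ++ m2), s, q⟩, c3⟩, Grid.occ ⟨n11, n12, n13, n21, n22, n23, n31, n32, n33,
        r1, r2, r3, c1, ⟨d, k, m1 ++ m2, s, q⟩, c3⟩, ⟨fun z => ?_, fun z => rfl,
      fun z z' hz => ⟨hz.r1, hz.r2, hz.r3, hz.c1, hz.c2, hz.c3⟩, fun z z' _ => Or.inl hp,
      fun R _ _ u z z' hz hs => ?_⟩, h1⟩
    · change _ + _ + _ + _ + (_ + wocc _ (m1 ++ (z ++ m2)) + _ + _) + _ =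
        _ + (_ + _ + _ + _ + (_ + wocc _ (m1 ++ m2) + _ + _) + _)
      rw [wocc_append, wocc_append, wocc_append]
      abel
    · change Grid0 _ _ _ _ (Ex.twist _ (ev _ u (m1 ++ (z ++ m2))) _ _) _ at hs
      change Grid0 _ _ _ _ (Ex.twist _ (ev _ u (m1 ++ (z' ++ m2))) _ _) _
      rw [ev_append, ev_append] at hs ⊢
      rw [← hz]
      exact hs
  · obtain ⟨m1, m2, rfl⟩ := List.append_of_mem h2
    refine ⟨fun z => .closed ρ (m1 ++ (z ++ m2)), wocc ρ (m1 ++ m2), ⟨fun z => ?_, fun z => rfl,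
      fun _ _ _ => trivial, fun _ _ _ => Or.inr ⟨_, rfl⟩, fun R _ _ u z z' hz hs => ?_⟩, h1⟩
    · change wocc _ (m1 ++ (z ++ m2)) = _
      rw [wocc_append, wocc_append, wocc_append]
      abel
    · change ev _ u (m1 ++ (z ++ m2)) = 1 at hs
      change ev _ u (m1 ++ (z' ++ m2)) = 1
      rw [ev_append, ev_append] at hs ⊢
      rw [← hz]
      exact hs

theorem cl_top2 (hρ : 0 < ρ) (hA : PA' O ρ) (hB : PB O ρ) (x : Val ℂ) :
    ∀ (N : ℕ) (S : Sys O), Multiset.card S ≤ N → WF S → Top2 ρ S → Sat x S → Lift S x := by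
  intro N
  induction N with
  | zero =>
    intro S hN hW hT hx
    refine hA S hW (fun v hv => ?_) x hx
    rw [Multiset.card_eq_zero.1 (Nat.le_zero.1 hN)] at hv
    cases hv
  | succ N ih =>
    intro S hN hW hT hx
    by_cases hc : ∃ w, Vx.closed ρ w ∈ S
    swap
    · exact hA S hW (fun v hv => ⟨(hT v hv).1, fun e =>
        ((hT v hv).2 e).resolve_right fun ⟨w, hw⟩ => hc ⟨w, hw ▸ hv⟩⟩) x hx
    obtain ⟨w, hw⟩ := hc
    obtain ⟨rest, rfl⟩ := Multiset.exists_cons_of_mem hw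
    have hnd : (wocc ρ w + occ rest).Nodup := by
      have := hW.nodup
      rwa [occ_cons] at this
    obtain ⟨n1, n2, n3⟩ := Multiset.nodup_add.1 hnd
    obtain ⟨x1, x2⟩ := (sat_cons _ _ _).1 hx
    have hT' : Top2 ρ rest := fun v hv => hT v (Multiset.mem_cons_of_mem hv)
    have hok : ∀ v ∈ rest, v.ok := fun v hv => hW.ok v (Multiset.mem_cons_of_mem hv)
    have hN' : Multiset.card rest ≤ N := by
      rw [Multiset.card_cons] at hN
      omega
    have hL := ih rest hN' ⟨hok, n2⟩ hT' x2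
    by_cases hp : ∀ φ e, (φ, e) ∈ vocc w → (φ, !e) ∈ vocc w
    · rw [← Multiset.singleton_add]
      refine Lift.add (fun o ho o' ho' e => ?_) (cl_surface hρ hB n1 hp x1) hL
      rw [occ_singleton] at ho
      obtain ⟨⟨φ, ε⟩, h1, rfl⟩ := Multiset.mem_map.1 ho
      refine Multiset.disjoint_left.1 n3 ((cl_mem_wocc hρ).2 (sw_sign h1 (hp _ _ h1) o'.2)) ?_
      exact (show letterVar ρ φ = o'.1 from e) ▸ ho'
    push Not at hp
    obtain ⟨φ, ε, p1, p2⟩ := hp
    obtain ⟨w1, w2, rfl⟩ := List.append_of_mem (mem_vocc.1 p1)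
    have e0 : wocc ρ (w1 ++ .var φ ε :: w2) + occ rest =
        {(letterVar ρ φ, ε)} + (wocc ρ w1 + wocc ρ w2 + occ rest) := by
      rw [wocc_append, wocc_var]
      abel
    by_cases hq : (letterVar ρ φ, !ε) ∈ occ rest
    · obtain ⟨F, B, hF, hm⟩ := cl_hole hT' hρ hq
      obtain ⟨rest', rfl⟩ := Multiset.exists_cons_of_mem hm
      obtain ⟨x3, x4⟩ := (sat_cons _ _ _).1 x2
      have e1 : wocc ρ (w1 ++ .var φ ε :: w2) + occ (F [.var φ (!ε)] ::ₘ rest') =
          {(letterVar ρ φ, ε)} + {(letterVar ρ φ, !ε)} + occ (F (w2 ++ w1) ::ₘ rest') := by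
        rw [occ_cons, occ_cons, hF.occ, hF.occ, wocc_append, wocc_append, wocc_var, wocc_var,
          wocc_nil]
        abel
      rw [e1] at hnd
      obtain ⟨-, n4, n5⟩ := Multiset.nodup_add.1 hnd
      have hL' := ih (F (w2 ++ w1) ::ₘ rest') (by simpa using hN') ⟨fun v hv => ?_, n4⟩
        (fun v hv => ?_) ((sat_cons _ _ _).2 ⟨hF.sat _ _ _ _ (cl_ev x1) x3, x4⟩)
      · rw [← Multiset.singleton_add (F _), ← Multiset.cons_add]
        refine cl_solve (New := {F (w2 ++ w1)}) (fun e he => ?_) x1 (fun L u h1 h2 => ?_) hL'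
        · refine Multiset.disjoint_left.1 n5
            (sw_sign (x := letterVar ρ φ) (e := ε) (by simp) (by simp) e) ?_
          rw [occ_singleton] at he
          rw [occ_cons]
          simp only [hF.occ, wocc_append, Multiset.mem_add] at he ⊢
          tauto
        · rw [sat_singleton] at h2 ⊢
          exact hF.sat _ _ _ _ h1.symm h2
      · rcases Multiset.mem_cons.1 hv with rfl | hv
        · exact hF.ok _ _ (hok _ hm)
        · exact hok v (Multiset.mem_cons_of_mem hv)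
      · rcases Multiset.mem_cons.1 hv with rfl | hv
        · exact ⟨(hF.rank _).le, fun _ => hF.top _ _ ((hT' _ hm).2 (hF.rank _))⟩
        · exact hT' v (Multiset.mem_cons_of_mem hv)
    · rw [e0] at hnd
      refine cl_solve (Old := 0) (New := 0) (fun e he => ?_) x1 (fun L u _ h => h)
        ((zero_add rest).symm ▸ hL)
      rw [occ_zero, add_zero] at he
      by_cases h : e = ε
      · exact Multiset.disjoint_left.1 (Multiset.nodup_add.1 hnd).2.2 (by simp [h]) he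
      · have h' : e = !ε := Bool.eq_not_of_ne h
        subst h'
        rcases Multiset.mem_add.1 he with he | he
        · refine p2 ((cl_mem_wocc hρ).1 ?_)
          rw [wocc_append, wocc_var]
          simp only [Multiset.mem_add] at he ⊢
          tauto
        · exact hq he

/-- Systems whose top vertices are proper grids or closed words lift. -/
theorem pa_top2 (hρ : 0 < ρ) (hA : PA' O ρ) (hB : PB O ρ) (S : Sys O) (hW : WF S)
    (hT : Top2 ρ S) (x : Val ℂ) (hx : Sat x S) : Lift S x :=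
  cl_top2 hρ hA hB x _ S le_rfl hW hT hx

theorem cl_norm (v : Vx O) : ∃ v' : Vx O, v.ok → v'.rank = v.rank ∧ v'.ok ∧ v'.occ ≤ v.occ ∧
    (v'.proper ∨ ∃ w, v' = .closed v.rank w) ∧
      ∀ (R : Type) [CommRing R] [Algebra O R] (u : Val R), v'.Sat u ↔ v.Sat u := by
  by_cases hp : v.proper
  · exact ⟨v, fun h => ⟨rfl, h, le_rfl, Or.inl hp, fun _ _ _ _ => Iff.rfl⟩⟩
  by_cases hok : v.ok
  · cases v with
    | grid Γ =>
      obtain ⟨v', h⟩ := norm_step Γ hok hp
      exact ⟨v', fun _ => h⟩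
    | closed n w =>
      exact ⟨_, fun h => ⟨rfl, h, le_rfl, Or.inr ⟨w, rfl⟩, fun _ _ _ _ => Iff.rfl⟩⟩
  · exact ⟨v, fun h => absurd h hok⟩

theorem cl_occ_map (f : Vx O → Vx O) (S : Sys O) (h : ∀ v ∈ S, (f v).occ ≤ v.occ) :
    occ (S.map f) ≤ occ S := by
  induction S using Multiset.induction_on with
  | empty => exact le_rfl
  | cons v S ih =>
    rw [Multiset.map_cons, occ_cons, occ_cons]
    exact add_le_add (h v (Multiset.mem_cons_self _ _))
      (ih fun v hv => h v (Multiset.mem_cons_of_mem hv))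

theorem pa_of (hρ : 0 < ρ) (hA : PA' O ρ) (hB : PB O ρ) : PA O ρ := by
  intro S hW hr x hx
  choose f hf using cl_norm (O := O)
  have hf' := fun v hv => hf v (hW.ok v hv)
  have key : Lift (S.map f) x := by
    refine pa_top2 hρ hA hB (S.map f) ⟨fun v' hv' => ?_, Multiset.nodup_of_le
      (cl_occ_map f S fun v hv => (hf' v hv).2.2.1) hW.nodup⟩ (fun v' hv' => ?_) x fun v' hv' => ?_
    all_goals obtain ⟨v, hv, rfl⟩ := Multiset.mem_map.1 hv'
    · exact (hf' v hv).2.1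
    · rw [(hf' v hv).1]
      exact ⟨hr v hv, fun e => e ▸ (hf' v hv).2.2.2.1⟩
    · exact ((hf' v hv).2.2.2.2 _ x).2 (hx v hv)
  obtain ⟨L, u, h1, h2⟩ := key
  exact ⟨L, u, h1, fun v hv => ((hf' v hv).2.2.2.2 _ u).1 (h2 _ (Multiset.mem_map_of_mem f hv))⟩

end Crest.Agent.R3

end
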