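import Crest.Agent.R3.Bimap

set_option autoImplicit false

noncomputable section

namespace Crest.Agent.R3

open Matrix Filter Topology

/-! Three subspaces, two of them nested, generate a distributive lattice. -/

namespace CubeEx

section Proj
variable {E : Type*} [AddCommGroup E] [Module ℂ E]

theorem ext_compl {A V W : Submodule ℂ E} (hA : A ≤ V) (h : Disjoint A W) :
    ∃ V' : Submodule ℂ E, A ≤ V' ∧ V' ≤ V ∧ Disjoint V' W ∧ V ≤ V ⊓ W ⊔ V' := by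
  obtain ⟨C, hC, hc⟩ := (h.mono_right (inf_le_right : V ⊓ W ≤ W)).exists_isCompl
  refine ⟨C ⊓ V, le_inf hC hA, inf_le_right, ?_, ?_⟩
  · rw [disjoint_iff, inf_assoc]
    exact hc.inf_eq_bot
  · rw [← sup_inf_assoc_of_le _ (inf_le_left : V ⊓ W ≤ V), hc.symm.sup_eq_top, top_inf_eq]

theorem exists_proj (U V W : Submodule ℂ E) (h : U ≤ V) : ∃ R : Module.End ℂ E,
    LinearMap.IsProj W R ∧ (∀ x ∈ U, R x ∈ U) ∧ ∀ x ∈ V, R x ∈ V := by
  obtain ⟨U', -, h1, h2, h3⟩ := ext_compl (A := ⊥) (V := U) (W := W) bot_le disjoint_bot_left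
  obtain ⟨V', k0, -, k2, k3⟩ := ext_compl (h1.trans h) h2
  obtain ⟨C, hC, hc⟩ := k2.exists_isCompl
  have key : ∀ X X' : Submodule ℂ E, X ≤ X ⊓ W ⊔ X' → X' ≤ C →
      ∀ x ∈ X, W.projection C hc.symm x ∈ X := by
    intro X X' a1 a2 x hx
    obtain ⟨y, hy, z, hz, rfl⟩ := Submodule.mem_sup.1 (a1 hx)
    rw [map_add, Submodule.projection_apply_of_mem_left hc.symm hy.2,
      (Submodule.projection_apply_eq_zero_iff hc.symm).2 (a2 hz), add_zero]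
    exact hy.1
  exact ⟨W.projection C hc.symm, ⟨fun x => Submodule.projection_apply_mem hc.symm x,
    fun x hx => Submodule.projection_apply_of_mem_left hc.symm hx⟩,
    key U U' h3 (k0.trans hC), key V V' k3 hC⟩

theorem avg {W V : Submodule ℂ E} {R X : Module.End ℂ E} (hR : LinearMap.IsProj W R)
    (hX : LinearMap.IsProj V X) (h : ∀ x ∈ V, R x ∈ V) :
    ∃ Y : Module.End ℂ E, LinearMap.IsProj V Y ∧ Y * R = R * Y := by
  have h1 : R * R = R := hR.isIdempotentElem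
  refine ⟨R * X * R + (1 - R) * X * (1 - R), ⟨fun x => ?_, fun x hx => ?_⟩, ?_⟩
  · simp only [LinearMap.add_apply, Module.End.mul_apply, LinearMap.sub_apply, Module.End.one_apply]
    exact V.add_mem (h _ (hX.map_mem _)) (V.sub_mem (hX.map_mem _) (h _ (hX.map_mem _)))
  · simp only [LinearMap.add_apply, Module.End.mul_apply, LinearMap.sub_apply, Module.End.one_apply]
    rw [hX.map_id _ (h x hx), hX.map_id _ (V.sub_mem hx (h x hx)), map_sub,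
      hR.map_id _ (hR.map_mem x)]
    abel
  · have a1 : (1 - R) * R = 0 := by rw [sub_mul, one_mul, h1, sub_self]
    have a2 : R * (1 - R) = 0 := by rw [mul_sub, mul_one, h1, sub_self]
    rw [add_mul, mul_add, mul_assoc _ R R, mul_assoc _ (1 - R) R, h1, a1, mul_zero, ← mul_assoc,
      ← mul_assoc, ← mul_assoc, ← mul_assoc, h1, a2, zero_mul, zero_mul]

theorem exists_three (U V W : Submodule ℂ E) (h : U ≤ V) : ∃ P Q R : Module.End ℂ E,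
    LinearMap.IsProj U P ∧ LinearMap.IsProj V Q ∧ LinearMap.IsProj W R ∧ P * Q = Q * P ∧
      P * R = R * P ∧ Q * R = R * Q := by
  obtain ⟨R, hR, hU, hV⟩ := exists_proj U V W h
  obtain ⟨P₀, hP₀, -⟩ := exists_proj ⊥ ⊥ U le_rfl
  obtain ⟨Q₀, hQ₀, -⟩ := exists_proj ⊥ ⊥ V le_rfl
  obtain ⟨P, hP, hPR⟩ := avg hR hP₀ hU
  obtain ⟨Q, hQ, hQR⟩ := avg hR hQ₀ hV
  refine ⟨P * Q, Q, R, ⟨fun x => hP.map_mem _, fun x hx => ?_⟩, hQ, hR, ?_, ?_, hQR⟩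
  · rw [Module.End.mul_apply, hQ.map_id x (h hx), hP.map_id x hx]
  · ext1 x
    simp only [Module.End.mul_apply]
    rw [hQ.map_id _ (hQ.map_mem x), hQ.map_id _ (h (hP.map_mem _))]
  · rw [mul_assoc, hQR, ← mul_assoc, hPR, mul_assoc]

end Proj

end CubeEx

/-- Commuting idempotents onto three subspaces, two of them nested. -/
theorem exists_comm_idem {n : ℕ} (U V W : Submodule ℂ (Fin n → ℂ)) (h : U ≤ V) :
    ∃ P Q R : Mat ℂ n n, P * P = P ∧ Q * Q = Q ∧ R * R = R ∧ P * Q = Q * P ∧ P * R = R * P ∧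
      Q * R = R * Q ∧ (∀ x, x ∈ U ↔ P *ᵥ x = x) ∧ (∀ x, x ∈ V ↔ Q *ᵥ x = x) ∧
      ∀ x, x ∈ W ↔ R *ᵥ x = x := by
  obtain ⟨P, Q, R, hP, hQ, hR, h1, h2, h3⟩ := CubeEx.exists_three U V W h
  obtain ⟨P, rfl⟩ := (Matrix.toLinAlgEquiv' (R := ℂ) (n := Fin n)).surjective P
  obtain ⟨Q, rfl⟩ := (Matrix.toLinAlgEquiv' (R := ℂ) (n := Fin n)).surjective Q
  obtain ⟨R, rfl⟩ := (Matrix.toLinAlgEquiv' (R := ℂ) (n := Fin n)).surjective R
  have inj : ∀ A B C D : Mat ℂ n n, Matrix.toLinAlgEquiv' A * Matrix.toLinAlgEquiv' B =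
      Matrix.toLinAlgEquiv' C * Matrix.toLinAlgEquiv' D → A * B = C * D := fun A B C D e =>
    (Matrix.toLinAlgEquiv' (R := ℂ) (n := Fin n)).injective (by rw [map_mul, map_mul, e])
  have idem : ∀ (A : Mat ℂ n n) (X : Submodule ℂ (Fin n → ℂ)),
      LinearMap.IsProj X (Matrix.toLinAlgEquiv' A) → A * A = A := fun A X e =>
    (Matrix.toLinAlgEquiv' (R := ℂ) (n := Fin n)).injective
      (by rw [map_mul]; exact e.isIdempotentElem)
  exact ⟨P, Q, R, idem _ _ hP, idem _ _ hQ, idem _ _ hR, inj _ _ _ _ h1, inj _ _ _ _ h2,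
    inj _ _ _ _ h3, fun x => hP.mem_iff_map_id, fun x => hQ.mem_iff_map_id,
    fun x => hR.mem_iff_map_id⟩

namespace CubeEx

/-- A chart of a direct summand of `ℂ^ρ`. -/
structure Ch (ρ n : ℕ) where
  ε : Mat ℂ ρ n
  π : Mat ℂ n ρ
  h : π * ε = 1

variable {ρ n a b : ℕ}

/-- The idempotent of a chart. -/
def Ch.P (c : Ch ρ n) : Mat ℂ ρ ρ := c.ε * c.π

theorem Ch.Pε (c : Ch ρ n) : c.P * c.ε = c.ε := by rw [Ch.P, Matrix.mul_assoc, c.h, Matrix.mul_one]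
theorem Ch.πP (c : Ch ρ n) : c.π * c.P = c.π := by rw [Ch.P, ← Matrix.mul_assoc, c.h, Matrix.one_mul]
theorem Ch.PP (c : Ch ρ n) : c.P * c.P = c.P := by
  conv_lhs => rw [Ch.P.eq_1 c, ← Matrix.mul_assoc]
  exact congrArg (· * c.π) c.Pε

theorem Ch.ε_cancel (c : Ch ρ n) {k : ℕ} {X Y : Mat ℂ n k} (h : c.ε * X = c.ε * Y) : X = Y := by
  calc X = c.π * (c.ε * X) := by rw [← Matrix.mul_assoc, c.h, Matrix.one_mul]
    _ = Y := by rw [h, ← Matrix.mul_assoc, c.h, Matrix.one_mul]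

theorem Ch.π_cancel (c : Ch ρ n) {k : ℕ} {X Y : Mat ℂ k n} (h : X * c.π = Y * c.π) : X = Y := by
  calc X = X * c.π * c.ε := by rw [Matrix.mul_assoc, c.h, Matrix.mul_one]
    _ = Y := by rw [h, Matrix.mul_assoc, c.h, Matrix.mul_one]

/-- `π_c X ε_d` only depends on `P_c X P_d`. -/
theorem Ch.sand {k : ℕ} (c : Ch ρ n) (d : Ch ρ k) (X : Mat ℂ ρ ρ) :
    c.π * X * d.ε = c.π * (c.P * X * d.P) * d.ε := by
  conv_lhs => rw [← c.πP, ← d.Pε]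
  simp only [Matrix.mul_assoc]

theorem Ch.two {k m : ℕ} (c : Ch ρ n) (d : Ch ρ k) (e : Ch ρ m) :
    c.π * e.ε * (e.π * d.ε) = c.π * (c.P * e.P * d.P) * d.ε := by
  rw [← c.sand d e.P, Ch.P]
  simp only [Matrix.mul_assoc]

/-- The identity chart. -/
def Ch.id (ρ : ℕ) : Ch ρ ρ := ⟨1, 1, Matrix.mul_one _⟩

theorem Ch.id_P : (Ch.id ρ).P = 1 := Matrix.mul_one _

theorem exists_ch {P : Mat ℂ ρ ρ} (hP : P * P = P) : ∃ (n : ℕ) (c : Ch ρ n), c.P = P := by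
  obtain ⟨_, c, _, e, e', h⟩ := exists_rank_fac P
  refine ⟨c, ⟨e'.i, e.p, ?_⟩, h.symm⟩
  refine e'.i_cancel (e.p_cancel ?_)
  rw [Matrix.mul_one, ← h, ← Matrix.mul_assoc, ← h, Matrix.mul_assoc, ← h, hP]

/-- `M = S ⊕ T` for idempotents. -/
structure Tri (S M T : Mat ℂ ρ ρ) : Prop where
  add : S + T = M
  st : S * T = 0
  ts : T * S = 0

/-- A line in standard position with respect to three charts. -/
structure Std (l : Ex ℂ a b n) (s : Ch ρ a) (m : Ch ρ n) (q : Ch ρ b) : Prop where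
  i : l.i = m.π * s.ε
  p : l.p = q.π * m.ε
  tri : Tri s.P m.P q.P

section Tri
variable {s : Ch ρ a} {m : Ch ρ n} {q : Ch ρ b}

theorem Tri.ms (h : Tri s.P m.P q.P) : m.P * s.P = s.P := by
  rw [← h.add, Matrix.add_mul, s.PP, h.ts, add_zero]
theorem Tri.sm (h : Tri s.P m.P q.P) : s.P * m.P = s.P := by
  rw [← h.add, Matrix.mul_add, s.PP, h.st, add_zero]
theorem Tri.mq (h : Tri s.P m.P q.P) : m.P * q.P = q.P := by
  rw [← h.add, Matrix.add_mul, q.PP, h.st, zero_add]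
theorem Tri.qm (h : Tri s.P m.P q.P) : q.P * m.P = q.P := by
  rw [← h.add, Matrix.mul_add, q.PP, h.ts, zero_add]

theorem exists_std (h : Tri s.P m.P q.P) : ∃ l : Ex ℂ a b n, Std l s m q := by
  refine ⟨⟨m.π * s.ε, q.π * m.ε, s.π * m.ε, m.π * q.ε, ?_, ?_, ?_, ?_, ?_⟩, rfl, rfl, h⟩
  · rw [Ch.two, h.sm, s.PP, s.πP, s.h]
  · rw [Ch.two, h.qm, q.PP, q.πP, q.h]
  · rw [Ch.two, h.qm, h.ts, Matrix.mul_zero, Matrix.zero_mul]
  · rw [Ch.two, h.sm, h.st, Matrix.mul_zero, Matrix.zero_mul]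
  · rw [Ch.two, Ch.two, h.ms, h.sm, h.mq, h.qm, ← Matrix.add_mul, ← Matrix.mul_add, h.add, m.πP,
      m.h]

end Tri

section Grid
variable {n11 n12 n13 n21 n22 n23 n31 n32 n33 : ℕ}
  {r1 : Ex ℂ n11 n13 n12} {r2 : Ex ℂ n21 n23 n22} {r3 : Ex ℂ n31 n33 n32}
  {c1 : Ex ℂ n11 n31 n21} {c2 : Ex ℂ n12 n32 n22} {c3 : Ex ℂ n13 n33 n23}

theorem cross {x11 : Ch ρ n11} {x12 : Ch ρ n12} {x13 : Ch ρ n13} {x21 : Ch ρ n21} {x22 : Ch ρ n22}
    {x23 : Ch ρ n23} {x31 : Ch ρ n31} {x33 : Ch ρ n33}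
    (h1 : Tri x11.P x12.P x13.P) (h2 : Tri x21.P x22.P x23.P) (k1 : Tri x11.P x21.P x31.P)
    (_k3 : Tri x13.P x23.P x33.P) : x23.P * x22.P * x12.P = x23.P * x13.P * x12.P := by
  have : x23.P * x11.P = 0 := by rw [← k1.ms, ← Matrix.mul_assoc, h2.ts, Matrix.zero_mul]
  rw [h2.qm, Matrix.mul_assoc, h1.qm, ← h1.add, Matrix.mul_add, this, zero_add]

theorem grid_of_std {x11 : Ch ρ n11} {x12 : Ch ρ n12} {x13 : Ch ρ n13} {x21 : Ch ρ n21}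
    {x22 : Ch ρ n22} {x23 : Ch ρ n23} {x31 : Ch ρ n31} {x32 : Ch ρ n32} {x33 : Ch ρ n33}
    (h1 : Std r1 x11 x12 x13) (h2 : Std r2 x21 x22 x23) (h3 : Std r3 x31 x32 x33)
    (k1 : Std c1 x11 x21 x31) (k2 : Std c2 x12 x22 x32) (k3 : Std c3 x13 x23 x33) :
    Grid0 r1 r2 r3 c1 c2 c3 := by
  refine ⟨?_, ?_, ?_, ?_⟩
  · rw [k2.i, h1.i, h2.i, k1.i, Ch.two, Ch.two, Matrix.mul_assoc x22.P, Matrix.mul_assoc x22.P,
      h1.tri.ms, k1.tri.ms]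
  · rw [h2.p, k2.i, k3.i, h1.p, Ch.two, Ch.two, cross h1.tri h2.tri k1.tri k3.tri]
  · rw [k2.p, h2.i, h3.i, k1.p, Ch.two, Ch.two, cross k1.tri k2.tri h1.tri h3.tri]
  · rw [k3.p, h2.p, h3.p, k2.p, Ch.two, Ch.two, k3.tri.qm, h3.tri.qm]

end Grid

theorem tri_of {X Q : Mat ℂ ρ ρ} (hQ : Q * Q = Q) (hc : Q * X = X * Q) :
    Tri (X * Q) X (X * (1 - Q)) := by
  have a1 : (1 - Q) * Q = 0 := by rw [sub_mul, one_mul, hQ, sub_self]
  have a2 : Q * (1 - Q) = 0 := by rw [mul_sub, mul_one, hQ, sub_self]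
  have a3 : (1 - Q) * X = X * (1 - Q) := by rw [sub_mul, mul_sub, one_mul, mul_one, hc]
  refine ⟨by rw [← mul_add, add_sub_cancel, mul_one], ?_, ?_⟩
  · rw [mul_assoc, ← mul_assoc Q, hc, mul_assoc, a2, mul_zero, mul_zero]
  · rw [mul_assoc, ← mul_assoc (1 - Q), a3, mul_assoc, a1, mul_zero, mul_zero]

/-- Charts for the outer cells of a given line. -/
theorem chart_line (l : Ex ℂ a b n) (m : Ch ρ n) {Q : Mat ℂ ρ ρ} (hQ : Q * Q = Q)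
    (hc : Q * m.P = m.P * Q) (h1 : Q * (m.ε * l.i) = m.ε * l.i) (h2 : l.p * m.π * Q * m.ε = 0) :
    ∃ (s : Ch ρ a) (q : Ch ρ b), Std l s m q ∧ s.P = m.P * Q ∧ q.P = m.P * (1 - Q) ∧
      s.ε = m.ε * l.i ∧ q.π = l.p * m.π := by
  have hh : ∀ {k : ℕ} (X : Mat ℂ n k), m.π * (m.ε * X) = X := fun X => by
    rw [← Matrix.mul_assoc, m.h, Matrix.one_mul]
  have h3 : l.p * m.π * Q = 0 := by
    rw [← m.πP, ← Matrix.mul_assoc, Matrix.mul_assoc _ m.P, ← hc, Ch.P, ← Matrix.mul_assoc,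
      ← Matrix.mul_assoc, h2, Matrix.zero_mul]
  have h4 : l.i * (l.r * (m.π * Q)) = m.π * Q :=
    (l.fac_i _ (by rw [← Matrix.mul_assoc, h3])).symm
  have h5 : (1 - Q) * m.ε * l.s * l.p = (1 - Q) * m.ε :=
    (l.fac_p _ (by rw [Matrix.mul_assoc, Matrix.sub_mul, Matrix.one_mul, h1, sub_self])).symm
  let s : Ch ρ a := ⟨m.ε * l.i, l.r * (m.π * Q), by
    rw [Matrix.mul_assoc, Matrix.mul_assoc, h1, hh, l.ri]⟩
  let q : Ch ρ b := ⟨(1 - Q) * m.ε * l.s, l.p * m.π, by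
    rw [Matrix.mul_assoc (1 - Q), ← Matrix.mul_assoc, Matrix.mul_sub, h3, sub_zero, Matrix.mul_one,
      Matrix.mul_assoc, hh, l.ps]⟩
  have hs : s.P = m.P * Q := by
    change m.ε * l.i * (l.r * (m.π * Q)) = m.ε * m.π * Q
    rw [Matrix.mul_assoc, h4, Matrix.mul_assoc]
  have hq : q.P = m.P * (1 - Q) := by
    change (1 - Q) * m.ε * l.s * (l.p * m.π) = _
    rw [← Matrix.mul_assoc, h5, Matrix.mul_assoc, ← Ch.P, sub_mul, mul_sub, one_mul, mul_one, hc]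
  refine ⟨s, q, ⟨(hh _).symm, ?_, ?_⟩, hs, hq, rfl, rfl⟩
  · change l.p = l.p * m.π * m.ε
    rw [Matrix.mul_assoc, m.h, Matrix.mul_one]
  · rw [hs, hq]
    exact tri_of hQ hc

/-- Charts for all cells of a given grid. -/
theorem chart_grid {n11 n12 n13 n21 n23 n31 n32 n33 : ℕ}
    {r1 : Ex ℂ n11 n13 n12} {r2 : Ex ℂ n21 n23 ρ} {r3 : Ex ℂ n31 n33 n32}
    {c1 : Ex ℂ n11 n31 n21} {c2 : Ex ℂ n12 n32 ρ} {c3 : Ex ℂ n13 n33 n23}
    (H : Grid0 r1 r2 r3 c1 c2 c3) {Q R : Mat ℂ ρ ρ} (hQ : Q * Q = Q) (hR : R * R = R)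
    (hc : Q * R = R * Q) (hi : Q * r2.i = r2.i) (hp : r2.p * Q = 0)
    {x12 : Ch ρ n12} {x32 : Ch ρ n32} (k2 : Std c2 x12 (Ch.id ρ) x32) (e12 : x12.P = R)
    (e32 : x32.P = 1 - R) :
    ∃ (x11 : Ch ρ n11) (x13 : Ch ρ n13) (x21 : Ch ρ n21) (x23 : Ch ρ n23) (x31 : Ch ρ n31)
      (x33 : Ch ρ n33), Std r1 x11 x12 x13 ∧ Std r2 x21 (Ch.id ρ) x23 ∧ Std r3 x31 x32 x33 ∧
      Std c1 x11 x21 x31 ∧ Std c3 x13 x23 x33 ∧ x11.P = R * Q ∧ x13.P = R * (1 - Q) ∧ x21.P = Q ∧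
      x23.P = 1 - Q ∧ x31.P = (1 - R) * Q ∧ x33.P = (1 - R) * (1 - Q) := by
  have f12 : x12.ε = c2.i := by rw [k2.i]; exact (Matrix.one_mul _).symm
  have f32 : x32.π = c2.p := by rw [k2.p]; exact (Matrix.mul_one _).symm
  have hc' : Q * (1 - R) = (1 - R) * Q := by rw [sub_mul, mul_sub, one_mul, mul_one, hc]
  have hc2 : R * (1 - Q) = (1 - Q) * R := by rw [sub_mul, mul_sub, one_mul, mul_one, hc]
  have hc3 : (1 - R) * (1 - Q) = (1 - Q) * (1 - R) := by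
    rw [mul_sub (1 - R), sub_mul 1 Q, one_mul, mul_one, hc']
  have g12 : c2.i * x12.π = R := by rw [← f12]; exact e12
  have g32 : x32.ε * c2.p = 1 - R := by rw [← f32]; exact e32
  obtain ⟨x21, x23, h2, e21, e23, f21, f23⟩ := chart_line r2 (Ch.id ρ) hQ
    (by rw [Ch.id_P, mul_one, one_mul])
    (by change Q * (1 * r2.i) = 1 * r2.i; rw [Matrix.one_mul, hi])
    (by change r2.p * 1 * Q * 1 = 0; rw [Matrix.mul_one, Matrix.mul_one, hp])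
  rw [Ch.id_P, one_mul] at e21 e23
  replace f21 : x21.ε = r2.i := f21.trans (Matrix.one_mul _)
  replace f23 : x23.π = r2.p := f23.trans (Matrix.mul_one _)
  obtain ⟨x11, x13, h1, e11, e13, f11, f13⟩ := chart_line r1 x12 hQ (by rw [e12, hc])
    (by rw [f12, H.ii, ← Matrix.mul_assoc, hi])
    (c3.i_cancel (by
      rw [← Matrix.mul_assoc, ← Matrix.mul_assoc, ← Matrix.mul_assoc, ← H.pi,
        Matrix.mul_assoc r2.p, g12, Matrix.mul_assoc r2.p, ← hc, ← Matrix.mul_assoc, hp,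
        Matrix.zero_mul, Matrix.zero_mul, Matrix.mul_zero]))
  have g31 : x32.ε * r3.i * c1.p = (1 - R) * r2.i := by
    rw [Matrix.mul_assoc, ← H.ip, ← Matrix.mul_assoc, g32]
  obtain ⟨x31, x33, h3, e31, e33, f31, f33⟩ := chart_line r3 x32 hQ (by rw [e32, hc'])
    (c1.p_cancel (by rw [Matrix.mul_assoc, g31, ← Matrix.mul_assoc, hc', Matrix.mul_assoc, hi]))
    (by rw [f32, ← H.pp, Matrix.mul_assoc c3.p, hp, Matrix.mul_zero, Matrix.zero_mul])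
  rw [e12] at e11 e13
  rw [e32] at e31 e33
  refine ⟨x11, x13, x21, x23, x31, x33, h1, h2, h3, ⟨?_, ?_, ?_⟩, ⟨?_, ?_, ?_⟩, e11, e13, e21, e23,
    e31, e33⟩
  · rw [f11, f12, H.ii, ← f21, ← Matrix.mul_assoc, x21.h, Matrix.one_mul]
  · refine x31.ε_cancel ?_
    rw [← Matrix.mul_assoc, ← Ch.P, e31, f31, g31, f21, Matrix.mul_assoc, hi]
  · rw [e11, e21, e31, ← hc, ← hc']
    exact tri_of hR hc.symm
  · refine x13.π_cancel ?_
    rw [Matrix.mul_assoc, ← Ch.P, e13, f13, f23, ← Matrix.mul_assoc, ← H.pi, Matrix.mul_assoc, g12,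
      hc2, ← Matrix.mul_assoc, Matrix.mul_sub, hp, sub_zero, Matrix.mul_one]
  · rw [f33, f32, ← H.pp, ← f23, Matrix.mul_assoc, x23.h, Matrix.mul_one]
  · rw [e13, e23, e33, hc2, hc3]
    exact tri_of hR hc2

theorem proj_facts (l : Ex ℂ a b ρ) {Q : Mat ℂ ρ ρ} (hQ : Q * Q = Q)
    (h : ∀ x, x ∈ LinearMap.range l.i.mulVecLin ↔ Q *ᵥ x = x) : Q * l.i = l.i ∧ l.p * Q = 0 := by
  constructor
  · refine Matrix.ext_iff_mulVec.2 fun y => ?_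
    rw [← Matrix.mulVec_mulVec]
    exact (h _).1 ⟨y, rfl⟩
  · refine Matrix.ext_iff_mulVec.2 fun x => ?_
    obtain ⟨y, hy⟩ := (h (Q *ᵥ x)).2 (by rw [Matrix.mulVec_mulVec, hQ])
    rw [← Matrix.mulVec_mulVec, ← hy, Matrix.mulVecLin_apply, Matrix.mulVec_mulVec, l.pi]
    simp

theorem range_le {a' b' : ℕ} (l : Ex ℂ a b ρ) (l' : Ex ℂ a' b' ρ) (h : l'.p * l.i = 0) :
    LinearMap.range l.i.mulVecLin ≤ LinearMap.range l'.i.mulVecLin := by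
  rintro _ ⟨y, rfl⟩
  refine ⟨(l'.r * l.i) *ᵥ y, ?_⟩
  rw [Matrix.mulVecLin_apply, Matrix.mulVecLin_apply, Matrix.mulVec_mulVec, ← l'.fac_i _ h]

theorem mul_dim_zero {k m j : ℕ} (h : k = 0) (A : Mat ℂ m k) (B : Mat ℂ k j) : A * B = 0 := by
  subst h
  ext
  simp [Matrix.mul_apply]

theorem exists_comm_ring {P Q R : Mat ℂ ρ ρ} (h1 : P * Q = Q * P) (h2 : P * R = R * P)
    (h3 : Q * R = R * Q) : ∃ (S : Type) (_ : CommRing S) (φ : S →+* Mat ℂ ρ ρ) (p q r : S),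
      Function.Injective φ ∧ φ p = P ∧ φ q = Q ∧ φ r = R := by
  have hc : ∀ x ∈ ({P, Q, R} : Set (Mat ℂ ρ ρ)), ∀ y ∈ ({P, Q, R} : Set (Mat ℂ ρ ρ)),
      x * y = y * x := by
    rintro x (rfl | rfl | rfl) y (rfl | rfl | rfl) <;> first | rfl | assumption | (symm; assumption)
  have := Algebra.isMulCommutative_adjoin ℂ hc
  let S := Algebra.adjoin ℂ ({P, Q, R} : Set (Mat ℂ ρ ρ))
  letI : CommRing S := { (inferInstance : Ring S) with mul_comm := fun x y => this.is_comm.comm x y }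
  exact ⟨S, inferInstance, S.val.toRingHom, ⟨P, Algebra.subset_adjoin (by simp)⟩,
    ⟨Q, Algebra.subset_adjoin (by simp)⟩, ⟨R, Algebra.subset_adjoin (by simp)⟩,
    Subtype.val_injective, rfl, rfl, rfl⟩

theorem line_of {S : Type} [CommRing S] (φ : S →+* Mat ℂ ρ ρ) {s : Ch ρ a} {m : Ch ρ n} {q : Ch ρ b}
    {u x v : S} (hs : s.P = φ u) (hm : m.P = φ x) (hq : q.P = φ v) {t : S} (ht : t * t = t)
    (hu : u = x * t) (hv : v = x * (1 - t)) : ∃ l : Ex ℂ a b n, Std l s m q := by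
  refine exists_std ?_
  rw [hs, hm, hq, hu, hv, map_mul, map_mul, map_sub, map_one]
  exact tri_of (by rw [← map_mul, ht]) (by rw [← map_mul, ← map_mul, mul_comm])

theorem ch_of {S : Type} [CommRing S] (φ : S →+* Mat ℂ ρ ρ) {x : S} (hx : IsIdempotentElem x) :
    ∃ (n : ℕ) (c : Ch ρ n), c.P = φ x := exists_ch (hx.map φ)

end CubeEx

theorem cube_ex {ρ smm qmm msm mqm mms mmq ssm sqm qsm qqm mss msq mqs mqq : ℕ}
    {asm : Ex ℂ ssm qsm msm} {amm : Ex ℂ smm qmm ρ} {aqm : Ex ℂ sqm qqm mqm}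
    {bsm : Ex ℂ ssm sqm smm} {bqm : Ex ℂ qsm qqm qmm}
    {bms : Ex ℂ mss mqs mms} {bmq : Ex ℂ msq mqq mmq}
    {cms : Ex ℂ mss msq msm} {cmm : Ex ℂ mms mmq ρ} {cmq : Ex ℂ mqs mqq mqm}
    (e : Ex ℂ msm mqm ρ) (hv : Grid0 asm amm aqm bsm e bqm) (hv' : Grid0 bms e bmq cms cmm cmq)
    (hn : qsm = 0 ∨ sqm = 0) :
    ∃ (sms smq qms qmq sss ssq sqs sqq qss qsq qqs qqq : ℕ)
      (ams : Ex ℂ sms qms mms) (amq : Ex ℂ smq qmq mmq)
      (csm : Ex ℂ sms smq smm) (cqm : Ex ℂ qms qmq qmm)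
      (ass : Ex ℂ sss qss mss) (asq : Ex ℂ ssq qsq msq) (aqs : Ex ℂ sqs qqs mqs)
      (aqq : Ex ℂ sqq qqq mqq)
      (bss : Ex ℂ sss sqs sms) (bsq : Ex ℂ ssq sqq smq) (bqs : Ex ℂ qss qqs qms)
      (bqq : Ex ℂ qsq qqq qmq)
      (css : Ex ℂ sss ssq ssm) (csq : Ex ℂ sqs sqq sqm) (cqs : Ex ℂ qss qsq qsm)
      (cqq : Ex ℂ qqs qqq qqm),
      Cube asm amm aqm bsm bqm bms bmq cms cmm cmq ams amq csm cqm ass asq aqs aqq
        bss bsq bqs bqq css csq cqs cqq := by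
  open CubeEx in
  have hex : ∃ P Q R : Mat ℂ ρ ρ, P * P = P ∧ Q * Q = Q ∧ R * R = R ∧ P * Q = Q * P ∧
      P * R = R * P ∧ Q * R = R * Q ∧ (∀ x, x ∈ LinearMap.range amm.i.mulVecLin ↔ P *ᵥ x = x) ∧
      (∀ x, x ∈ LinearMap.range e.i.mulVecLin ↔ Q *ᵥ x = x) ∧
      ∀ x, x ∈ LinearMap.range cmm.i.mulVecLin ↔ R *ᵥ x = x := by
    rcases hn with h | h
    · obtain ⟨Q, P, R, a1, a2, a3, a4, a5, a6, a7, a8, a9⟩ := exists_comm_idem _ _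
        (LinearMap.range cmm.i.mulVecLin) (range_le e amm (by rw [hv.pi]; exact mul_dim_zero h _ _))
      exact ⟨P, Q, R, a2, a1, a3, a4.symm, a6, a5, a8, a7, a9⟩
    · exact exists_comm_idem _ _ _ (range_le amm e (by rw [hv.ip]; exact mul_dim_zero h _ _))
  obtain ⟨P, Q, R, hP, hQ, hR, hPQ, hPR, hQR, mP, mQ, mR⟩ := hex
  obtain ⟨Pi, Pp⟩ := CubeEx.proj_facts amm hP mP
  obtain ⟨Qi, Qp⟩ := CubeEx.proj_facts e hQ mQ
  obtain ⟨Ri, Rp⟩ := CubeEx.proj_facts cmm hR mR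
  obtain ⟨xmsm, xmqm, he, emsm, emqm, -, -⟩ := CubeEx.chart_line e (CubeEx.Ch.id ρ) hQ
    (by rw [CubeEx.Ch.id_P, mul_one, one_mul])
    (by change Q * (1 * e.i) = 1 * e.i; rw [Matrix.one_mul, Qi])
    (by change e.p * 1 * Q * 1 = 0; rw [Matrix.mul_one, Matrix.mul_one, Qp])
  rw [CubeEx.Ch.id_P, one_mul] at emsm emqm
  obtain ⟨xssm, xqsm, xsmm, xqmm, xsqm, xqqm, hasm, hamm, haqm, hbsm, hbqm, essm, eqsm, esmm, eqmm,
    esqm, eqqm⟩ := CubeEx.chart_grid hv hP hQ hPQ Pi Pp he emsm emqm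
  obtain ⟨xmss, xmsq, xmms, xmmq, xmqs, xmqq, hcms, hcmm, hcmq, hbms, hbmq, emss, emsq, emms, emmq,
    emqs, emqq⟩ := CubeEx.chart_grid hv'.tr hR hQ hQR.symm Ri Rp he emsm emqm
  obtain ⟨S, _, φ, p, q, r, hφ, rfl, rfl, rfl⟩ := CubeEx.exists_comm_ring hPQ hPR hQR
  have hp : IsIdempotentElem p := hφ (by rw [map_mul, hP])
  have hq : IsIdempotentElem q := hφ (by rw [map_mul, hQ])
  have hr : IsIdempotentElem r := hφ (by rw [map_mul, hR])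
  rw [← map_one φ] at emqm eqsm eqmm esqm eqqm emsq emmq emqs emqq
  simp only [← map_sub, ← map_mul] at emqm essm eqsm eqmm esqm eqqm emss emsq emmq emqs emqq
  obtain ⟨sms, xsms, esms⟩ := CubeEx.ch_of φ (hp.mul hr)
  obtain ⟨smq, xsmq, esmq⟩ := CubeEx.ch_of φ (hp.mul hr.one_sub)
  obtain ⟨qms, xqms, eqms⟩ := CubeEx.ch_of φ (hp.one_sub.mul hr)
  obtain ⟨qmq, xqmq, eqmq⟩ := CubeEx.ch_of φ (hp.one_sub.mul hr.one_sub)
  obtain ⟨sss, xsss, esss⟩ := CubeEx.ch_of φ ((hp.mul hq).mul hr)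
  obtain ⟨ssq, xssq, essq⟩ := CubeEx.ch_of φ ((hp.mul hq).mul hr.one_sub)
  obtain ⟨sqs, xsqs, esqs⟩ := CubeEx.ch_of φ ((hp.mul hq.one_sub).mul hr)
  obtain ⟨sqq, xsqq, esqq⟩ := CubeEx.ch_of φ ((hp.mul hq.one_sub).mul hr.one_sub)
  obtain ⟨qss, xqss, eqss⟩ := CubeEx.ch_of φ ((hp.one_sub.mul hq).mul hr)
  obtain ⟨qsq, xqsq, eqsq⟩ := CubeEx.ch_of φ ((hp.one_sub.mul hq).mul hr.one_sub)
  obtain ⟨qqs, xqqs, eqqs⟩ := CubeEx.ch_of φ ((hp.one_sub.mul hq.one_sub).mul hr)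
  obtain ⟨qqq, xqqq, eqqq⟩ := CubeEx.ch_of φ ((hp.one_sub.mul hq.one_sub).mul hr.one_sub)
  obtain ⟨ams, hams⟩ := CubeEx.line_of φ esms emms eqms hp (by ring) (by ring)
  obtain ⟨amq, hamq⟩ := CubeEx.line_of φ esmq emmq eqmq hp (by ring) (by ring)
  obtain ⟨csm, hcsm⟩ := CubeEx.line_of φ esms esmm esmq hr (by ring) (by ring)
  obtain ⟨cqm, hcqm⟩ := CubeEx.line_of φ eqms eqmm eqmq hr (by ring) (by ring)
  obtain ⟨ass, hass⟩ := CubeEx.line_of φ esss emss eqss hp (by ring) (by ring)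
  obtain ⟨asq, hasq⟩ := CubeEx.line_of φ essq emsq eqsq hp (by ring) (by ring)
  obtain ⟨aqs, haqs⟩ := CubeEx.line_of φ esqs emqs eqqs hp (by ring) (by ring)
  obtain ⟨aqq, haqq⟩ := CubeEx.line_of φ esqq emqq eqqq hp (by ring) (by ring)
  obtain ⟨bss, hbss⟩ := CubeEx.line_of φ esss esms esqs hq (by ring) (by ring)
  obtain ⟨bsq, hbsq⟩ := CubeEx.line_of φ essq esmq esqq hq (by ring) (by ring)
  obtain ⟨bqs, hbqs⟩ := CubeEx.line_of φ eqss eqms eqqs hq (by ring) (by ring)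
  obtain ⟨bqq, hbqq⟩ := CubeEx.line_of φ eqsq eqmq eqqq hq (by ring) (by ring)
  obtain ⟨css, hcss⟩ := CubeEx.line_of φ esss essm essq hr (by ring) (by ring)
  obtain ⟨csq, hcsq⟩ := CubeEx.line_of φ esqs esqm esqq hr (by ring) (by ring)
  obtain ⟨cqs, hcqs⟩ := CubeEx.line_of φ eqss eqsm eqsq hr (by ring) (by ring)
  obtain ⟨cqq, hcqq⟩ := CubeEx.line_of φ eqqs eqqm eqqq hr (by ring) (by ring)
  exact ⟨sms, smq, qms, qmq, sss, ssq, sqs, sqq, qss, qsq, qqs, qqq,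
    ams, amq, csm, cqm, ass, asq, aqs, aqq, bss, bsq, bqs, bqq, css, csq, cqs, cqq,
    CubeEx.grid_of_std hams hamm hamq hcsm hcmm hcqm,
    CubeEx.grid_of_std hbss hbsm hbsq hcss hcsm hcsq,
    CubeEx.grid_of_std hbqs hbqm hbqq hcqs hcqm hcqq,
    CubeEx.grid_of_std hcss hcms hcqs hass hasm hasq,
    CubeEx.grid_of_std hcsq hcmq hcqq haqs haqm haqq,
    CubeEx.grid_of_std hass hams haqs hbss hbms hbqs,
    CubeEx.grid_of_std hasq hamq haqq hbsq hbmq hbqq⟩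

end Crest.Agent.R3

end
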