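import Crest.Agent.R3.Fox

set_option autoImplicit false

noncomputable section

namespace Crest.Agent.R3

open Matrix Filter Topology

/-! Curves in the representation variety (implicit function theorem). -/

section DAt
variable {n k l : ℕ}

theorem DAt.const (M : Mat ℂ n k) : DAt (fun _ => M) 0 :=
  fun i j => hasDerivAt_const _ (M i j)
theorem DAt.add {γ γ' : ℂ → Mat ℂ n k} {ξ ξ' : Mat ℂ n k} (h : DAt γ ξ) (h' : DAt γ' ξ') :
    DAt (fun τ => γ τ + γ' τ) (ξ + ξ') :=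
  fun i j => (h i j).add (h' i j)
theorem DAt.sub {γ γ' : ℂ → Mat ℂ n k} {ξ ξ' : Mat ℂ n k} (h : DAt γ ξ) (h' : DAt γ' ξ') :
    DAt (fun τ => γ τ - γ' τ) (ξ - ξ') :=
  fun i j => (h i j).sub (h' i j)
theorem DAt.mul {γ : ℂ → Mat ℂ n k} {γ' : ℂ → Mat ℂ k l} {ξ : Mat ℂ n k} {ξ' : Mat ℂ k l}
    (h : DAt γ ξ) (h' : DAt γ' ξ') : DAt (fun τ => γ τ * γ' τ) (ξ * γ' 0 + γ 0 * ξ') := by
  intro i j
  simp only [Matrix.mul_apply, Matrix.add_apply, ← Finset.sum_add_distrib]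
  exact HasDerivAt.fun_sum fun x _ => (h i x).mul (h' x j)
theorem DAt.smul {c : ℂ → ℂ} {c' : ℂ} {γ : ℂ → Mat ℂ n k} {ξ : Mat ℂ n k}
    (hc : HasDerivAt c c' 0) (h : DAt γ ξ) :
    DAt (fun τ => c τ • γ τ) (c' • γ 0 + c 0 • ξ) :=
  fun i j => hc.mul (h i j)
theorem DAt.trace {γ : ℂ → Mat ℂ n n} {ξ : Mat ℂ n n} (h : DAt γ ξ) :
    HasDerivAt (fun τ => (γ τ).trace) ξ.trace 0 :=
  HasDerivAt.fun_sum fun i _ => h i i
theorem DAt.pow {γ : ℂ → Mat ℂ n n} {ξ : Mat ℂ n n} (h : DAt γ ξ) (j : ℕ) :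
    DAt (fun τ => γ τ ^ j) (∑ i ∈ Finset.range j, γ 0 ^ i * ξ * γ 0 ^ (j - 1 - i)) := by
  induction j with
  | zero => simpa using DAt.const (1 : Mat ℂ n n)
  | succ j ih =>
    have h1 := ih.mul h
    simp only [← pow_succ] at h1
    convert h1 using 1
    rw [Finset.sum_range_succ, Finset.sum_mul]
    congr 1
    · refine Finset.sum_congr rfl fun i hi => ?_
      have := Finset.mem_range.1 hi
      rw [mul_assoc _ _ (γ 0), ← pow_succ]
      congr 2
      omega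
    · simp
theorem DAt.continuousAt {γ : ℂ → Mat ℂ n k} {ξ : Mat ℂ n k} (h : DAt γ ξ) :
    ContinuousAt γ 0 :=
  continuousAt_pi.2 fun i => continuousAt_pi.2 fun j => (h i j).continuousAt
theorem DAt.unique {γ γ' : ℂ → Mat ℂ n k} {ξ ξ' : Mat ℂ n k} (h : DAt γ ξ) (h' : DAt γ' ξ')
    (he : ∀ᶠ τ in 𝓝 (0 : ℂ), γ τ = γ' τ) : ξ = ξ' := by
  ext i j
  exact (h i j).unique
    ((h' i j).congr_of_eventuallyEq (he.mono fun τ e => congrFun (congrFun e i) j))

end DAt

variable {g m : ℕ}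

section Aux

open scoped Matrix.Norms.Operator

/-- `cprod` on all matrices -/
def Curve_cM : {g : ℕ} → (Fin g × Bool → Mat ℂ m m) → Mat ℂ m m
  | 0, _ => 1
  | _ + 1, y => y (0, false) * y (0, true) * Ring.inverse (y (0, false)) *
      Ring.inverse (y (0, true)) * Curve_cM (tail y)

theorem Curve_cM_val (T : Fin g × Bool → G m ℂ) :
    Curve_cM (fun v => (T v).val) = (cprod T).val := by
  induction g with
  | zero => rfl
  | succ g ih =>
    rw [cprod_succ, Curve_cM, Ring.inverse_unit, Ring.inverse_unit, Units.val_mul, ← ih]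
    rfl

/-- strict differentiability with an explicit differential -/
def Curve_SD {E F : Type} [NormedAddCommGroup E] [NormedSpace ℂ E] [NormedAddCommGroup F]
    [NormedSpace ℂ F] (f : E → F) (x : E) (D : E → F) : Prop :=
  ∃ L : E →L[ℂ] F, HasStrictFDerivAt f L x ∧ ∀ ξ, L ξ = D ξ

variable {E : Type} [NormedAddCommGroup E] [NormedSpace ℂ E] {x : E}

theorem Curve_SD.mul {f f' D D' : E → Mat ℂ m m} (h : Curve_SD f x D) (h' : Curve_SD f' x D') :
    Curve_SD (fun e => f e * f' e) x fun ξ => D ξ * f' x + f x * D' ξ := by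
  obtain ⟨L, h1, h2⟩ := h
  obtain ⟨L', h1', h2'⟩ := h'
  refine ⟨_, h1.fun_mul' h1', fun ξ => ?_⟩
  simp [h2, h2', add_comm]

theorem Curve_SD.inv {f D : E → Mat ℂ m m} (h : Curve_SD f x D) {a : G m ℂ} (ha : f x = a.val) :
    Curve_SD (fun e => Ring.inverse (f e)) x fun ξ => -((a⁻¹).val * (D ξ * (a⁻¹).val)) := by
  obtain ⟨L, h1, h2⟩ := h
  have h3 := hasStrictFDerivAt_ringInverse (𝕜 := ℂ) a
  rw [← ha] at h3
  refine ⟨_, h3.comp x h1, fun ξ => ?_⟩
  simp only [ContinuousLinearMap.comp_apply, _root_.neg_apply,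
    ContinuousLinearMap.mulLeftRight_apply, h2, mul_assoc]

theorem Curve_SD.cM {y D : Fin g × Bool → E → Mat ℂ m m} {T : Fin g × Bool → G m ℂ}
    (h : ∀ v, Curve_SD (y v) x (D v)) (hT : ∀ v, y v x = (T v).val) :
    Curve_SD (fun e => Curve_cM fun v => y v e) x fun ξ => fox T T fun v => D v ξ := by
  induction g with
  | zero => exact ⟨0, hasStrictFDerivAt_const _ _, fun _ => rfl⟩
  | succ g ih =>
    have h1 := ((((h (0, false)).mul (h (0, true))).mul ((h (0, false)).inv (hT _))).mul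
      ((h (0, true)).inv (hT _))).mul (ih (y := tail y) (D := tail D) (T := tail T)
        (fun _ => h _) fun _ => hT _)
    obtain ⟨L, h2, h3⟩ := h1
    refine ⟨L, h2, fun ξ => ?_⟩
    have e : (Curve_cM fun v => tail y v x) = (cprod (tail T)).val := by
      rw [← Curve_cM_val]
      exact congrArg _ (funext fun _ => hT _)
    rw [h3]
    beta_reduce
    rw [fox_succ, Fox_dcomm_eq, e]
    simp only [hT, Ring.inverse_unit, comm, Units.val_mul]
    rfl

theorem Curve_lift (a : G m ℂ) : ∃ σ : Mat ℂ m m → G m ℂ, σ a.val = a ∧ ContinuousAt σ a.val ∧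
    ∀ᶠ y in 𝓝 a.val, (σ y).val = y := by
  classical
  have h1 : ∀ᶠ y in 𝓝 a.val, (if h : IsUnit y then h.unit else a).val = y := by
    filter_upwards [(Units.isOpen (R := Mat ℂ m m)).mem_nhds a.isUnit] with y hy
    rw [dif_pos hy]
    rfl
  refine ⟨fun y => if h : IsUnit y then h.unit else a, Units.ext h1.self_of_nhds, ?_, h1⟩
  exact (Units.isOpenEmbedding_val (R := Mat ℂ m m)).isInducing.continuousAt_iff.2
    (continuousAt_id.congr (h1.mono fun _ e => e.symm))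

theorem Curve_root (hm : 0 < m) : ∀ᶠ s in 𝓝 (0 : ℂ), (1 + s) ^ m = 1 → s = 0 := by
  have h1 : ContinuousAt (fun s : ℂ => ∑ i ∈ Finset.range m, (1 + s) ^ i) 0 := by fun_prop
  have h2 : (fun s : ℂ => ∑ i ∈ Finset.range m, (1 + s) ^ i) 0 ≠ 0 := by
    simpa using hm.ne'
  filter_upwards [h1.eventually_ne h2] with s hs h
  have := geom_sum_mul (1 + s) m
  rw [h, sub_self, add_sub_cancel_left] at this
  exact (mul_eq_zero.1 this).resolve_left hs

theorem Curve_det {s : ℂ} {T T' : Fin g × Bool → G m ℂ}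
    (h : (1 + s) • (cprod T').val = (cprod T).val) : (1 + s) ^ m = 1 := by
  have := congrArg Matrix.det h
  rwa [det_smul, det_cprod, det_cprod, mul_one, Fintype.card_fin] at this

/-- the map to which the implicit function theorem is applied -/
def Curve_F (Fz : Fin g × Bool → Prop) (p : (Fin g × Bool → Mat ℂ m m) × ℂ) :
    Mat ℂ m m × ({v // Fz v} → Mat ℂ m m) := ((1 + p.2) • Curve_cM p.1, fun v => p.1 v.1)

theorem Curve_main (hm : 0 < m) (T : Fin g × Bool → G m ℂ) (Fz : Fin g × Bool → Prop)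
    [Fintype {v // Fz v}] (hs : FSurj T Fz) :
    ∃ L : ((Fin g × Bool → Mat ℂ m m) × ℂ) →L[ℂ] Mat ℂ m m × ({v // Fz v} → Mat ℂ m m),
      HasStrictFDerivAt (Curve_F Fz) L (fun v => (T v).val, 0) ∧ L.range = ⊤ ∧
      ∀ p, L p = (fox T T p.1 + p.2 • (cprod T).val, fun v => p.1 v.1) := by
  classical
  have hp : ∀ v, Curve_SD (fun p : (Fin g × Bool → Mat ℂ m m) × ℂ => p.1 v)
      (fun v => (T v).val, 0) fun p => p.1 v := fun v =>
    ⟨_, ((ContinuousLinearMap.proj v).comp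
      (ContinuousLinearMap.fst ℂ (Fin g × Bool → Mat ℂ m m) ℂ)).hasStrictFDerivAt, fun _ => rfl⟩
  obtain ⟨L, h1, h2⟩ := Curve_SD.cM (T := T) hp fun _ => rfl
  have h3 : HasStrictFDerivAt (fun p : (Fin g × Bool → Mat ℂ m m) × ℂ => 1 + p.2)
      (ContinuousLinearMap.snd ℂ _ _) (fun v => (T v).val, 0) :=
    hasStrictFDerivAt_snd.const_add 1
  have h4 : HasStrictFDerivAt
      (fun (p : (Fin g × Bool → Mat ℂ m m) × ℂ) (v : {v // Fz v}) => p.1 v.1)
      (ContinuousLinearMap.pi fun v : {v // Fz v} =>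
        (ContinuousLinearMap.proj v.1).comp (ContinuousLinearMap.fst ℂ _ _))
      (fun v => (T v).val, 0) := (ContinuousLinearMap.pi fun v : {v // Fz v} =>
        (ContinuousLinearMap.proj v.1).comp
          (ContinuousLinearMap.fst ℂ (Fin g × Bool → Mat ℂ m m) ℂ)).hasStrictFDerivAt
  have h5 := (h3.fun_smul h1).prodMk h4
  obtain ⟨L', h5, key⟩ : Curve_SD (Curve_F Fz) (fun v => (T v).val, 0)
      fun p => (fox T T p.1 + p.2 • (cprod T).val, fun v : {v // Fz v} => p.1 v.1) :=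
    ⟨_, h5, fun p => Prod.ext (by
      show (1 + (0 : ℂ)) • L p + p.2 • Curve_cM (fun v => (T v).val) = _
      rw [add_zero, one_smul, h2, Curve_cM_val]) rfl⟩
  refine ⟨L', h5, ?_, key⟩
  refine LinearMap.range_eq_top.2 fun ⟨ω, ζ⟩ => ?_
  obtain ⟨ζ', hζ⟩ : ∃ ζ' : Fin g × Bool → Mat ℂ m m, ∀ v : {v // Fz v}, ζ' v.1 = ζ v :=
    ⟨fun v => if h : Fz v then ζ ⟨v, h⟩ else 0, fun v => dif_pos v.2⟩
  have hm' : (m : ℂ) ≠ 0 := Nat.cast_ne_zero.2 hm.ne'
  obtain ⟨ξ, h6, h7⟩ := hs (ω - fox T T ζ' -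
      (((ω - fox T T ζ') * ((cprod T)⁻¹).val).trace / m) • (cprod T).val) (by
    rw [Matrix.sub_mul, trace_sub, Matrix.smul_mul, Units.mul_inv, trace_smul, trace_one,
      Fintype.card_fin, smul_eq_mul, div_mul_cancel₀ _ hm', sub_self])
  refine ⟨(ζ' + ξ, ((ω - fox T T ζ') * ((cprod T)⁻¹).val).trace / m), (key _).trans ?_⟩
  refine Prod.ext ?_ (funext fun v => ?_)
  · simp only [fox_add, h7]
    abel
  · simp only [Pi.add_apply, h6 v.1 v.2, hζ, add_zero]

theorem Curve_implicit {F : Type} [NormedAddCommGroup F] [NormedSpace ℂ F] [CompleteSpace E]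
    [FiniteDimensional ℂ F] {f : E → F} {L : E →L[ℂ] F} (hf : HasStrictFDerivAt f L x)
    (hL : L.range = ⊤) {u : E} (hu : L u = 0) :
    ∃ c : ℂ → E, c 0 = x ∧ HasDerivAt c u 0 ∧ ∀ᶠ τ in 𝓝 (0 : ℂ), f (c τ) = f x := by
  let u' : L.ker := ⟨u, hu⟩
  have h1 : HasDerivAt (fun τ : ℂ => τ • u') u' 0 := by
    simpa using (hasDerivAt_id (0 : ℂ)).smul_const u'
  refine ⟨fun τ => hf.implicitFunction f L hL (f x) (τ • u'), by simp, ?_, ?_⟩
  · have h2 := (hf.to_implicitFunction hL).hasFDerivAt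
    exact HasFDerivAt.comp_hasDerivAt_of_eq (0 : ℂ) h2 h1 (by simp)
  · have h2 : Tendsto (fun τ : ℂ => (f x, τ • u')) (𝓝 0) (𝓝 (f x, 0)) := by
      have := h1.continuousAt.tendsto
      rw [zero_smul] at this
      exact tendsto_const_nhds.prodMk_nhds this
    exact h2.eventually (hf.map_implicitFunction_eq hL)

theorem Curve_nhds {F : Type} [NormedAddCommGroup F] [NormedSpace ℂ F] [CompleteSpace E]
    [FiniteDimensional ℂ F] {f : E → F} {L : E →L[ℂ] F} (hf : HasStrictFDerivAt f L x)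
    (hL : L.range = ⊤) {W : Set E} (hW : W ∈ 𝓝 x) : f '' W ∈ 𝓝 (f x) := by
  have : CompleteSpace F := FiniteDimensional.complete ℂ F
  rw [← hf.map_nhds_eq_of_surj hL]
  exact image_mem_map hW

theorem Curve_curve (hm : 0 < m) (T : Fin g × Bool → G m ℂ) (Fz : Fin g × Bool → Prop)
    (hs : FSurj T Fz) (ξ : Fin g × Bool → Mat ℂ m m) (hξ : ∀ v, Fz v → ξ v = 0)
    (h0 : fox T T ξ = 0) :
    ∃ (y : ℂ → Fin g × Bool → Mat ℂ m m) (s : ℂ → ℂ), (y 0 = fun v => (T v).val) ∧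
      Tendsto s (𝓝 0) (𝓝 0) ∧ (∀ v, DAt (fun τ => y τ v) (ξ v)) ∧
      ∀ᶠ τ in 𝓝 (0 : ℂ), (1 + s τ) • Curve_cM (y τ) = (cprod T).val ∧
        ∀ v, Fz v → y τ v = (T v).val := by
  classical
  obtain ⟨L, h1, h2, h3⟩ := Curve_main hm T Fz hs
  obtain ⟨c, h4, h5, h6⟩ := Curve_implicit h1 h2 (u := (ξ, 0))
    ((h3 _).trans (Prod.ext (by simp [h0]) (funext fun v => hξ v.1 v.2)))
  refine ⟨fun τ => (c τ).1, fun τ => (c τ).2, by simp only [h4], ?_, fun v i j => ?_, ?_⟩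
  · have := h5.continuousAt.snd.tendsto
    rwa [h4] at this
  · let A : ((Fin g × Bool → Mat ℂ m m) × ℂ) →ₗ[ℂ] ℂ :=
      { toFun := fun p => p.1 v i j
        map_add' := fun _ _ => rfl
        map_smul' := fun _ _ => rfl }
    exact (LinearMap.toContinuousLinearMap A).hasFDerivAt.comp_hasDerivAt (0 : ℂ) h5
  · filter_upwards [h6] with τ hτ
    refine ⟨(congrArg Prod.fst hτ).trans ?_, fun v hv => congrFun (congrArg Prod.snd hτ) ⟨v, hv⟩⟩
    simp [Curve_F, Curve_cM_val]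

theorem Curve_open (hm : 0 < m) (T : Fin g × Bool → G m ℂ) (v₀ : Fin g × Bool)
    (hs : FSurj T fun v => v = v₀) {W : Set ((Fin g × Bool → Mat ℂ m m) × ℂ)}
    (hW : W ∈ 𝓝 ((fun v => (T v).val, 0) : (Fin g × Bool → Mat ℂ m m) × ℂ)) :
    ∀ᶠ b in 𝓝 (T v₀).val, ∃ p ∈ W, (1 + p.2) • Curve_cM p.1 = (cprod T).val ∧ p.1 v₀ = b := by
  classical
  obtain ⟨L, h1, h2, -⟩ := Curve_main hm T _ hs
  have h3 := Curve_nhds h1 h2 hW
  have h4 : Tendsto (fun b : Mat ℂ m m => ((cprod T).val, fun _ : {v // v = v₀} => b))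
      (𝓝 (T v₀).val) (𝓝 (Curve_F (fun v => v = v₀) (fun v => (T v).val, 0))) := by
    have e : Curve_F (fun v => v = v₀) (fun v => (T v).val, 0) =
        ((cprod T).val, fun _ : {v // v = v₀} => (T v₀).val) :=
      Prod.ext (by simp [Curve_F, Curve_cM_val]) (funext fun v => by simp only [Curve_F, v.2])
    rw [e]
    exact Continuous.tendsto (by fun_prop) _
  filter_upwards [h4 h3] with b hb
  obtain ⟨p, hp, e⟩ := hb
  exact ⟨p, hp, congrArg Prod.fst e, congrFun (congrArg Prod.snd e) ⟨v₀, rfl⟩⟩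

end Aux

theorem curve_lemma (hm : 0 < m) (T : Fin g × Bool → G m ℂ) (Fz : Fin g × Bool → Prop)
    (hs : FSurj T Fz) (ξ : Fin g × Bool → Mat ℂ m m) (hξ : ∀ v, Fz v → ξ v = 0)
    (h0 : fox T T ξ = 0) :
    ∃ γ : ℂ → (Fin g × Bool → G m ℂ), γ 0 = T ∧ ContinuousAt γ 0 ∧
      (∀ v, DAt (fun τ => (γ τ v).val) (ξ v)) ∧ (∀ τ v, Fz v → γ τ v = T v) ∧
      ∀ᶠ τ in 𝓝 (0 : ℂ), cprod (γ τ) = cprod T := by
  classical
  obtain ⟨y, s, hy0, hs0, hd, he⟩ := Curve_curve hm T Fz hs ξ hξ h0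
  choose σ h1 h2 h3 using fun v => Curve_lift (T v)
  have ht : ∀ v, Tendsto (fun τ => y τ v) (𝓝 0) (𝓝 (T v).val) := fun v => by
    have := (hd v).continuousAt.tendsto
    simpa only [hy0] using this
  have hv : ∀ᶠ τ in 𝓝 (0 : ℂ), ∀ v, (if Fz v then T v else σ v (y τ v)).val = y τ v := by
    filter_upwards [he, eventually_all.2 fun v => (ht v).eventually (h3 v)] with τ e1 e2 v
    split_ifs with h
    exacts [(e1.2 v h).symm, e2 v]
  refine ⟨fun τ v => if Fz v then T v else σ v (y τ v), ?_, ?_, fun v i j => ?_,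
    fun τ v h => if_pos h, ?_⟩
  · funext v
    simp only [hy0, h1, ite_self]
  · refine continuousAt_pi.2 fun v => ?_
    by_cases h : Fz v
    · simp only [if_pos h]
      exact continuousAt_const
    · simp only [if_neg h]
      exact ContinuousAt.comp_of_eq (h2 v) (hd v).continuousAt (by simp only [hy0])
  · exact (hd v i j).congr_of_eventuallyEq (hv.mono fun τ e => congrFun (congrFun (e v) i) j)
  · filter_upwards [he, hv, hs0.eventually (Curve_root hm)] with τ e1 e2 e3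
    have e4 := e1.1
    rw [← funext e2, Curve_cM_val] at e4
    rw [e3 (Curve_det e4), add_zero, one_smul] at e4
    exact Units.ext e4

theorem open_lemma (hm : 0 < m) (T : Fin g × Bool → G m ℂ) (v₀ : Fin g × Bool)
    (hs : FSurj T fun v => v = v₀) (U : Set (Fin g × Bool → G m ℂ)) (hU : U ∈ 𝓝 T) :
    ∀ᶠ b in 𝓝 (T v₀), ∃ T' ∈ U, cprod T' = cprod T ∧ T' v₀ = b := by
  choose σ h1 h2 h3 using fun v => Curve_lift (T v)
  have ht : ∀ v, Tendsto (fun p : (Fin g × Bool → Mat ℂ m m) × ℂ => p.1 v)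
      (𝓝 (fun v => (T v).val, 0)) (𝓝 (T v).val) := fun v =>
    ((continuous_apply v).comp continuous_fst).tendsto _
  have hσ : Tendsto (fun (p : (Fin g × Bool → Mat ℂ m m) × ℂ) v => σ v (p.1 v))
      (𝓝 (fun v => (T v).val, 0)) (𝓝 T) := tendsto_pi_nhds.2 fun v => by
    have := (h2 v).tendsto.comp (ht v)
    rwa [h1] at this
  have hW : ∀ᶠ p : (Fin g × Bool → Mat ℂ m m) × ℂ in 𝓝 (fun v => (T v).val, 0),
      (fun v => σ v (p.1 v)) ∈ U ∧ (∀ v, (σ v (p.1 v)).val = p.1 v) ∧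
        ((1 + p.2) ^ m = 1 → p.2 = 0) :=
    (hσ.eventually_mem hU).and ((eventually_all.2 fun v => (ht v).eventually (h3 v)).and
      ((continuous_snd.tendsto' _ (0 : ℂ) rfl).eventually (Curve_root hm)))
  filter_upwards [(Units.continuous_val.tendsto (T v₀)).eventually (Curve_open hm T v₀ hs hW)]
    with b hb
  obtain ⟨p, ⟨e1, e2, e3⟩, e4, e5⟩ := hb
  rw [← funext e2, Curve_cM_val] at e4
  rw [e3 (Curve_det e4), add_zero, one_smul] at e4
  exact ⟨_, e1, Units.ext e4, Units.ext ((e2 v₀).trans e5)⟩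

end Crest.Agent.R3

end
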