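import Crest.Agent.R3.Ext
import Crest.Agent.R3.Tang
import Crest.Agent.R3.Rep

set_option autoImplicit false

noncomputable section

namespace Crest.Agent.R3

open Matrix Filter Topology

/-! Generically the commutant of the other handles is local. -/

variable {g m : ℕ}

theorem D1_aeval_mem {ι : Type*} {T : ι → G m ℂ} {M : Mat ℂ m m} (h : M ∈ Com T)
    (p : Polynomial ℂ) : Polynomial.aeval M p ∈ Com T := fun v =>
  (Algebra.commute_of_mem_adjoin_singleton_of_commute (R := ℂ)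
    (Polynomial.aeval_mem_adjoin_singleton ℂ M) (show Commute (T v).val M from (h v).symm)).symm

theorem loc_of_idem {ι : Type*} (T : ι → G m ℂ)
    (h : ∀ e ∈ Com T, e * e = e → e = 0 ∨ e = 1) : Loc T := by
  intro M hM htr
  rcases Nat.eq_zero_or_pos m with rfl | hm
  · exact ⟨0, Subsingleton.elim _ _⟩
  obtain ⟨c, hc⟩ := IsAlgClosed.exists_root M.charpoly (by
    rw [Matrix.charpoly_degree_eq_dim, Fintype.card_fin]
    exact_mod_cast hm.ne')
  have h0 := M.charpoly_monic.ne_zero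
  obtain ⟨q, hq, hq'⟩ := Polynomial.exists_eq_pow_rootMultiplicity_mul_and_not_dvd _ h0 c
  obtain ⟨k, hk⟩ := Nat.exists_eq_succ_of_ne_zero
    ((Polynomial.rootMultiplicity_pos h0).2 hc).ne'
  rw [hk] at hq
  obtain ⟨a, b, hab⟩ := (((Polynomial.irreducible_X_sub_C c).coprime_iff_not_dvd.2 hq').pow_left
    (m := k + 1))
  have hχ := M.aeval_self_charpoly
  set P : Polynomial ℂ := (Polynomial.X - Polynomial.C c) ^ (k + 1) with hP
  have e1 : Polynomial.aeval M (a * P) * Polynomial.aeval M (a * P) =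
      Polynomial.aeval M (a * P) := by
    have : a * P * (a * P) = a * P - a * b * M.charpoly := by
      rw [hq]
      linear_combination (a * P) * hab
    rw [← map_mul, this, map_sub, map_mul _ (a * b), hχ, mul_zero, sub_zero]
  have e2 : Polynomial.aeval M P = (M - Matrix.scalar _ c) ^ (k + 1) := by
    rw [hP, map_pow, map_sub, Polynomial.aeval_X, Polynomial.aeval_C]
    rfl
  rcases h _ (D1_aeval_mem hM (a * P)) e1 with h1 | h1
  · have e3 : Polynomial.aeval M P = 0 := by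
      have : P = P * (a * P) + b * M.charpoly := by
        rw [hq]
        linear_combination (-P) * hab
      rw [this, map_add, map_mul _ P, h1, map_mul _ b, hχ, mul_zero, mul_zero, add_zero]
    have hn : IsNilpotent (M - Matrix.scalar _ c) := ⟨k + 1, e2.symm.trans e3⟩
    have h2 := (Matrix.isNilpotent_trace_of_isNilpotent hn).eq_zero
    rw [trace_sub, htr, zero_sub, neg_eq_zero, Matrix.scalar_apply, trace_diagonal,
      Finset.sum_const, Finset.card_univ, Fintype.card_fin, nsmul_eq_mul] at h2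
    have h3 : c = 0 := (mul_eq_zero.1 h2).resolve_left (Nat.cast_ne_zero.2 hm.ne')
    rwa [h3, map_zero, sub_zero] at hn
  · exfalso
    have h2 := congrArg Matrix.det h1
    have h3 : (M - Matrix.scalar _ c).det = 0 := by
      rw [← neg_sub, det_neg, ← Matrix.eval_charpoly, hc.eq_zero, mul_zero]
    rw [map_mul, e2, det_mul, det_pow, h3, zero_pow k.succ_ne_zero, mul_zero, det_one] at h2
    exact zero_ne_one h2

theorem D1_dim {V H : Type*} [AddCommGroup V] [Module ℂ V] [AddCommGroup H] [Module ℂ H]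
    [FiniteDimensional ℂ V] [FiniteDimensional ℂ H] (Φ : V →ₗ[ℂ] H) (δ : H →ₗ[ℂ] V) {ω : H}
    (hω : ω ≠ 0) (hV : 2 * Module.finrank ℂ H ≤ Module.finrank ℂ V) :
    ∃ ξ, (∃ c : ℂ, c • ω = Φ ξ) ∧ ∀ η, δ η ≠ ξ := by
  by_contra hcon
  have h1 : LinearMap.ker ((ℂ ∙ ω).mkQ ∘ₗ Φ) ≤ LinearMap.range δ := fun ξ hξ => by
    by_contra h2
    exact hcon ⟨ξ, Submodule.mem_span_singleton.1 ((Submodule.Quotient.mk_eq_zero _).1 hξ),
      fun η h3 => h2 ⟨η, h3⟩⟩
  have h2 := LinearMap.finrank_range_add_finrank_ker ((ℂ ∙ ω).mkQ ∘ₗ Φ)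
  have h3 := (LinearMap.range ((ℂ ∙ ω).mkQ ∘ₗ Φ)).finrank_le
  have h4 := (ℂ ∙ ω).finrank_quotient_add_finrank
  have h5 := finrank_span_singleton (K := ℂ) hω
  have h6 := Submodule.finrank_mono h1
  have h7 := δ.finrank_range_le
  omega

/-- The off-diagonal matrices. -/
def D1_H (e : Mat ℂ m m) : Submodule ℂ (Mat ℂ m m) where
  carrier := {Y | e * Y = Y * (1 - e)}
  add_mem' := fun {X Y} hX hY => by
    change e * (X + Y) = (X + Y) * (1 - e)
    rw [mul_add, add_mul, show e * X = _ from hX, show e * Y = _ from hY]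
  zero_mem' := by
    change e * 0 = 0 * (1 - e)
    rw [mul_zero, zero_mul]
  smul_mem' := fun c X hX => by
    change e * (c • X) = (c • X) * (1 - e)
    rw [mul_smul_comm, smul_mul_assoc, show e * X = _ from hX]

theorem D1_mem {e Y : Mat ℂ m m} : Y ∈ D1_H e ↔ e * Y = Y * (1 - e) := Iff.rfl

theorem D1_comm_mem {e : Mat ℂ m m} (he : e * e = e) (X : Mat ℂ m m) :
    e * X - X * e ∈ D1_H e := by
  rw [D1_mem, mul_sub, mul_sub, sub_mul, sub_mul, mul_one, mul_one, ← mul_assoc e e, he,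
    mul_assoc X e, he, mul_assoc e X]
  abel

theorem D1_mul_mem {e Y S : Mat ℂ m m} (hY : Y ∈ D1_H e) (hS : e * S = S * e) :
    Y * S ∈ D1_H e ∧ S * Y ∈ D1_H e := by
  rw [D1_mem] at hY
  constructor
  · rw [D1_mem, ← mul_assoc, hY, mul_assoc, mul_assoc, sub_mul, mul_sub S, one_mul, mul_one, hS]
  · rw [D1_mem, ← mul_assoc, hS, mul_assoc, hY, mul_assoc]

theorem D1_cob {e c S X : Mat ℂ m m} (he : e * e = e) (hc : c ∈ D1_H e) (hS : e * S = S * e)
    (h : X * S + e * c = c * e + S * X) : S * (e * X - X * e) - (e * X - X * e) * S = c := by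
  rw [D1_mem, mul_sub, mul_one] at hc
  have h1 : S * X - X * S = e * c - c * e := by
    rw [sub_eq_sub_iff_add_eq_add, add_comm (S * X), ← h, add_comm]
  have h2 : e * c * e = 0 := by rw [hc, sub_mul, mul_assoc, he, sub_self]
  have h3 : S * (e * X - X * e) - (e * X - X * e) * S =
      e * (S * X - X * S) - (S * X - X * S) * e := by
    rw [mul_sub, mul_sub, sub_mul, sub_mul, ← mul_assoc S e, mul_assoc X S, ← hS]
    simp only [mul_assoc]
    abel
  rw [h3, h1, mul_sub, sub_mul, ← mul_assoc e e, he, ← mul_assoc e c, h2, mul_assoc c e, he, hc]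
  abel

theorem D1_fox_mem {S : Fin g × Bool → G m ℂ} {e : Mat ℂ m m} (hS : e ∈ Com S)
    {ξ : Fin g × Bool → Mat ℂ m m} (hξ : ∀ v, ξ v ∈ D1_H e) :
    fox S S ξ * ((cprod S)⁻¹).val ∈ D1_H e := by
  have h1 : Eqv (1 - e) S S := fun v => by
    rw [sub_mul, mul_sub, one_mul, mul_one, hS v]
  refine (D1_mul_mem ?_ (Fox_int_inv (Eqv.cprod hS))).1
  rw [D1_mem, fox_left hS, fox_right h1]
  exact congrArg _ (funext hξ)

theorem d1 (T : Fin (g + 2) × Bool → G m ℂ) (hS : Simple T)
    (hmin : ∀ᶠ T' in 𝓝 T, cprod T' = cprod T →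
      Module.finrank ℂ (Com (tail T)) ≤ Module.finrank ℂ (Com (tail T'))) : Loc (tail T) := by
  refine loc_of_idem _ fun e he hee => ?_
  by_contra hne
  have hsc := schur_scal hS
  obtain ⟨t, ht⟩ : ∃ t : Bool, e * (T (0, t)).val - (T (0, t)).val * e ≠ 0 := by
    by_contra h1
    obtain ⟨c, rfl⟩ := hsc e fun v => by
      obtain ⟨i, t⟩ := v
      refine Fin.cases ?_ (fun i => he (i, t)) i
      by_contra h2
      exact h1 ⟨t, sub_ne_zero.2 h2⟩
    have : Nonempty (Fin m) := ⟨⟨0, hS.1⟩⟩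
    rw [smul_mul_smul_comm, mul_one] at hee
    have h2 : c * c = c := smul_left_injective ℂ one_ne_zero hee
    rcases mul_eq_zero.1 (show c * (c - 1) = 0 by linear_combination h2) with h3 | h3
    · exact hne (Or.inl (by rw [h3, zero_smul]))
    · exact hne (Or.inr (by rw [sub_eq_zero.1 h3, one_smul]))
  let Φ : (Fin (g + 1) × Bool → D1_H e) →ₗ[ℂ] D1_H e := LinearMap.codRestrict _
    (LinearMap.mulRight ℂ ((cprod (tail T))⁻¹).val ∘ₗ foxL (tail T) (tail T) ∘ₗ
      (D1_H e).subtype.compLeft _) fun ξ => D1_fox_mem he fun v => (ξ v).2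
  let δ : D1_H e →ₗ[ℂ] (Fin (g + 1) × Bool → D1_H e) := LinearMap.pi fun v =>
    LinearMap.codRestrict _ ((LinearMap.mulLeft ℂ (tail T v).val -
      LinearMap.mulRight ℂ (tail T v).val) ∘ₗ (D1_H e).subtype) fun η =>
        (D1_H e).sub_mem (D1_mul_mem η.2 (he v)).2 (D1_mul_mem η.2 (he v)).1
  obtain ⟨ξ, ⟨c, hc⟩, hξ⟩ := D1_dim Φ δ (ω := ⟨_, D1_comm_mem hee (T (0, t)).val⟩)
    (fun h => ht (congrArg Subtype.val h)) (by
      rw [Module.finrank_pi_fintype, Finset.sum_const, Finset.card_univ, Fintype.card_prod,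
        Fintype.card_fin, Fintype.card_bool, smul_eq_mul]
      exact Nat.mul_le_mul_right _ (by omega))
  have hc' : c • (e * (T (0, t)).val - (T (0, t)).val * e) =
      fox (tail T) (tail T) (fun v => (ξ v).val) * ((cprod (tail T))⁻¹).val :=
    congrArg Subtype.val hc
  obtain ⟨ξ', h0, htail⟩ := tang_tail T (fun v => (ξ v).val) fun X hX => by
    rw [← hc', mul_smul_comm, trace_smul, mul_sub, trace_sub, ← mul_assoc, ← mul_assoc,
      show X * (T (0, t)).val = _ from hX t, trace_mul_comm (X * e), mul_assoc, sub_self,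
      smul_zero]
  obtain ⟨γ, hγ0, hγc, hγd, -, hγr⟩ := curve_lemma hS.1 T (fun _ => False) (fsurj_all T hsc) ξ'
    (fun _ h => h.elim) h0
  subst hγ0
  obtain ⟨Xc, X', hX0, hXd, hXm⟩ := ext_com (fun τ => tail (γ τ)) (tail ξ') (fun v => hγd _)
    (by filter_upwards [hγc.eventually hmin, hγr] with τ h1 h2 using h1 h2) e he
  refine hξ ⟨_, D1_comm_mem hee X'⟩ (funext fun v => Subtype.ext ?_)
  have h1 := (hXd.mul (hγd (v.1.succ, v.2))).unique ((hγd (v.1.succ, v.2)).mul hXd)
    (hXm.mono fun τ h => h v)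
  rw [hX0, show ξ' (v.1.succ, v.2) = (ξ v).val from congrFun htail v] at h1
  exact D1_cob hee (ξ v).2 (he v) h1

end Crest.Agent.R3

end
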