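import Mathlib

/-!
# Row 3 (S0003): definitions

`O` is a subring of `ℂ`.  A complex point is *liftable* when it is the image under `θ : A → ℂ` of
an `A`-point, where `θ` lies in the Zariski closure of the `O`-algebra maps `A → O`.
-/

set_option autoImplicit false

noncomputable section

namespace Crest.Agent.R3

open Matrix

/-! ## Zariski closure and lifting rings -/

/-- `x` lies in the Zariski closure of `X`. -/
def ZCl {σ : Type*} (X : Set (σ → ℂ)) (x : σ → ℂ) : Prop :=
  ∀ P : MvPolynomial σ ℂ, (∀ y ∈ X, MvPolynomial.eval y P = 0) → MvPolynomial.eval x P = 0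

/-- The `O`-points of an `O`-algebra, as functions `A → ℂ`. -/
def OPts (O : Subring ℂ) (A : Type) [CommRing A] [Algebra O A] : Set (A → ℂ) :=
  Set.range fun π : A →ₐ[O] O => fun a => (π a : ℂ)

/-- A good ring: `θ` is in the Zariski closure of the `O`-points. -/
structure GR (O : Subring ℂ) where
  A : Type
  [cr : CommRing A]
  [al : Algebra O A]
  θ : A →ₐ[O] ℂ
  good : ZCl (OPts O A) θ

attribute [instance] GR.cr GR.al

/-- A lifting ring: good, and every nonzero complex number lifts to a unit. -/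
structure LR (O : Subring ℂ) extends GR O where
  rich : ∀ c : ℂ, c ≠ 0 → ∃ u : Aˣ, θ (u : A) = c

/-- `θ` as a ring hom. -/
abbrev GR.t {O : Subring ℂ} (L : GR O) : L.A →+* ℂ := (L.θ : L.A →+* ℂ)

/-- What the proof uses about `O`: units of `O[X]/χ` are Zariski dense, and there are `r` units with
unit differences. -/
structure Nice (O : Subring ℂ) (r : ℕ) : Prop where
  dd : ∀ (m : ℕ) (χ : Polynomial O), χ.Monic → χ.natDegree = m →
    (χ.map (algebraMap O ℂ)).Separable → ∀ P : MvPolynomial (Fin m) ℂ,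
      (∀ c : Fin m → O, (∃ p' : Polynomial O,
          χ ∣ (∑ k : Fin m, Polynomial.C (c k) * Polynomial.X ^ (k : ℕ)) * p' - 1) →
        MvPolynomial.eval (fun k => (c k : ℂ)) P = 0) → P = 0
  del : ∃ δ : Fin r → Oˣ, ∀ i j, i ≠ j → IsUnit ((δ i : O) - (δ j : O))

/-! ## Matrices, split exact sequences -/

abbrev Mat (R : Type*) (n k : ℕ) : Type _ := Matrix (Fin n) (Fin k) R

abbrev G (n : ℕ) (R : Type*) [CommRing R] : Type _ := GL (Fin n) R

section Ex
variable {R S : Type*} [CommRing R] [CommRing S]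

/-- Base change of invertible matrices. -/
def gmap {n : ℕ} (f : R →+* S) : G n R →* G n S := Matrix.GeneralLinearGroup.map f

@[simp] theorem gmap_val {n : ℕ} (f : R →+* S) (g : G n R) :
    (gmap f g).val = g.val.map f := rfl

theorem gmap_inv_val {n : ℕ} (f : R →+* S) (g : G n R) :
    ((gmap f g)⁻¹).val = (g⁻¹).val.map f := rfl

/-- A split exact sequence `0 → R^a → R^n → R^b → 0` together with a splitting. -/
@[ext] structure Ex (R : Type*) [CommRing R] (a b n : ℕ) where
  i : Mat R n a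
  p : Mat R b n
  r : Mat R a n
  s : Mat R n b
  ri : r * i = 1
  ps : p * s = 1
  pi : p * i = 0
  rs : r * s = 0
  tot : i * r + s * p = 1

variable {a b n : ℕ}

/-- Same sequence (the splittings may differ). -/
def Ex.Sim (e e' : Ex R a b n) : Prop := e.i = e'.i ∧ e.p = e'.p

def Ex.map (f : R →+* S) (e : Ex R a b n) : Ex S a b n where
  i := e.i.map f
  p := e.p.map f
  r := e.r.map f
  s := e.s.map f
  ri := by rw [← Matrix.map_mul, e.ri, Matrix.map_one _ (map_zero f) (map_one f)]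
  ps := by rw [← Matrix.map_mul, e.ps, Matrix.map_one _ (map_zero f) (map_one f)]
  pi := by rw [← Matrix.map_mul, e.pi, Matrix.map_zero _ (map_zero f)]
  rs := by rw [← Matrix.map_mul, e.rs, Matrix.map_zero _ (map_zero f)]
  tot := by
    rw [← Matrix.map_mul, ← Matrix.map_mul, ← Matrix.map_add _ (map_add f), e.tot,
      Matrix.map_one _ (map_zero f) (map_one f)]

@[simp] theorem Ex.map_i (f : R →+* S) (e : Ex R a b n) : (e.map f).i = e.i.map f := rfl
@[simp] theorem Ex.map_p (f : R →+* S) (e : Ex R a b n) : (e.map f).p = e.p.map f := rfl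
@[simp] theorem Ex.map_r (f : R →+* S) (e : Ex R a b n) : (e.map f).r = e.r.map f := rfl
@[simp] theorem Ex.map_s (f : R →+* S) (e : Ex R a b n) : (e.map f).s = e.s.map f := rfl

/-- `(m i s, q⁻¹ p m⁻¹)`. -/
def Ex.twist (e : Ex R a b n) (m : G n R) (s : G a R) (q : G b R) : Ex R a b n where
  i := m.val * e.i * s.val
  p := (q⁻¹).val * e.p * (m⁻¹).val
  r := (s⁻¹).val * e.r * (m⁻¹).val
  s := m.val * e.s * q.val
  ri := by
    have h : (m⁻¹).val * m.val = 1 := m.inv_mul
    have h2 : (s⁻¹).val * s.val = 1 := s.inv_mul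
    calc _ = (s⁻¹).val * (e.r * ((m⁻¹).val * m.val) * e.i) * s.val := by
          simp only [Matrix.mul_assoc]
      _ = 1 := by rw [h, Matrix.mul_one, e.ri, Matrix.mul_one, h2]
  ps := by
    have h : (m⁻¹).val * m.val = 1 := m.inv_mul
    have h2 : (q⁻¹).val * q.val = 1 := q.inv_mul
    calc _ = (q⁻¹).val * (e.p * ((m⁻¹).val * m.val) * e.s) * q.val := by
          simp only [Matrix.mul_assoc]
      _ = 1 := by rw [h, Matrix.mul_one, e.ps, Matrix.mul_one, h2]
  pi := by
    have h : (m⁻¹).val * m.val = 1 := m.inv_mul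
    calc _ = (q⁻¹).val * (e.p * ((m⁻¹).val * m.val) * e.i) * s.val := by
          simp only [Matrix.mul_assoc]
      _ = 0 := by rw [h, Matrix.mul_one, e.pi, Matrix.mul_zero, Matrix.zero_mul]
  rs := by
    have h : (m⁻¹).val * m.val = 1 := m.inv_mul
    calc _ = (s⁻¹).val * (e.r * ((m⁻¹).val * m.val) * e.s) * q.val := by
          simp only [Matrix.mul_assoc]
      _ = 0 := by rw [h, Matrix.mul_one, e.rs, Matrix.mul_zero, Matrix.zero_mul]
  tot := by
    have h : m.val * (m⁻¹).val = 1 := m.mul_inv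
    have h2 : s.val * (s⁻¹).val = 1 := s.mul_inv
    have h3 : q.val * (q⁻¹).val = 1 := q.mul_inv
    calc _ = m.val * (e.i * (s.val * (s⁻¹).val) * e.r + e.s * (q.val * (q⁻¹).val) * e.p) *
            (m⁻¹).val := by
          simp only [Matrix.mul_assoc, Matrix.mul_add, Matrix.add_mul]
      _ = 1 := by rw [h2, h3, Matrix.mul_one, Matrix.mul_one, e.tot, Matrix.mul_one, h]

@[simp] theorem Ex.twist_i (e : Ex R a b n) (m : G n R) (s : G a R) (q : G b R) :
    (e.twist m s q).i = m.val * e.i * s.val := rfl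
@[simp] theorem Ex.twist_p (e : Ex R a b n) (m : G n R) (s : G a R) (q : G b R) :
    (e.twist m s q).p = (q⁻¹).val * e.p * (m⁻¹).val := rfl
@[simp] theorem Ex.twist_r (e : Ex R a b n) (m : G n R) (s : G a R) (q : G b R) :
    (e.twist m s q).r = (s⁻¹).val * e.r * (m⁻¹).val := rfl
@[simp] theorem Ex.twist_s (e : Ex R a b n) (m : G n R) (s : G a R) (q : G b R) :
    (e.twist m s q).s = m.val * e.s * q.val := rfl

/-- The standard inclusion of the first `a` coordinates. -/
def stdI (R : Type*) [CommRing R] (n a : ℕ) : Mat R n a :=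
  Matrix.of fun x y => if (x : ℕ) = (y : ℕ) then 1 else 0

/-- The standard projection to the last `b` coordinates. -/
def stdP (R : Type*) [CommRing R] (a b n : ℕ) : Mat R b n :=
  Matrix.of fun x y => if (y : ℕ) = a + (x : ℕ) then 1 else 0

/-- The standard sequence. -/
def Ex.std (R : Type*) [CommRing R] {a b n : ℕ} (h : a + b = n) : Ex R a b n where
  i := stdI R n a
  p := stdP R a b n
  r := (stdI R n a)ᵀ
  s := (stdP R a b n)ᵀ
  ri := by
    subst h
    ext x y
    simp only [stdI, Matrix.mul_apply, Matrix.transpose_apply, Matrix.of_apply, Matrix.one_apply,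
      Fin.sum_univ_add, Fin.val_castAdd, Fin.val_natAdd]
    rw [Finset.sum_eq_single x, Finset.sum_eq_zero]
    · simp [Fin.ext_iff]
    · intro j _; have := x.2; rw [if_neg (by omega), zero_mul]
    · intro j _ hj; rw [if_neg (fun h => hj (Fin.ext h)), zero_mul]
    · simp
  ps := by
    subst h
    ext x y
    simp only [stdP, Matrix.mul_apply, Matrix.transpose_apply, Matrix.of_apply, Matrix.one_apply,
      Fin.sum_univ_add, Fin.val_castAdd, Fin.val_natAdd]
    rw [Finset.sum_eq_zero, Finset.sum_eq_single x]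
    · simp [Fin.ext_iff]
    · intro j _ hj; rw [if_neg (fun h => hj (Fin.ext (by omega))), zero_mul]
    · simp
    · intro j _; have := j.2; rw [if_neg (by omega), zero_mul]
  pi := by
    subst h
    ext x y
    simp only [stdP, stdI, Matrix.mul_apply, Matrix.of_apply, Matrix.zero_apply]
    refine Finset.sum_eq_zero fun j _ => ?_
    have := y.2
    split_ifs <;> first | omega | simp
  rs := by
    subst h
    ext x y
    simp only [stdP, stdI, Matrix.mul_apply, Matrix.transpose_apply, Matrix.of_apply,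
      Matrix.zero_apply]
    refine Finset.sum_eq_zero fun j _ => ?_
    have := x.2
    split_ifs <;> first | omega | simp
  tot := by
    subst h
    ext x y
    simp only [stdP, stdI, Matrix.mul_apply, Matrix.transpose_apply, Matrix.of_apply,
      Matrix.add_apply, Matrix.one_apply]
    refine Fin.addCases (fun x => ?_) (fun x => ?_) x
    · rw [Finset.sum_eq_single x, Finset.sum_eq_zero]
      · simp [Fin.ext_iff, eq_comm]
      · intro j _; have := x.2; rw [if_neg (by simp; omega), zero_mul]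
      · intro j _ hj; rw [if_neg (fun h => hj (Fin.ext (by simpa using h.symm))), zero_mul]
      · simp
    · rw [Finset.sum_eq_zero, Finset.sum_eq_single x]
      · simp [Fin.ext_iff, eq_comm]
      · intro j _ hj; rw [if_neg (fun h => hj (Fin.ext (by simp at h; omega))), zero_mul]
      · simp
      · intro j _; have := j.2; rw [if_neg (by simp; omega), zero_mul]

/-- A sequence with zero quotient is an invertible matrix (`i`). -/
def Ex.glS (e : Ex R n 0 n) : G n R :=
  ⟨e.i, e.r, by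
    have h0 : e.s * e.p = 0 := by ext; simp [Matrix.mul_apply]
    have := e.tot; rwa [h0, add_zero] at this, e.ri⟩

/-- A sequence with zero sub is an invertible matrix (`p⁻¹ = s`). -/
def Ex.glQ (e : Ex R 0 n n) : G n R :=
  ⟨e.s, e.p, by
    have h0 : e.i * e.r = 0 := by ext; simp [Matrix.mul_apply]
    have := e.tot; rwa [h0, zero_add] at this, e.ps⟩

def Ex.ofS (g : G n R) : Ex R n 0 n := (Ex.std R (Nat.add_zero n)).twist g 1 1
def Ex.ofQ (g : G n R) : Ex R 0 n n := (Ex.std R (Nat.zero_add n)).twist g 1 1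

/-- The commutative `3 × 3` diagram with rows `r1 r2 r3` and columns `c1 c2 c3`. -/
structure Grid0 {n11 n12 n13 n21 n22 n23 n31 n32 n33 : ℕ}
    (r1 : Ex R n11 n13 n12) (r2 : Ex R n21 n23 n22) (r3 : Ex R n31 n33 n32)
    (c1 : Ex R n11 n31 n21) (c2 : Ex R n12 n32 n22) (c3 : Ex R n13 n33 n23) : Prop where
  ii : c2.i * r1.i = r2.i * c1.i
  pi : r2.p * c2.i = c3.i * r1.p
  ip : c2.p * r2.i = r3.i * c1.p
  pp : c3.p * r2.p = r3.p * c2.p

/-- Seven of the nine faces of a `3 × 3 × 3` cube (cells are indexed by `{s, m, q}³`; the lines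
`a`, `b`, `c` go in directions 1, 2, 3 and are indexed by the other two coordinates).  The missing
faces are the two that contain the central line `bmm` of direction 2. -/
structure Cube {ρ smm qmm msm mqm mms mmq ssm sqm qsm qqm mss msq mqs mqq : ℕ}
    (asm : Ex R ssm qsm msm) (amm : Ex R smm qmm ρ) (aqm : Ex R sqm qqm mqm)
    (bsm : Ex R ssm sqm smm) (bqm : Ex R qsm qqm qmm)
    (bms : Ex R mss mqs mms) (bmq : Ex R msq mqq mmq)
    (cms : Ex R mss msq msm) (cmm : Ex R mms mmq ρ) (cmq : Ex R mqs mqq mqm)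
    {sms smq qms qmq sss ssq sqs sqq qss qsq qqs qqq : ℕ}
    (ams : Ex R sms qms mms) (amq : Ex R smq qmq mmq)
    (csm : Ex R sms smq smm) (cqm : Ex R qms qmq qmm)
    (ass : Ex R sss qss mss) (asq : Ex R ssq qsq msq) (aqs : Ex R sqs qqs mqs)
    (aqq : Ex R sqq qqq mqq)
    (bss : Ex R sss sqs sms) (bsq : Ex R ssq sqq smq) (bqs : Ex R qss qqs qms)
    (bqq : Ex R qsq qqq qmq)
    (css : Ex R sss ssq ssm) (csq : Ex R sqs sqq sqm) (cqs : Ex R qss qsq qsm)
    (cqq : Ex R qqs qqq qqm) : Prop where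
  w : Grid0 ams amm amq csm cmm cqm
  u1 : Grid0 bss bsm bsq css csm csq
  u1q : Grid0 bqs bqm bqq cqs cqm cqq
  u2 : Grid0 css cms cqs ass asm asq
  u2q : Grid0 csq cmq cqq aqs aqm aqq
  u3 : Grid0 ass ams aqs bss bms bqs
  u3q : Grid0 asq amq aqq bsq bmq bqq

end Ex

/-! ## Words -/

/-- A scalar unit of `O`, or a letter with a sign. -/
inductive Item (O : Subring ℂ) (κ : Type) where
  | sc (u : Oˣ) : Item O κ
  | var (x : κ) (pos : Bool) : Item O κ

section Words
variable {O : Subring ℂ} {κ : Type} {R : Type*} [CommRing R] [Algebra O R]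

/-- The scalar matrix of a unit of `O`. -/
def scal (R : Type*) [CommRing R] [Algebra O R] (n : ℕ) (u : Oˣ) : G n R :=
  Units.map (algebraMap O (Mat R n n)).toMonoidHom u

def evalI {n : ℕ} (y : κ → G n R) : Item O κ → G n R
  | .sc u => scal R n u
  | .var x true => y x
  | .var x false => (y x)⁻¹

/-- Value of a word. -/
def evalW {n : ℕ} (y : κ → G n R) (w : List (Item O κ)) : G n R := (w.map (evalI y)).prod

def Item.occ : Item O κ → Multiset (κ × Bool)
  | .sc _ => 0
  | .var x e => {(x, e)}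

/-- Signed occurrences of letters in a word. -/
def vocc (w : List (Item O κ)) : Multiset (κ × Bool) := (w.map Item.occ).sum

/-- Number of letters in a word. -/
def nvar (w : List (Item O κ)) : ℕ := Multiset.card (vocc w)

/-- `M` preserves a flag, acting on the successive quotients (of ranks `b`, top one first) by the
scalars `ξ`. -/
def Flagged (R : Type*) [CommRing R] [Algebra O R] : List (ℕ × Oˣ) → (n : ℕ) → G n R → Prop
  | [], n, _ => n = 0
  | (b, ξ) :: l, n, M => ∃ (a : ℕ) (_ : a + b = n) (e : Ex R a b n) (M' : G a R),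
      M.val * e.i = e.i * M'.val ∧ e.p * M.val = (scal R b ξ).val * e.p ∧ Flagged R l a M'

/-- `∏ (M - ξ)`. -/
def qk {n : ℕ} (M : G n R) (ξ : List Oˣ) : Mat R n n :=
  (ξ.map fun x => M.val - (scal R n x).val).prod

def Item.rename {κ' : Type} (f : κ → κ') : Item O κ → Item O κ'
  | .sc u => .sc u
  | .var x e => .var (f x) e

end Words

/-! ## Systems -/

/-- A variable: a split exact sequence of type `(a, b, n)` with name `k`. -/
@[ext] structure Var where
  a : ℕ
  b : ℕ
  n : ℕ
  k : ℕ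
  h : a + b = n
  deriving DecidableEq

/-- A valuation. -/
abbrev Val (R : Type*) [CommRing R] : Type _ := (v : Var) → Ex R v.a v.b v.n

/-- Letters in rank `n` are the degenerate variables. -/
abbrev varS (n k : ℕ) : Var := ⟨n, 0, n, k, Nat.add_zero n⟩
abbrev varQ (n k : ℕ) : Var := ⟨0, n, n, k, Nat.zero_add n⟩

def letterVar (n : ℕ) : Bool × ℕ → Var
  | (false, k) => varS n k
  | (true, k) => varQ n k

def letters {R : Type*} [CommRing R] (n : ℕ) (u : Val R) : Bool × ℕ → G n R
  | (false, k) => (u (varS n k)).glS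
  | (true, k) => (u (varQ n k)).glQ

/-- The value of the variable of a letter whose letter value is `M`. -/
def ofL {R : Type*} [CommRing R] (n : ℕ) : (φ : Bool × ℕ) → G n R →
    Ex R (letterVar n φ).a (letterVar n φ).b (letterVar n φ).n
  | (false, _), M => Ex.ofS M
  | (true, _), M => Ex.ofQ M

def Val.map {R S : Type*} [CommRing R] [CommRing S] (f : R →+* S) (u : Val R) : Val S :=
  fun v => (u v).map f

/-- Two valuations agree on the variables of `m`. -/
def Agree {R : Type*} [CommRing R] (u u' : Val R) (m : Multiset (Var × Bool)) : Prop :=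
  ∀ o ∈ m, (u o.1).Sim (u' o.1)

abbrev Word (O : Subring ℂ) : Type := List (Item O (Bool × ℕ))

/-- A head line: value `(m i s, q⁻¹ p m⁻¹)`. -/
structure HL (O : Subring ℂ) (a b n : ℕ) where
  h : a + b = n
  x : Option ℕ
  m : Word O
  s : Word O
  q : Word O

/-- A tail line: value `(i s⁻¹, q p)`. -/
structure TL (O : Subring ℂ) (a b n : ℕ) where
  h : a + b = n
  x : Option ℕ
  s : Word O
  q : Word O

/-- A `3 × 3` grid of lines. -/
structure Grid (O : Subring ℂ) where
  n11 : ℕ
  n12 : ℕ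
  n13 : ℕ
  n21 : ℕ
  n22 : ℕ
  n23 : ℕ
  n31 : ℕ
  n32 : ℕ
  n33 : ℕ
  r1 : HL O n11 n13 n12
  r2 : TL O n21 n23 n22
  r3 : HL O n31 n33 n32
  c1 : TL O n11 n31 n21
  c2 : HL O n12 n32 n22
  c3 : TL O n13 n33 n23

/-- A vertex: a grid, or a closed word in rank `n`. -/
inductive Vx (O : Subring ℂ) where
  | grid (Γ : Grid O) : Vx O
  | closed (n : ℕ) (w : Word O) : Vx O

abbrev Sys (O : Subring ℂ) : Type := Multiset (Vx O)

section Sys
variable {O : Subring ℂ} {R : Type*} [CommRing R] [Algebra O R] {a b n : ℕ}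

/-- Value of a word in rank `n`. -/
def ev (n : ℕ) (u : Val R) (w : Word O) : G n R := evalW (letters n u) w

/-- Signed variable occurrences of a word in rank `n`. -/
def wocc (n : ℕ) (w : Word O) : Multiset (Var × Bool) :=
  (vocc w).map fun o => (letterVar n o.1, o.2)

/-- The untwisted line. -/
def lval (u : Val R) (h : a + b = n) : Option ℕ → Ex R a b n
  | none => Ex.std R h
  | some k => u ⟨a, b, n, k, h⟩

def locc (h : a + b = n) (e : Bool) : Option ℕ → Multiset (Var × Bool)
  | none => 0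
  | some k => {(⟨a, b, n, k, h⟩, e)}

def HL.val (u : Val R) (l : HL O a b n) : Ex R a b n :=
  (lval u l.h l.x).twist (ev n u l.m) (ev a u l.s) (ev b u l.q)

def TL.val (u : Val R) (l : TL O a b n) : Ex R a b n :=
  (lval u l.h l.x).twist 1 (ev a u l.s)⁻¹ (ev b u l.q)⁻¹

def HL.occ (l : HL O a b n) : Multiset (Var × Bool) :=
  locc l.h true l.x + wocc n l.m + wocc a l.s + wocc b l.q

def TL.occ (l : TL O a b n) : Multiset (Var × Bool) :=
  locc l.h false l.x + wocc a l.s + wocc b l.q

def HL.var (l : HL O a b n) : Option Var := l.x.map fun k => ⟨a, b, n, k, l.h⟩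
def TL.var (l : TL O a b n) : Option Var := l.x.map fun k => ⟨a, b, n, k, l.h⟩

/-- Constant lines are degenerate. -/
def HL.ok (l : HL O a b n) : Prop := l.x = none → a = 0 ∨ b = 0
def TL.ok (l : TL O a b n) : Prop := l.x = none → a = 0 ∨ b = 0

def Grid.Sat (u : Val R) (Γ : Grid O) : Prop :=
  Grid0 (Γ.r1.val u) (Γ.r2.val u) (Γ.r3.val u) (Γ.c1.val u) (Γ.c2.val u) (Γ.c3.val u)

def Grid.occ (Γ : Grid O) : Multiset (Var × Bool) :=
  Γ.r1.occ + Γ.r2.occ + Γ.r3.occ + Γ.c1.occ + Γ.c2.occ + Γ.c3.occ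

structure Grid.ok (Γ : Grid O) : Prop where
  r1 : Γ.r1.ok
  r2 : Γ.r2.ok
  r3 : Γ.r3.ok
  c1 : Γ.c1.ok
  c2 : Γ.c2.ok
  c3 : Γ.c3.ok

/-- The two middle lines are not degenerate. -/
def Grid.proper (Γ : Grid O) : Prop := 0 < Γ.n12 ∧ 0 < Γ.n32 ∧ 0 < Γ.n21 ∧ 0 < Γ.n23

def Vx.Sat (u : Val R) : Vx O → Prop
  | .grid Γ => Γ.Sat u
  | .closed n w => ev n u w = 1

def Vx.occ : Vx O → Multiset (Var × Bool)
  | .grid Γ => Γ.occ
  | .closed n w => wocc n w

def Vx.ok : Vx O → Prop
  | .grid Γ => Γ.ok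
  | .closed _ _ => True

def Vx.rank : Vx O → ℕ
  | .grid Γ => Γ.n22
  | .closed n _ => n

def Vx.proper : Vx O → Prop
  | .grid Γ => Γ.proper
  | .closed _ _ => False

/-- Measure of a vertex at top rank `ρ`. -/
def Vx.mu (ρ : ℕ) : Vx O → ℕ
  | .grid Γ => if Γ.n22 = ρ then 1 + 2 * nvar Γ.c2.m else 0
  | .closed _ _ => 0

def Sat (u : Val R) (S : Sys O) : Prop := ∀ v ∈ S, v.Sat u

def occ (S : Sys O) : Multiset (Var × Bool) := S.bind Vx.occ

def mu (ρ : ℕ) (S : Sys O) : ℕ := (S.map (Vx.mu ρ)).sum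

/-- Well formed: every variable occurs at most once with each sign. -/
structure WF (S : Sys O) : Prop where
  ok : ∀ v ∈ S, v.ok
  nodup : (occ S).Nodup

/-- All ranks `≤ ρ`, and the vertices of rank `ρ` are proper grids. -/
def Top (ρ : ℕ) (S : Sys O) : Prop := ∀ v ∈ S, v.rank ≤ ρ ∧ (v.rank = ρ → v.proper)

/-- All ranks `≤ ρ`, and the vertices of rank `ρ` are proper grids or closed words. -/
def Top2 (ρ : ℕ) (S : Sys O) : Prop :=
  ∀ v ∈ S, v.rank ≤ ρ ∧ (v.rank = ρ → v.proper ∨ ∃ w, v = .closed ρ w)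

/-- `u` lifts `x`. -/
def Lifts (L : LR O) (u : Val L.A) (x : Val ℂ) : Prop := ∀ v, ((u v).map L.t).Sim (x v)

def Lift (S : Sys O) (x : Val ℂ) : Prop := ∃ (L : LR O) (u : Val L.A), Lifts L u x ∧ Sat u S

/-- A reduction step. -/
structure Red (ρ : ℕ) (S : Sys O) (x : Val ℂ) (S' : Sys O) (x' : Val ℂ) : Prop where
  wf : WF S'
  top : Top ρ S'
  sat : Sat x' S'
  lift : Lift S' x' → Lift S x

/-- Constant lines. -/
def HL.cst (h : a + b = n) : HL O a b n := ⟨h, none, [], [], []⟩
def TL.cst (h : a + b = n) : TL O a b n := ⟨h, none, [], []⟩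
/-- Untwisted variable lines. -/
def HL.new (h : a + b = n) (k : ℕ) : HL O a b n := ⟨h, some k, [], [], []⟩
def TL.new (h : a + b = n) (k : ℕ) : TL O a b n := ⟨h, some k, [], []⟩

/-- The grid saying that the head line and the tail line have the same value. -/
def r2form (c : HL O a b n) (r : TL O a b n) : Grid O :=
  ⟨a, a, 0, a, n, b, 0, b, b, HL.cst (Nat.add_zero a), r, HL.cst (Nat.zero_add b),
    TL.cst (Nat.add_zero a), c, TL.cst (Nat.zero_add b)⟩

/-- The letter of a degenerate line. -/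
def lw (kind : Bool) (e : Bool) : Option ℕ → Word O
  | none => []
  | some k => [Item.var (kind, k) e]

/-- Words of degenerate lines. -/
def HL.wS (l : HL O n 0 n) : Word O := l.m ++ lw false true l.x ++ l.s
def HL.wQ (l : HL O 0 n n) : Word O := l.m ++ lw true true l.x ++ l.q
def TL.wS (l : TL O n 0 n) : Word O := l.s ++ lw false false l.x
def TL.wQ (l : TL O 0 n n) : Word O := l.q ++ lw true false l.x

/-- A flag constraint on a word. -/
structure FlagC (O : Subring ℂ) where
  n : ℕ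
  w : Word O
  l : List (ℕ × Oˣ)

def FlagC.Sat (u : Val R) (f : FlagC O) : Prop := Flagged R f.l f.n (ev f.n u f.w)

/-- In rank `ρ` the first step of the flag is proper. -/
def FlagOK (ρ n : ℕ) (l : List (ℕ × Oˣ)) : Prop :=
  n ≤ ρ ∧ (n = ρ → ∃ b ξ l', l = (b, ξ) :: l' ∧ 0 < b ∧ b < n)

end Sys

/-- All systems of rank `≤ ρ` lift. -/
def PA (O : Subring ℂ) (ρ : ℕ) : Prop :=
  ∀ S : Sys O, WF S → (∀ v ∈ S, v.rank ≤ ρ) → ∀ x : Val ℂ, Sat x S → Lift S x

/-- Systems whose vertices of rank `ρ` are proper grids lift. -/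
def PA' (O : Subring ℂ) (ρ : ℕ) : Prop :=
  ∀ S : Sys O, WF S → Top ρ S → ∀ x : Val ℂ, Sat x S → Lift S x

/-! ## Representations -/

section Rep
variable {R : Type*} [CommRing R]

def comm {H : Type*} [Group H] (a b : H) : H := a * b * a⁻¹ * b⁻¹

/-- Drop the first handle. -/
def tail {α : Type*} {g : ℕ} (T : Fin (g + 1) × Bool → α) : Fin g × Bool → α :=
  fun v => T (v.1.succ, v.2)

/-- `∏ [a_i, b_i]`. -/
def cprod {H : Type*} [Group H] : {g : ℕ} → (Fin g × Bool → H) → H
  | 0, _ => 1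
  | _ + 1, T => comm (T (0, false)) (T (0, true)) * cprod (tail T)

/-- Append a handle. -/
def snocH {α : Type*} {g : ℕ} (T : Fin g × Bool → α) (a b : α) : Fin (g + 1) × Bool → α :=
  fun v => Fin.lastCases (motive := fun _ => α) (if v.2 then b else a) (fun i => T (i, v.2)) v.1

/-- The relation word of the surface with boundary. -/
def srel {H : Type*} [Group H] {g s : ℕ} (T : (Fin g × Bool) ⊕ Fin s → H) : H :=
  cprod (fun v => T (.inl v)) * (List.ofFn fun j => T (.inr j)).prod

/-- Upper right block of the commutator of `[[a, x], [0, a']]` and `[[b, y], [0, b']]`. -/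
def dcomm {w q : ℕ} (a b : G w R) (a' b' : G q R) (x y : Mat R w q) : Mat R w q :=
  x * (b' * a'⁻¹ * b'⁻¹).val + a.val * y * (a'⁻¹ * b'⁻¹).val
    - (a * b * a⁻¹).val * x * (a'⁻¹ * b'⁻¹).val - (comm a b).val * y * (b'⁻¹).val

/-- Fox derivative: upper right block of `cprod` of `[[W, c], [0, Q]]`. -/
def fox {w q : ℕ} : {g : ℕ} → (Fin g × Bool → G w R) → (Fin g × Bool → G q R) →
    (Fin g × Bool → Mat R w q) → Mat R w q
  | 0, _, _, _ => 0
  | _ + 1, W, Q, c =>
      dcomm (W (0, false)) (W (0, true)) (Q (0, false)) (Q (0, true)) (c (0, false)) (c (0, true))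
          * (cprod (tail Q)).val
        + (comm (W (0, false)) (W (0, true))).val * fox (tail W) (tail Q) (tail c)

/-- The differential of `cprod` is onto when the generators in `Fz` are frozen. -/
def FSurj {g m : ℕ} (T : Fin g × Bool → G m R) (Fz : Fin g × Bool → Prop) : Prop :=
  ∀ ω : Mat R m m, (ω * ((cprod T)⁻¹).val).trace = 0 →
    ∃ ξ : Fin g × Bool → Mat R m m, (∀ v, Fz v → ξ v = 0) ∧ fox T T ξ = ω

/-- `φ` intertwines `T` and `T'`. -/
def Eqv {ι : Type*} {m m' : ℕ} (φ : Mat R m' m) (T : ι → G m R) (T' : ι → G m' R) : Prop :=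
  ∀ v, φ * (T v).val = (T' v).val * φ

/-- The commutant. -/
def Com {ι : Type*} {m : ℕ} (T : ι → G m R) : Submodule R (Mat R m m) where
  carrier := {X | Eqv X T T}
  add_mem' := fun {X Y} hX hY v => by rw [Matrix.add_mul, Matrix.mul_add, hX v, hY v]
  zero_mem' := fun v => by rw [Matrix.zero_mul, Matrix.mul_zero]
  smul_mem' := fun c X hX v => by rw [Matrix.smul_mul, Matrix.mul_smul, hX v]

/-- The commutant is scalar. -/
def Scal {ι : Type*} {m : ℕ} (T : ι → G m R) : Prop := ∀ X ∈ Com T, ∃ c : R, X = c • (1 : Mat R m m)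

/-- The commutant is local. -/
def Loc {ι : Type*} {m : ℕ} (T : ι → G m R) : Prop := ∀ X ∈ Com T, X.trace = 0 → IsNilpotent X

/-- The surface cut along `b₀`: `b₀` and the other handles. -/
def cut {α : Type*} {g : ℕ} (T : Fin (g + 1) × Bool → α) : Option (Fin g × Bool) → α
  | none => T (0, true)
  | some v => tail T v

def Inv {ι : Type*} {m : ℕ} (T : ι → G m ℂ) (W : Submodule ℂ (Fin m → ℂ)) : Prop :=
  ∀ v, ∀ x ∈ W, (T v).val *ᵥ x ∈ W

def Simple {ι : Type*} {m : ℕ} (T : ι → G m ℂ) : Prop :=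
  0 < m ∧ ∀ W, Inv T W → W = ⊥ ∨ W = ⊤

def SSimple {ι : Type*} {m : ℕ} (T : ι → G m ℂ) : Prop :=
  ∀ W, Inv T W → ∃ W', Inv T W' ∧ IsCompl W W'

/-- A direct sum decomposition `R^n = ⊕_t R^(d t)`. -/
@[ext] structure Dec (R : Type*) [CommRing R] {N : ℕ} (d : Fin N → ℕ) (n : ℕ) where
  inj : ∀ t, Mat R n (d t)
  prj : ∀ t, Mat R (d t) n
  pi : ∀ t, prj t * inj t = 1
  pij : ∀ t t', t ≠ t' → prj t * inj t' = 0
  tot : ∑ t, inj t * prj t = 1

def Dec.map {S : Type*} [CommRing S] {N : ℕ} {d : Fin N → ℕ} {n : ℕ} (f : R →+* S)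
    (D : Dec R d n) : Dec S d n where
  inj t := (D.inj t).map f
  prj t := (D.prj t).map f
  pi t := by rw [← Matrix.map_mul, D.pi, Matrix.map_one _ (map_zero f) (map_one f)]
  pij t t' h := by rw [← Matrix.map_mul, D.pij t t' h, Matrix.map_zero _ (map_zero f)]
  tot := by
    have := congrArg (fun M : Mat R n n => f.mapMatrix M) D.tot
    simp only [map_sum, map_one, RingHom.mapMatrix_apply, Matrix.map_mul] at this
    exact this

theorem Dec.mul_aux {N : ℕ} {d : Fin N → ℕ} {n : ℕ} (D : Dec R d n)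
    (M M' : ∀ t, Mat R (d t) (d t)) :
    (∑ t, D.inj t * M t * D.prj t) * (∑ t, D.inj t * M' t * D.prj t)
      = ∑ t, D.inj t * (M t * M' t) * D.prj t := by
  rw [Finset.sum_mul]
  refine Finset.sum_congr rfl fun t _ => ?_
  rw [Finset.mul_sum, Finset.sum_eq_single t]
  · calc _ = D.inj t * M t * (D.prj t * D.inj t) * M' t * D.prj t := by
          simp only [Matrix.mul_assoc]
      _ = _ := by rw [D.pi, Matrix.mul_one]; simp only [Matrix.mul_assoc]
  · intro t' _ h
    calc _ = D.inj t * M t * (D.prj t * D.inj t') * M' t' * D.prj t' := by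
          simp only [Matrix.mul_assoc]
      _ = 0 := by rw [D.pij t t' (Ne.symm h)]; simp
  · simp

/-- The block sum. -/
def Dec.sum {N : ℕ} {d : Fin N → ℕ} {n : ℕ} (D : Dec R d n) (M : ∀ t, G (d t) R) : G n R :=
  ⟨∑ t, D.inj t * (M t).val * D.prj t, ∑ t, D.inj t * ((M t)⁻¹).val * D.prj t,
    by rw [D.mul_aux]; simp only [Units.mul_inv, Matrix.mul_one, D.tot],
    by rw [D.mul_aux]; simp only [Units.inv_mul, Matrix.mul_one, D.tot]⟩

end Rep

/-- The representation lifts with the relation `∏ [a_i, b_i] = ζ`. -/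
def LiftRep {O : Subring ℂ} {g m : ℕ} (ζ : Oˣ) (T : Fin g × Bool → G m ℂ) : Prop :=
  ∃ (L : LR O) (T' : Fin g × Bool → G m L.A), (∀ v, gmap L.t (T' v) = T v) ∧
    cprod T' = scal L.A m ζ

def PB (O : Subring ℂ) (m : ℕ) : Prop :=
  ∀ (g : ℕ) (ζ : Oˣ) (T : Fin g × Bool → G m ℂ), cprod T = scal ℂ m ζ → LiftRep ζ T

def PBs (O : Subring ℂ) (m : ℕ) : Prop :=
  ∀ (g : ℕ) (ζ : Oˣ) (T : Fin g × Bool → G m ℂ), Simple T → cprod T = scal ℂ m ζ → LiftRep ζ T

/-- Entrywise derivative at `0` of a curve of matrices. -/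
def DAt {n k : ℕ} (γ : ℂ → Mat ℂ n k) (ξ : Mat ℂ n k) : Prop :=
  ∀ i j, HasDerivAt (fun τ => γ τ i j) (ξ i j) 0

/-- Multiplicatively generic eigenvalues. -/
def Gen {m : ℕ} (t : Fin m → ℂ) : Prop :=
  ∀ I J : Finset (Fin m), I.card = J.card → (∏ i ∈ I, t i) ^ m = (∏ i ∈ J, t i) ^ m → I = J

/-- All principal minors are nonzero. -/
def PMin {m : ℕ} (a : Mat ℂ m m) : Prop :=
  ∀ S : Finset (Fin m), (a.submatrix (Subtype.val : S → Fin m) (Subtype.val : S → Fin m)).det ≠ 0

/-- The algebraic integers of a subfield of `ℂ`. -/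
def intRing (F : Subfield ℂ) : Subring ℂ := F.toSubring ⊓ (integralClosure ℤ ℂ).toSubring

theorem mem_intRing {F : Subfield ℂ} {z : ℂ} : z ∈ intRing F ↔ z ∈ F ∧ IsIntegral ℤ z := Iff.rfl

end Crest.Agent.R3

end
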