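import Crest.Agent.R3.Curve

set_option autoImplicit false

noncomputable section

namespace Crest.Agent.R3

open Matrix Filter Topology

/-! Semicontinuity; kernels of constant rank extend along curves. -/

theorem Ext_ginv {p q : Type*} [Fintype p] [Fintype q] (M : Matrix p q ℂ) :
    ∃ N : Matrix q p ℂ, M * N * M = M := by
  classical
  obtain ⟨s, hs⟩ := (toLin' M).rangeRestrict.exists_rightInverse_of_surjective
    (LinearMap.range_rangeRestrict _)
  obtain ⟨r, hr⟩ := (LinearMap.range (toLin' M)).subtype.exists_leftInverse_of_injective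
    (Submodule.ker_subtype _)
  refine ⟨LinearMap.toMatrix' (s ∘ₗ r), toLin'.injective (LinearMap.ext fun x => ?_)⟩
  rw [toLin'_mul, toLin'_mul, toLin'_toMatrix']
  have h1 : r (toLin' M x) = (toLin' M).rangeRestrict x :=
    LinearMap.congr_fun hr ((toLin' M).rangeRestrict x)
  have h2 := congrArg Subtype.val (LinearMap.congr_fun hs ((toLin' M).rangeRestrict x))
  simp only [LinearMap.comp_apply, h1]
  exact h2

theorem Ext_mul {p q : Type*} [Fintype p] [Fintype q] [DecidableEq q] {M : Matrix p q ℂ}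
    {N : Matrix q p ℂ} (h : M * N * M = M) (M' : Matrix p q ℂ) :
    M * (1 - N * M + N * M') = M * N * M' := by
  rw [Matrix.mul_add, Matrix.mul_sub, ← Matrix.mul_assoc, h, Matrix.mul_one, sub_self, zero_add,
    Matrix.mul_assoc]

theorem Ext_det {α : Type*} [TopologicalSpace α] {p q : Type*} [Fintype p] [Fintype q]
    [DecidableEq q] {M : α → Matrix p q ℂ} {a : α} (h : ContinuousAt M a) (N : Matrix q p ℂ) :
    ∀ᶠ x in 𝓝 a, (1 - N * M a + N * M x).det ≠ 0 := by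
  have h1 : Continuous fun B : Matrix p q ℂ => (1 - N * M a + N * B).det :=
    (continuous_const.add (continuous_const.matrix_mul continuous_id)).matrix_det
  exact (h1.continuousAt.comp h).eventually_ne (by simp)

theorem Ext_rank {p q : Type*} [Fintype p] [Fintype q] [DecidableEq q] {M M' : Matrix p q ℂ}
    {N : Matrix q p ℂ} (h : M * N * M = M) (hd : (1 - N * M + N * M').det ≠ 0) :
    (M * N * M').rank = M.rank := by
  rw [← Ext_mul h, rank_mul_eq_left_of_isUnit_det _ _ hd.isUnit]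

theorem Ext_diff_det {q : Type*} [Fintype q] [DecidableEq q] {A : ℂ → Matrix q q ℂ}
    (h : ∀ i j, DifferentiableAt ℂ (fun τ => A τ i j) 0) :
    DifferentiableAt ℂ (fun τ => (A τ).det) 0 := by
  simp only [det_apply']
  exact DifferentiableAt.fun_sum fun σ _ =>
    (DifferentiableAt.fun_finsetProd fun i _ => h _ _).const_mul _

/-- Matrices as vectors. -/
def Ext_e (m : ℕ) : (Fin m × Fin m → ℂ) ≃ₗ[ℂ] Mat ℂ m m :=
  (LinearEquiv.curry ℂ ℂ (Fin m) (Fin m)).trans (Matrix.ofLinearEquiv ℂ)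

/-- The commutator map. -/
def Ext_L {ι : Type*} {m : ℕ} (B : ι → Mat ℂ m m) :
    (Fin m × Fin m → ℂ) →ₗ[ℂ] (ι × Fin m × Fin m → ℂ) where
  toFun x r := (Ext_e m x * B r.1 - B r.1 * Ext_e m x) r.2.1 r.2.2
  map_add' x y := funext fun r => by
    simp only [map_add, Matrix.add_mul, Matrix.mul_add, Matrix.sub_apply, Matrix.add_apply,
      Pi.add_apply]
    ring
  map_smul' c x := funext fun r => by
    simp only [map_smul, Matrix.smul_mul, Matrix.mul_smul, ← smul_sub, Matrix.smul_apply,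
      Pi.smul_apply, RingHom.id_apply]

theorem Ext_mem {ι : Type*} {m : ℕ} (T : ι → G m ℂ) (x : Fin m × Fin m → ℂ) :
    LinearMap.toMatrix' (Ext_L fun v => (T v).val) *ᵥ x = 0 ↔ Ext_e m x ∈ Com T := by
  rw [← toLin'_apply, toLin'_toMatrix']
  refine ⟨fun h v => sub_eq_zero.1 (Matrix.ext fun i j => congrFun h (v, i, j)),
    fun h => funext fun r => ?_⟩
  change (Ext_e m x * (T r.1).val - (T r.1).val * Ext_e m x) r.2.1 r.2.2 = 0
  rw [h r.1, sub_self, Matrix.zero_apply]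

theorem Ext_dim {ι : Type*} [Fintype ι] {m : ℕ} (T : ι → G m ℂ) :
    (LinearMap.toMatrix' (Ext_L fun v => (T v).val)).rank + Module.finrank ℂ (Com T) =
      Module.finrank ℂ (Fin m × Fin m → ℂ) := by
  have h : LinearMap.ker (LinearMap.toMatrix' (Ext_L fun v => (T v).val)).mulVecLin =
      (Com T).comap (Ext_e m : (Fin m × Fin m → ℂ) →ₗ[ℂ] Mat ℂ m m) :=
    Submodule.ext fun x => Ext_mem T x
  rw [← (LinearMap.toMatrix' (Ext_L fun v => (T v).val)).mulVecLin.finrank_range_add_finrank_ker,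
    h, Submodule.comap_equiv_eq_map_symm, LinearEquiv.finrank_map_eq, rank]

theorem rank_lsc {α : Type*} [TopologicalSpace α] {p q : Type*} [Fintype p] [Fintype q]
    (M : α → Matrix p q ℂ) (a : α) (h : ContinuousAt M a) :
    ∀ᶠ x in 𝓝 a, (M a).rank ≤ (M x).rank := by
  classical
  obtain ⟨N, hN⟩ := Ext_ginv (M a)
  filter_upwards [Ext_det h N] with x hx
  rw [← Ext_rank hN hx]
  exact rank_mul_le_right _ _

theorem com_usc {ι : Type*} [Fintype ι] {m : ℕ} (T : ι → G m ℂ) :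
    ∀ᶠ T' in 𝓝 T, Module.finrank ℂ (Com T') ≤ Module.finrank ℂ (Com T) := by
  have h : Continuous fun T' : ι → G m ℂ => LinearMap.toMatrix' (Ext_L fun v => (T' v).val) := by
    refine continuous_matrix fun r s => ?_
    have h1 : Continuous fun T' : ι → G m ℂ => (T' r.1).val :=
      Units.continuous_val.comp (continuous_apply _)
    exact ((continuous_const.matrix_mul h1).sub (h1.matrix_mul continuous_const)).matrix_elem
      r.2.1 r.2.2
  filter_upwards [rank_lsc _ T h.continuousAt] with T' hT'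
  have := Ext_dim T
  have := Ext_dim T'
  omega

theorem scal_iff_finrank {ι : Type*} {m : ℕ} (hm : 0 < m) (T : ι → G m ℂ) :
    Scal T ↔ Module.finrank ℂ (Com T) ≤ 1 := by
  have : Nonempty (Fin m) := ⟨⟨0, hm⟩⟩
  have h1 : Module.finrank ℂ (ℂ ∙ (1 : Mat ℂ m m)) = 1 := finrank_span_singleton one_ne_zero
  have h2 : (ℂ ∙ (1 : Mat ℂ m m)) ≤ Com T :=
    (Submodule.span_singleton_le_iff_mem _ _).2 fun v => by simp
  refine ⟨fun h => (Submodule.finrank_mono fun X hX => ?_).trans h1.le, fun h X hX => ?_⟩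
  · obtain ⟨c, rfl⟩ := h X hX
    exact Submodule.mem_span_singleton.2 ⟨c, rfl⟩
  · rw [← Submodule.eq_of_le_of_finrank_le h2 (h.trans h1.ge)] at hX
    obtain ⟨c, rfl⟩ := Submodule.mem_span_singleton.1 hX
    exact ⟨c, rfl⟩

theorem scal_open {ι : Type*} [Fintype ι] {m : ℕ} (hm : 0 < m) {T : ι → G m ℂ} (h : Scal T) :
    ∀ᶠ T' in 𝓝 T, Scal T' :=
  (com_usc T).mono fun T' hT' =>
    (scal_iff_finrank hm T').2 (hT'.trans ((scal_iff_finrank hm T).1 h))

theorem ext_ker {p q : Type*} [Fintype p] [Fintype q] (M : ℂ → Matrix p q ℂ) (M' : Matrix p q ℂ)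
    (hM : ∀ i j, HasDerivAt (fun τ => M τ i j) (M' i j) 0)
    (hr : ∀ᶠ τ in 𝓝 (0 : ℂ), (M τ).rank ≤ (M 0).rank) (x : q → ℂ) (hx : M 0 *ᵥ x = 0) :
    ∃ (ξ : ℂ → q → ℂ) (x' : q → ℂ), ξ 0 = x ∧ (∀ j, HasDerivAt (fun τ => ξ τ j) (x' j) 0) ∧
      ∀ᶠ τ in 𝓝 (0 : ℂ), M τ *ᵥ ξ τ = 0 := by
  classical
  obtain ⟨N, hN⟩ := Ext_ginv (M 0)
  have hc : ContinuousAt M 0 :=
    continuousAt_pi.2 fun i => continuousAt_pi.2 fun j => (hM i j).continuousAt
  have hA : ∀ i j, DifferentiableAt ℂ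
      (fun τ : ℂ => (1 - N * M 0 + N * M τ : Matrix q q ℂ) i j) 0 := fun i j => by
    simp only [Matrix.add_apply, Matrix.mul_apply (N := M _)]
    exact (DifferentiableAt.fun_sum fun k _ => (hM k j).differentiableAt.const_mul _).const_add _
  have hd : ∀ j, DifferentiableAt ℂ (fun τ => (((1 - N * M 0 + N * M τ).det)⁻¹ •
      cramer (1 - N * M 0 + N * M τ) x) j) 0 := fun j => by
    simp only [Pi.smul_apply, smul_eq_mul, cramer_apply]
    refine ((Ext_diff_det hA).fun_inv (by simp)).fun_mul (Ext_diff_det fun i k => ?_)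
    simp only [updateCol_apply]
    split_ifs
    exacts [differentiableAt_const _, hA i k]
  refine ⟨_, _, by simp, fun j => (hd j).hasDerivAt, ?_⟩
  filter_upwards [hr, Ext_det hc N] with τ h1 h2
  have h3 : LinearMap.ker (M τ).mulVecLin = LinearMap.ker (M 0 * N * M τ).mulVecLin := by
    refine Submodule.eq_of_le_of_finrank_le
      (mulVecLin_mul (M 0 * N) (M τ) ▸ LinearMap.ker_le_ker_comp _ _) ?_
    have a1 := (M τ).mulVecLin.finrank_range_add_finrank_ker
    have a2 := (M 0 * N * M τ).mulVecLin.finrank_range_add_finrank_ker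
    have a3 := Ext_rank hN h2
    unfold rank at h1 a3
    omega
  rw [← mulVecLin_apply, ← LinearMap.mem_ker, h3, LinearMap.mem_ker, mulVecLin_apply,
    ← Ext_mul hN, ← mulVec_mulVec, mulVec_smul, mulVec_cramer, inv_smul_smul₀ h2, hx]

theorem ext_rank {n k : ℕ} (M : ℂ → Mat ℂ n k) (M' : Mat ℂ n k) (hM : DAt M M')
    (hr : ∀ᶠ τ in 𝓝 (0 : ℂ), (M τ).rank ≤ (M 0).rank) (x : Fin k → ℂ) (hx : M 0 *ᵥ x = 0) :
    ∃ y, M' *ᵥ x = M 0 *ᵥ y := by
  obtain ⟨ξ, x', h0, h1, h2⟩ := ext_ker M M' hM hr x hx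
  refine ⟨-x', funext fun i => ?_⟩
  have h3 : HasDerivAt (fun τ => (M τ *ᵥ ξ τ) i) (∑ j, (M' i j * ξ 0 j + M 0 i j * x' j)) 0 :=
    HasDerivAt.fun_sum (u := Finset.univ) fun j _ => (hM i j).fun_mul (h1 j)
  have h4 := h3.unique ((hasDerivAt_const (0 : ℂ) (0 : ℂ)).congr_of_eventuallyEq
    (h2.mono fun τ h => congrFun h i))
  rw [Finset.sum_add_distrib, h0] at h4
  rw [mulVec_neg]
  exact eq_neg_of_add_eq_zero_left h4

theorem ext_com {ι : Type*} [Fintype ι] {m : ℕ} (γ : ℂ → ι → G m ℂ) (ξ : ι → Mat ℂ m m)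
    (hγ : ∀ v, DAt (fun τ => (γ τ v).val) (ξ v))
    (hr : ∀ᶠ τ in 𝓝 (0 : ℂ), Module.finrank ℂ (Com (γ 0)) ≤ Module.finrank ℂ (Com (γ τ)))
    (X : Mat ℂ m m) (hX : X ∈ Com (γ 0)) :
    ∃ (Xc : ℂ → Mat ℂ m m) (X' : Mat ℂ m m), Xc 0 = X ∧ DAt Xc X' ∧
      ∀ᶠ τ in 𝓝 (0 : ℂ), Xc τ ∈ Com (γ τ) := by
  obtain ⟨y, y', h0, h1, h2⟩ := ext_ker (fun τ => LinearMap.toMatrix' (Ext_L fun v => (γ τ v).val))
    (Matrix.of fun _ _ => _)
    (fun r s => (((DAt.const _).mul (hγ r.1)).sub ((hγ r.1).mul (DAt.const _))) r.2.1 r.2.2)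
    (hr.mono fun τ h => by
      have := Ext_dim (γ 0)
      have := Ext_dim (γ τ)
      omega) ((Ext_e m).symm X) ((Ext_mem _ _).2 (by simpa using hX))
  exact ⟨fun τ => Ext_e m (y τ), Ext_e m y', by simp [h0], fun i j => h1 (i, j),
    h2.mono fun τ h => (Ext_mem _ _).1 h⟩

end Crest.Agent.R3

end
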