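import Crest.Agent.R3.NiceU

set_option autoImplicit false

noncomputable section

namespace Crest.Agent.R3

open Matrix Filter Topology

/-! Units of `O[X]/χ` are Zariski dense. -/

open NumberField in
/-- A fixed power of every unit is `≡ 1` modulo `d`. -/
theorem NiceD_cong (E : Type) [Field E] [NumberField E] {d : E} (hd : d ≠ 0)
    (hi : IsIntegral ℤ d) : ∃ N : ℕ, 0 < N ∧ ∀ u : E, u ≠ 0 → IsIntegral ℤ u →
      IsIntegral ℤ u⁻¹ → IsIntegral ℤ ((u ^ N - 1) / d) := by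
  let D : 𝓞 E := ⟨d, hi⟩
  have hD : Ideal.span {D} ≠ ⊥ := by
    rw [Ne, Ideal.span_singleton_eq_bot]
    exact fun h => hd (congrArg Subtype.val h)
  have := Ideal.finiteQuotientOfFreeOfNeBot _ hD
  refine ⟨Nat.card (𝓞 E ⧸ Ideal.span {D})ˣ, Nat.card_pos, fun u h0 h1 h2 => ?_⟩
  let U : (𝓞 E)ˣ := ⟨⟨u, h1⟩, ⟨u⁻¹, h2⟩, Subtype.ext (mul_inv_cancel₀ h0),
    Subtype.ext (inv_mul_cancel₀ h0)⟩
  have h3 := congrArg Units.val
    (pow_card_eq_one' (x := Units.map (Ideal.Quotient.mk (Ideal.span {D})).toMonoidHom U))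
  rw [Units.val_pow_eq_pow_val, Units.coe_map, Units.val_one] at h3
  have h4 : (U : 𝓞 E) ^ Nat.card (𝓞 E ⧸ Ideal.span {D})ˣ - 1 ∈ Ideal.span {D} := by
    rw [← Ideal.Quotient.eq, map_pow, map_one]
    exact h3
  obtain ⟨y, hy⟩ := Ideal.mem_span_singleton.1 h4
  have h5 := congrArg (algebraMap (𝓞 E) E) hy
  rw [map_sub, map_pow, map_one, map_mul] at h5
  have h6 : u ^ Nat.card (𝓞 E ⧸ Ideal.span {D})ˣ - 1 = d * algebraMap (𝓞 E) E y := h5
  rw [h6, mul_div_cancel_left₀ _ hd]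
  exact y.isIntegral_coe

open Polynomial in
/-- Lagrange interpolation of Galois equivariant values. -/
theorem NiceD_interp {F E : Type} [Field F] [Field E] [Algebra F E] [FiniteDimensional F E]
    [IsGalois F E] [DecidableEq E] {S : Finset E} (hS : ∀ (σ : E ≃ₐ[F] E), ∀ x ∈ S, σ x ∈ S)
    (hI : ∀ x ∈ S, IsIntegral ℤ x) {t : E → E} (ht : ∀ (σ : E ≃ₐ[F] E) x, σ (t x) = t (σ x))
    (hd : ∀ x ∈ S, IsIntegral ℤ ((t x - 1) / ∏ y ∈ S.erase x, (x - y))) :
    ∃ p : F[X], (∀ k, IsIntegral ℤ (p.coeff k)) ∧ ∀ x ∈ S, aeval x p = t x := by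
  obtain ⟨q, hq⟩ : ∃ q, q = Lagrange.interpolate S id fun x => t x - 1 := ⟨_, rfl⟩
  have q1 : q.degree < S.card := hq ▸ Lagrange.degree_interpolate_lt _ (Set.injOn_id _)
  have q2 : ∀ x ∈ S, q.eval x = t x - 1 := fun x hx =>
    hq ▸ Lagrange.eval_interpolate_at_node (fun x => t x - 1) (Set.injOn_id _) hx
  have q3 : q ∈ lifts (algebraMap (integralClosure ℤ E) E) := by
    rw [hq, Lagrange.interpolate_eq_sum, lifts_iff_liftsRing]
    refine sum_mem fun x hx => mul_mem ?_ (prod_mem fun y hy => sub_mem ?_ ?_)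
    · exact (lifts_iff_liftsRing _ _).1 (C'_mem_lifts ⟨⟨_, hd x hx⟩, rfl⟩)
    · exact (lifts_iff_liftsRing _ _).1 (X_mem_lifts _)
    · exact (lifts_iff_liftsRing _ _).1 (C'_mem_lifts ⟨⟨_, hI y (Finset.mem_of_mem_erase hy)⟩, rfl⟩)
  have q4 : ∀ σ : E ≃ₐ[F] E, q.map (σ : E →+* E) = q := fun σ => by
    refine eq_of_degrees_lt_of_eval_finset_eq S (degree_map_le.trans_lt q1) q1 fun x hx => ?_
    have h1 := hS σ.symm x hx
    have h2 : (q.map (σ : E →+* E)).eval x = σ (q.eval (σ.symm x)) := by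
      conv_lhs => rw [← σ.apply_symm_apply x]
      exact eval_map_apply (σ : E →+* E) _
    rw [h2, q2 _ h1, q2 _ hx, map_sub, map_one, ht, σ.apply_symm_apply]
  obtain ⟨p, hp⟩ : q ∈ lifts (algebraMap F E) := by
    refine (lifts_iff_coeff_lifts _).2 fun k => (IsGalois.mem_range_algebraMap_iff_fixed _).2
      fun σ => ?_
    conv_rhs => rw [← q4 σ, coeff_map]
    rfl
  rw [coe_mapRingHom] at hp
  refine ⟨p + 1, fun k => ?_, fun x hx => ?_⟩
  · rw [coeff_add]
    refine IsIntegral.add ?_ ?_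
    · obtain ⟨y, hy⟩ := (lifts_iff_coeff_lifts _).1 q3 k
      rw [← isIntegral_algebraMap_iff (algebraMap F E).injective, ← coeff_map, hp, ← hy]
      exact y.2
    · rw [coeff_one]
      split_ifs
      exacts [isIntegral_one, isIntegral_zero]
  · rw [map_add, map_one, ← eval_map_algebraMap, hp, q2 x hx, sub_add_cancel]

open Polynomial in
/-- A unit of `O[X]/χ` on which a given monomial character is non-trivial. -/
theorem NiceD_unit {F E : Type} [Field F] [NumberField F] [Field E] [NumberField E] [Algebra F E]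
    [IsGalois F E] (s : F) (hs : s ^ 2 = 2) (ω : F) (n : ℕ) (hn : 2 < n)
    (hω : IsPrimitiveRoot ω n) {S : Finset E} (hS : ∀ (σ : E ≃ₐ[F] E), ∀ x ∈ S, σ x ∈ S)
    (hI : ∀ x ∈ S, IsIntegral ℤ x) (ν : E → ℤ) {x₀ : E} (hx₀ : x₀ ∈ S) (hν : ν x₀ ≠ 0) :
    ∃ p p' : F[X], (∀ k, IsIntegral ℤ (p.coeff k)) ∧ (∀ k, IsIntegral ℤ (p'.coeff k)) ∧
      (∀ x ∈ S, aeval x p * aeval x p' = 1) ∧ ∏ x ∈ S, aeval x p ^ ν x ≠ 1 := by
  classical
  obtain ⟨ε, e0, e1, e2, e3⟩ := units_sep F E s hs ω n hn hω (fun σ => ν (σ x₀))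
    fun h => hν (congrFun h 1)
  have i1 : ∀ x ∈ S, IsIntegral ℤ (∏ y ∈ S.erase x, (x - y)) := fun x hx =>
    IsIntegral.prod _ fun y hy => (hI x hx).sub (hI y (Finset.mem_of_mem_erase hy))
  have i2 : ∀ x : E, ∏ y ∈ S.erase x, (x - y) ≠ 0 := fun x => Finset.prod_ne_zero_iff.2
    fun y hy => sub_ne_zero.2 (Finset.ne_of_mem_erase hy).symm
  obtain ⟨N, hN, hc⟩ := NiceD_cong E (d := ∏ x ∈ S, ∏ y ∈ S.erase x, (x - y))
    (Finset.prod_ne_zero_iff.2 fun x _ => i2 x) (IsIntegral.prod _ i1)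
  have key : ∀ ε : E, ε ≠ 0 → IsIntegral ℤ ε → IsIntegral ℤ ε⁻¹ →
      ∃ p : F[X], (∀ k, IsIntegral ℤ (p.coeff k)) ∧
        ∀ x ∈ S, aeval x p = (∏ σ : E ≃ₐ[F] E with σ x₀ = x, σ ε) ^ N := fun ε e0 e1 e2 => by
    refine NiceD_interp hS hI (fun τ x => ?_) fun x hx => ?_
    · rw [map_pow, map_prod]
      congr 1
      refine Finset.prod_equiv (Equiv.mulLeft τ) (fun σ => ?_) fun σ _ => rfl
      simp
    · have := (hc (∏ σ : E ≃ₐ[F] E with σ x₀ = x, σ ε)
        (Finset.prod_ne_zero_iff.2 fun σ _ => (map_ne_zero σ).2 e0)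
        (IsIntegral.prod _ fun σ _ => map_isIntegral_int σ e1)
        (by
          rw [← Finset.prod_inv_distrib]
          exact IsIntegral.prod _ fun σ _ => by
            rw [← map_inv₀]; exact map_isIntegral_int σ e2)).mul
        (IsIntegral.prod _ fun z hz => i1 z (Finset.mem_of_mem_erase (a := x) hz))
      rwa [← Finset.mul_prod_erase S _ hx, div_mul_eq_mul_div, mul_div_mul_right _ _
        (Finset.prod_ne_zero_iff.2 fun z _ => i2 z)] at this
  obtain ⟨p, p1, p2⟩ := key ε e0 e1 e2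
  obtain ⟨p', q1, q2⟩ := key ε⁻¹ (inv_ne_zero e0) e2 (by rwa [inv_inv])
  refine ⟨p, p', p1, q1, fun x hx => ?_, ?_⟩
  · rw [p2 x hx, q2 x hx, ← mul_pow, ← Finset.prod_mul_distrib, Finset.prod_eq_one, one_pow]
    intro σ _
    rw [← map_mul, mul_inv_cancel₀ e0, map_one]
  · convert e3 N hN using 1
    rw [← Finset.prod_fiberwise_of_maps_to (fun σ _ => hS σ x₀ hx₀), ← Finset.prod_pow]
    refine Finset.prod_congr rfl fun x hx => ?_
    rw [p2 x hx, ← zpow_natCast, ← _root_.zpow_mul, mul_comm, _root_.zpow_mul, zpow_natCast,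
      ← Finset.prod_zpow]
    congr 1
    exact Finset.prod_congr rfl fun σ hσ => by rw [(Finset.mem_filter.1 hσ).2]

open Polynomial in
/-- The density statement from the separation of characters. -/
theorem NiceD_dense {O : Type} [CommRing O] (f : O →+* ℂ) {m : ℕ} {χ : O[X]} (hχ : χ.Monic)
    (hd : χ.natDegree = m) {z : Fin m → ℂ} (hz : Function.Injective z)
    (hr : ∀ i, χ.eval₂ f (z i) = 0)
    (hsep : ∀ ν : Fin m → ℤ, ν ≠ 0 → ∃ p p' : O[X], χ ∣ p * p' - 1 ∧
      ∏ i, p.eval₂ f (z i) ^ ν i ≠ 1) (P : MvPolynomial (Fin m) ℂ)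
    (hP : ∀ c : Fin m → O, (∃ p' : O[X], χ ∣ (∑ k : Fin m, C (c k) * X ^ (k : ℕ)) * p' - 1) →
      MvPolynomial.eval (fun k => f (c k)) P = 0) : P = 0 := by
  classical
  have : Nontrivial O := f.domain_nontrivial
  let M : Submonoid O[X] :=
    { carrier := {p | ∃ p', χ ∣ p * p' - 1}
      one_mem' := ⟨1, by simp⟩
      mul_mem' := by
        rintro a b ⟨a', ha⟩ ⟨b', hb⟩
        refine ⟨a' * b', ?_⟩
        rw [show a * b * (a' * b') - 1 = (a * a' - 1) * (b * b') + (b * b' - 1) by ring]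
        exact (ha.mul_right _).add hb }
  let ψ : (Fin m →₀ ℕ) → M →* ℂ := fun ν =>
    { toFun := fun p => ∏ i, p.1.eval₂ f (z i) ^ ν i
      map_one' := by simp
      map_mul' := fun a b => by
        simp only [Submonoid.coe_mul, eval₂_mul, mul_pow, Finset.prod_mul_distrib] }
  have hψ : Function.Injective ψ := fun ν μ h => by
    by_contra hne
    obtain ⟨p, p', h1, h2⟩ := hsep (fun i => (ν i : ℤ) - μ i) fun h0 => hne
      (Finsupp.ext fun i => by exact_mod_cast sub_eq_zero.1 (congrFun h0 i))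
    have h3 : ∀ i, p.eval₂ f (z i) ≠ 0 := fun i h0 => by
      obtain ⟨g, hg⟩ := h1
      simpa [eval₂_sub, eval₂_mul, h0, hr i] using congrArg (eval₂ f (z i)) hg
    have h4 : ∏ i, p.eval₂ f (z i) ^ ν i = ∏ i, p.eval₂ f (z i) ^ μ i :=
      DFunLike.congr_fun h ⟨p, p', h1⟩
    refine h2 ?_
    simp only [zpow_sub₀ (h3 _), zpow_natCast, Finset.prod_div_distrib, h4]
    exact div_self (Finset.prod_ne_zero_iff.2 fun i _ => pow_ne_zero _ (h3 i))
  have hV : IsUnit (vandermonde z).det := by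
    rw [isUnit_iff_ne_zero, det_vandermonde_ne_zero_iff]
    exact hz
  obtain ⟨Q, hQ⟩ : ∃ Q : MvPolynomial (Fin m) ℂ, ∀ c : Fin m → ℂ,
      MvPolynomial.eval (vandermonde z *ᵥ c) Q = MvPolynomial.eval c P := by
    refine ⟨MvPolynomial.bind₁ (fun k => ∑ i, MvPolynomial.C ((vandermonde z)⁻¹ k i) *
      MvPolynomial.X i) P, fun c => ?_⟩
    rw [← MvPolynomial.coe_aeval_eq_eval, ← MvPolynomial.coe_aeval_eq_eval]
    refine (MvPolynomial.aeval_bind₁ _ _ _).trans (congrArg (fun x => MvPolynomial.aeval x P) ?_)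
    conv_rhs => rw [← one_mulVec c, ← nonsing_inv_mul _ hV, ← mulVec_mulVec]
    funext k
    simp [mulVec, dotProduct]
  have hQ0 : Q = 0 := by
    have h1 := linearIndependent_iff'.1 ((linearIndependent_monoidHom M ℂ).comp ψ hψ) Q.support
      (fun ν => Q.coeff ν) (funext fun ⟨p, p', hp⟩ => ?_)
    · exact MvPolynomial.ext _ _ fun ν => by
        by_contra h
        exact h (h1 ν (MvPolynomial.mem_support_iff.2 h))
    have h2 : ∑ k : Fin m, C ((p %ₘ χ).coeff k) * X ^ (k : ℕ) = p %ₘ χ := by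
      have := degree_modByMonic_lt p hχ
      rw [degree_eq_natDegree hχ.ne_zero, hd] at this
      simp only [C_mul_X_pow_eq_monomial]
      exact (sum_fin (fun k a => monomial k a) (fun k => monomial_zero_right k) this).trans
        (sum_monomial_eq _)
    have h3 := hP (fun k => (p %ₘ χ).coeff k) ⟨p', by
      rw [h2, modByMonic_eq_sub_mul_div,
        show (p - χ * (p /ₘ χ)) * p' - 1 = p * p' - 1 - χ * (p /ₘ χ * p') by ring]
      exact hp.sub (dvd_mul_right _ _)⟩
    have h4 : (vandermonde z *ᵥ fun k => f ((p %ₘ χ).coeff k)) = fun i => p.eval₂ f (z i) := by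
      funext i
      rw [← eval₂_modByMonic_eq_self_of_root (hr i)]
      conv_rhs => rw [← h2, eval₂_finsetSum]
      rw [mulVec, dotProduct]
      refine Finset.sum_congr rfl fun k _ => ?_
      rw [eval₂_mul, eval₂_C, eval₂_X_pow, vandermonde_apply, mul_comm]
    rw [← hQ, h4, MvPolynomial.eval_eq'] at h3
    rw [Finset.sum_apply]
    exact h3
  refine MvPolynomial.funext fun c => ?_
  rw [← hQ, hQ0, map_zero, map_zero]

theorem dd_intRing (F : Subfield ℂ) [FiniteDimensional ℚ F] (s : ℂ) (hsF : s ∈ F)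
    (hs : s ^ 2 = 2) (ω : ℂ) (hωF : ω ∈ F) (n : ℕ) (hn : 2 < n) (hω : IsPrimitiveRoot ω n)
    (m : ℕ) (χ : Polynomial (intRing F)) (hχ : χ.Monic) (hd : χ.natDegree = m)
    (hsep : (χ.map (algebraMap (intRing F) ℂ)).Separable) (P : MvPolynomial (Fin m) ℂ)
    (hP : ∀ c : Fin m → intRing F, (∃ p' : Polynomial (intRing F),
        χ ∣ (∑ k : Fin m, Polynomial.C (c k) * Polynomial.X ^ (k : ℕ)) * p' - 1) →
      MvPolynomial.eval (fun k => (c k : ℂ)) P = 0) : P = 0 := by
  classical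
  have : NumberField F := {}
  let j : intRing F →+* F := (intRing F).subtype.codRestrict F fun x => x.2.1
  have hj : (algebraMap F ℂ).comp j = algebraMap (intRing F) ℂ := rfl
  have hlift : ∀ p : Polynomial F, (∀ k, IsIntegral ℤ (p.coeff k)) →
      ∃ q : Polynomial (intRing F), q.map j = p := fun p hp =>
    (Polynomial.mem_lifts _).1 ((Polynomial.lifts_iff_coeff_lifts _).2 fun k =>
      ⟨⟨p.coeff k, (p.coeff k).2, map_isIntegral_int F.subtype (hp k)⟩, rfl⟩)
  have hsF' : (χ.map j).Separable := by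
    rw [← Polynomial.separable_map (algebraMap F ℂ), Polynomial.map_map, hj]
    exact hsep
  have hm : (χ.map j).Monic := hχ.map j
  let E := (χ.map j).SplittingField
  have : IsGalois F E := IsGalois.of_separable_splitting_field hsF'
  have : NumberField E := NumberField.of_module_finite F E
  let ι : E →ₐ[F] ℂ := IsAlgClosed.lift
  obtain ⟨S, hc, hS⟩ : ∃ S : Finset E, S.card = m ∧
      ∀ x, x ∈ S ↔ Polynomial.aeval x (χ.map j) = 0 := by
    refine ⟨((χ.map j).rootSet E).toFinset, ?_, fun x => ?_⟩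
    · rw [Set.toFinset_card,
        Polynomial.card_rootSet_eq_natDegree hsF' (Polynomial.SplittingField.splits _),
        hχ.natDegree_map, hd]
    · rw [Set.mem_toFinset, hm.mem_rootSet]
  let e : S ≃ Fin m := Finset.equivFinOfCardEq hc
  have hev : ∀ (x : E) (q : Polynomial (intRing F)),
      q.eval₂ (algebraMap (intRing F) ℂ) (ι x) = ι (Polynomial.aeval x (q.map j)) := fun x q => by
    rw [← Polynomial.aeval_algHom_apply, Polynomial.aeval_def, Polynomial.eval₂_map, hj]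
  have hz : Function.Injective fun i => ι (e.symm i : E) :=
    ι.injective.comp (Subtype.val_injective.comp e.symm.injective)
  have hf : Function.Injective (algebraMap (intRing F) ℂ) := Subtype.val_injective
  have hI : ∀ x ∈ S, IsIntegral ℤ x := fun x hx => by
    have h1 : IsIntegral (intRing F) (ι x) := ⟨χ, hχ, by rw [hev, (hS x).1 hx, map_zero]⟩
    have : Algebra.IsIntegral ℤ (intRing F) := ⟨fun y =>
      (isIntegral_algHom_iff (intRing F).subtype.toIntAlgHom hf).1 y.2.2⟩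
    exact (isIntegral_algHom_iff (ι : E →+* ℂ).toIntAlgHom ι.injective).1
      (isIntegral_trans (A := intRing F) _ h1)
  refine NiceD_dense (algebraMap (intRing F) ℂ) hχ hd hz
    (fun i => by rw [hev, (hS _).1 (e.symm i).2, map_zero]) (fun ν hν => ?_) P hP
  obtain ⟨i₀, hi₀⟩ := Function.ne_iff.1 hν
  obtain ⟨p, p', p1, q1, h1, h2⟩ := NiceD_unit (E := E) (⟨s, hsF⟩ : F) (Subtype.ext hs)
    (⟨ω, hωF⟩ : F) n hn (IsPrimitiveRoot.of_map_of_injective (f := F.subtype) hω
      Subtype.val_injective) (S := S)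
    (fun σ x hx => (hS _).2 (by rw [Polynomial.aeval_algHom_apply, (hS x).1 hx, map_zero])) hI
    (fun x => if h : x ∈ S then ν (e ⟨x, h⟩) else 0) (e.symm i₀).2 (by simpa using hi₀)
  obtain ⟨q, rfl⟩ := hlift p p1
  obtain ⟨q', rfl⟩ := hlift p' q1
  refine ⟨q, q', ?_, fun h => h2 (ι.injective ?_)⟩
  · rw [← Polynomial.modByMonic_eq_zero_iff_dvd hχ, ← Polynomial.map_eq_zero_iff hf]
    refine Polynomial.eq_zero_of_degree_lt_of_eval_index_eq_zero Finset.univ hz.injOn
      (Polynomial.degree_map_le.trans_lt ?_) fun i _ => ?_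
    · rw [Finset.card_fin, ← hd, ← Polynomial.degree_eq_natDegree hχ.ne_zero]
      exact Polynomial.degree_modByMonic_lt _ hχ
    · rw [Polynomial.eval_map, Polynomial.eval₂_modByMonic_eq_self_of_root
        (by rw [hev, (hS _).1 (e.symm i).2, map_zero]), hev, Polynomial.map_sub,
        Polynomial.map_mul, Polynomial.map_one, map_sub, map_mul, map_one, h1 _ (e.symm i).2,
        sub_self, map_zero]
  · rw [map_one, ← h, map_prod, ← Finset.prod_coe_sort, ← e.symm.prod_comp]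
    refine Finset.prod_congr rfl fun i _ => ?_
    rw [map_zpow₀, hev, dif_pos (e.symm i).2]
    simp

end Crest.Agent.R3

end
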