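import Crest.Prelude.Def_CharVarRel
import Crest.Agent.R3.NiceD

set_option autoImplicit false

noncomputable section

namespace Crest.Agent.R3

open Matrix Filter Topology

open Crest.NumberTheoryR.CharVarRel

/-! The ring of integers of `K(√2, μ_pq)`. -/

theorem finiteDimensional_rootField (K : Subfield ℂ) (hK : FiniteDimensional ℚ K) (n : ℕ)
    (hn : 0 < n) : FiniteDimensional ℚ (rootField K n) := by
  let S : Set ℂ := {z : ℂ | z ^ 2 = 2} ∪ {z : ℂ | z ^ n = 1}
  have hfin : ∀ (k : ℕ) (a : ℂ), 0 < k → {z : ℂ | z ^ k = a}.Finite := by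
    intro k a hk
    refine (Polynomial.nthRoots k a).toFinset.finite_toSet.subset fun z hz => ?_
    simpa [Polynomial.mem_nthRoots hk] using hz
  have hS : S.Finite := (hfin 2 2 (by norm_num)).union (hfin n 1 hn)
  have : Finite S := hS.to_subtype
  have hint : ∀ x ∈ S, IsIntegral K x := by
    rintro x (hx | hx)
    · refine IsIntegral.of_pow (n := 2) (by norm_num) ?_
      rw [show x ^ 2 = 2 from hx]
      exact_mod_cast isIntegral_natCast (R := K) (B := ℂ) 2
    · refine IsIntegral.of_pow hn ?_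
      rw [show x ^ n = 1 from hx]
      exact isIntegral_one
  have h1 : FiniteDimensional K (IntermediateField.adjoin K S) :=
    IntermediateField.finiteDimensional_adjoin hint
  have h2 : FiniteDimensional ℚ (IntermediateField.adjoin K S) :=
    Module.Finite.trans K _
  have h3 : (IntermediateField.adjoin K S).toSubfield = rootField K n := by
    rw [IntermediateField.adjoin_toSubfield, rootField, Set.union_assoc]
    congr 2
    ext z
    simp [Subfield.algebraMap_ofSubfield]
  rw [← h3]
  exact h2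

theorem unit_of_root (F : Subfield ℂ) (μ : ℂ) (hF : μ ∈ F) (k : ℕ) (hk : 0 < k)
    (h : μ ^ k = 1) : ∃ u : (intRing F)ˣ, ((u : intRing F) : ℂ) = μ := by
  have hi : IsIntegral ℤ μ := IsIntegral.of_pow hk (h ▸ isIntegral_one)
  let x : intRing F := ⟨μ, mem_intRing.mpr ⟨hF, hi⟩⟩
  have hx : x ^ k = 1 := Subtype.ext (by simpa using h)
  have hu : IsUnit x := IsUnit.of_pow_eq_one hx hk.ne'
  exact ⟨hu.unit, by simp [x]⟩

theorem NiceO_unit {O : Type} [CommRing O] [IsDomain O] (x : O) (p q : ℕ) (hp : p.Prime)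
    (hq : q.Prime) (hpq : p ≠ q) (hx : IsPrimitiveRoot x (p * q)) : IsUnit (1 - x) := by
  have hn : 0 < p * q := Nat.mul_pos hp.pos hq.pos
  have h1 : Polynomial.eval 1 (Polynomial.cyclotomic (p * q) O) = 1 := by
    refine Polynomial.eval_one_cyclotomic_not_prime_pow fun {l} hl k h => hpq ?_
    have a1 : p ∣ l ^ k := h ▸ Dvd.intro _ rfl
    have a2 : q ∣ l ^ k := h ▸ Dvd.intro_left _ rfl
    rw [(Nat.prime_dvd_prime_iff_eq hp hl).mp (hp.dvd_of_dvd_pow a1),
      (Nat.prime_dvd_prime_iff_eq hq hl).mp (hq.dvd_of_dvd_pow a2)]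
  rw [Polynomial.cyclotomic_eq_prod_X_sub_primitiveRoots hx, Polynomial.eval_prod] at h1
  have h2 : (1 - x) ∣ 1 := by
    have := Finset.dvd_prod_of_mem (fun μ : O => Polynomial.eval 1 (Polynomial.X - Polynomial.C μ))
      ((mem_primitiveRoots hn).mpr hx)
    rw [h1] at this
    simpa using this
  exact isUnit_of_dvd_one h2

theorem nice_rootField (K : Subfield ℂ) (hK : FiniteDimensional ℚ K) (r p q : ℕ) (hp : p.Prime)
    (hq : q.Prime) (hpq : p ≠ q) (hrp : r < p) (hrq : r < q) :
    Nice (intRing (rootField K (p * q))) r := by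
  have hn : 0 < p * q := Nat.mul_pos hp.pos hq.pos
  have hn2 : 2 < p * q := by
    have := hp.two_le
    have := hq.two_le
    nlinarith
  have := finiteDimensional_rootField K hK (p * q) hn
  have hω := Complex.isPrimitiveRoot_exp (p * q) hn.ne'
  set ω : ℂ := Complex.exp (2 * Real.pi * Complex.I / ((p * q : ℕ) : ℂ)) with hωdef
  have hωF : ω ∈ rootField K (p * q) :=
    Subfield.subset_closure (Or.inr hω.pow_eq_one)
  have h0 : ((Real.sqrt 2 : ℝ) : ℂ) ^ 2 = 2 := by
    rw [← Complex.ofReal_pow, Real.sq_sqrt (by norm_num)]; simp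
  have hsF : ((Real.sqrt 2 : ℝ) : ℂ) ∈ rootField K (p * q) :=
    Subfield.subset_closure (Or.inl (Or.inr h0))
  refine ⟨fun m χ hχ hd hsep P hP =>
    dd_intRing _ _ hsF h0 ω hωF (p * q) hn2 hω m χ hχ hd hsep P hP, ?_⟩
  obtain ⟨u, hu⟩ := unit_of_root _ ω hωF (p * q) hn hω.pow_eq_one
  have hu' : IsPrimitiveRoot (u : intRing (rootField K (p * q))) (p * q) := by
    refine IsPrimitiveRoot.of_map_of_injective (f := (intRing (rootField K (p * q))).subtype) ?_
      Subtype.val_injective
    simpa [hu] using hω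
  have key : ∀ i j : ℕ, i < j → j < r →
      IsUnit ((u : intRing (rootField K (p * q))) ^ i - (u : intRing (rootField K (p * q))) ^ j) := by
    intro i j hij hj
    obtain ⟨k, rfl⟩ := Nat.exists_eq_add_of_lt hij
    have hc : (k + 1).Coprime (p * q) := by
      refine Nat.Coprime.mul_right ?_ ?_
      · exact (Nat.coprime_of_lt_prime (by omega) (by omega) hp).symm
      · exact (Nat.coprime_of_lt_prime (by omega) (by omega) hq).symm
    have h1 := NiceO_unit _ p q hp hq hpq (hu'.pow_of_coprime (k + 1) hc)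
    have h2 : (u : intRing (rootField K (p * q))) ^ i - (u : intRing (rootField K (p * q))) ^ (i + k + 1)
        = (u : intRing (rootField K (p * q))) ^ i * (1 - (u : intRing (rootField K (p * q))) ^ (k + 1)) := by
      ring
    rw [h2]
    exact (u.isUnit.pow i).mul h1
  refine ⟨fun i => u ^ (i : ℕ), fun i j hij => ?_⟩
  simp only [Units.val_pow_eq_pow_val]
  rcases lt_or_gt_of_ne (fun h => hij (Fin.ext h)) with h | h
  · exact key i j h j.2
  · rw [← neg_sub]
    exact (key j i h i.2).neg

end Crest.Agent.R3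

end
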