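import Crest.Agent.R3.Syn

set_option autoImplicit false

noncomputable section

namespace Crest.Agent.R3

open Matrix Filter Topology

/-! Flags are systems. -/

variable {O : Subring ℂ} {ρ : ℕ}

section Aux
variable {R : Type*} [CommRing R] [Algebra O R] {a b n : ℕ}

/-- The vertex of one step of a flag. -/
def Flag_vx (h : a + b = n) (K : ℕ) (w : Word O) (ξ : Oˣ) : Vx O :=
  .grid (r2form ⟨h, some K, w, [.var (false, K + 1) false], [.sc ξ⁻¹]⟩ (TL.new h K))

theorem Flag_vx_sat (h : a + b = n) (K : ℕ) (w : Word O) (ξ : Oˣ) (u : Val R) :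
    (Flag_vx h K w ξ).Sat u ↔
      (ev n u w).val * (u ⟨a, b, n, K, h⟩).i =
          (u ⟨a, b, n, K, h⟩).i * (letters a u (false, K + 1)).val ∧
        (u ⟨a, b, n, K, h⟩).p * (ev n u w).val = (scal R b ξ).val * (u ⟨a, b, n, K, h⟩).p := by
  refine (r2form_sat u _ _).trans ?_
  rw [TL.new_val]
  simp only [Ex.Sim, HL.val, lval, Ex.twist_i, Ex.twist_p, ev_cons, ev_nil, mul_one, evalI_false,
    evalI_sc, scal_inv, inv_inv]
  rw [ExB_eq_iff_r, ExB_eq_iff_r, inv_inv, inv_inv]
  exact and_congr Iff.rfl eq_comm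

theorem Flag_vx_occ (h : a + b = n) (K : ℕ) (w : Word O) (ξ : Oˣ) : (Flag_vx h K w ξ).occ =
    wocc n w + ({(⟨a, b, n, K, h⟩, true)} + {(⟨a, b, n, K, h⟩, false)} +
      {(varS a (K + 1), false)}) := by
  refine (r2form_occ _ _).trans ?_
  simp only [HL.occ, locc, TL.new_occ, wocc_var, wocc_sc, wocc_nil, add_zero, letterVar]
  abel

theorem Flag_mem {F : List (FlagC O)} {f : FlagC O} (hf : f ∈ F) {o : Var × Bool}
    (ho : o ∈ wocc f.n f.w) : o ∈ (F.map fun f => wocc f.n f.w).sum :=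
  Multiset.mem_of_le (List.single_le_sum (fun _ _ => zero_le) _
    (List.mem_map_of_mem (f := fun f : FlagC O => wocc f.n f.w) hf)) ho

end Aux

theorem Flag_step (F : List (FlagC O))
    (ih : ∀ (S : Sys O), (∀ v ∈ S, v.ok) → (occ S + (F.map fun f => wocc f.n f.w).sum).Nodup →
      Top ρ S → ∀ x : Val ℂ, Sat x S → (∀ f ∈ F, f.Sat x) →
        ∃ (L : LR O) (u : Val L.A), Lifts L u x ∧ Sat u S ∧ ∀ f ∈ F, f.Sat u)
    (l : List (ℕ × Oˣ)) (n : ℕ) (w : Word O) (S : Sys O) (hok : ∀ v ∈ S, v.ok)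
    (hnd : (occ S + (wocc n w + (F.map fun f => wocc f.n f.w).sum)).Nodup) (hT : Top ρ S)
    (hl : FlagOK ρ n l) (x : Val ℂ) (hx : Sat x S) (hxl : Flagged ℂ l n (ev n x w))
    (hxF : ∀ f ∈ F, f.Sat x) :
    ∃ (L : LR O) (u : Val L.A), Lifts L u x ∧ Sat u S ∧ Flagged L.A l n (ev n u w) ∧
      ∀ f ∈ F, f.Sat u := by
  induction l generalizing n w S x with
  | nil =>
    obtain ⟨L, u, h1, h2, h3⟩ := ih S hok (Multiset.nodup_of_le
      (add_le_add_right (Multiset.le_add_left _ _) _) hnd) hT x hx hxF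
    exact ⟨L, u, h1, h2, hxl, h3⟩
  | cons p l ihl =>
    obtain ⟨b, ξ⟩ := p
    obtain ⟨a, hab, e, M', h1, h2, h3⟩ := hxl
    obtain ⟨K, hK⟩ := exists_fresh (occ S + (wocc n w + (F.map fun f => wocc f.n f.w).sum))
    have hKS : ∀ o ∈ occ S, o.1.k < K := fun o ho => hK o (by simp [ho])
    have hKw : ∀ o ∈ wocc n w, o.1.k < K := fun o ho => hK o (by simp [ho])
    have hKF : ∀ f ∈ F, ∀ o ∈ wocc f.n f.w, o.1.k < K := fun f hf o ho =>
      hK o (by simp only [Multiset.mem_add, Flag_mem hf ho, or_true])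
    obtain ⟨x', hx1, hx2⟩ := exists_ext x K
      [⟨⟨a, b, n, K, hab⟩, e⟩, ⟨varS a (K + 1), Ex.ofS M'⟩] (by simp) (by simp)
    have e1 : x' ⟨a, b, n, K, hab⟩ = e := hx2 _ List.mem_cons_self
    have e2 : letters a x' (false, K + 1) = M' :=
      letters_of_eq_ofL (false, K + 1) M' (hx2 ⟨varS a (K + 1), Ex.ofS M'⟩ (by simp))
    have e3 : ∀ {m : ℕ} {w' : Word O}, (∀ o ∈ wocc m w', o.1.k < K) → ev m x' w' = ev m x w' :=
      fun h => ev_congr (Agree.of_eq fun o ho => hx1 _ (h o ho))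
    have hpr : n = ρ → 0 < a ∧ 0 < b := fun hn => by
      obtain ⟨b', ξ', l', e, h4, h5⟩ := hl.2 hn
      obtain rfl : b = b' := (Prod.mk.inj (List.cons.inj e).1).1
      omega
    have hn := hl.1
    obtain ⟨L, u, hu, hS, hu1, huF⟩ := ihl a [.var (false, K + 1) true] (Flag_vx hab K w ξ ::ₘ S)
      (fun v hv => by
        rcases Multiset.mem_cons.1 hv with rfl | hv
        · exact r2form_ok (fun h => by cases h) (TL.new_ok _ _)
        · exact hok v hv)
      (by
        have := nodup_move (rest := 0) (F := {(⟨a, b, n, K, hab⟩, true)} +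
          {(⟨a, b, n, K, hab⟩, false)} + {(varS a (K + 1), false)} + {(varS a (K + 1), true)})
          (by rwa [add_zero]) (by rwa [add_zero]) (by simp [varS]) (by simp) le_rfl
        convert this using 1
        simp only [occ_cons, Flag_vx_occ, wocc_var, wocc_nil, letterVar]
        abel)
      (fun v hv => by
        rcases Multiset.mem_cons.1 hv with rfl | hv
        · exact ⟨hn, fun h => ⟨(hpr h).1, (hpr h).2, (hpr h).1, (hpr h).2⟩⟩
        · exact hT v hv)
      ⟨by omega, fun h => by have := hpr (by omega); omega⟩ x'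
      ((sat_cons _ _ _).2 ⟨(Flag_vx_sat _ _ _ _ _).2 (by rw [e1, e2, e3 hKw]; exact ⟨h1, h2⟩),
        Sat.congr (Agree.of_eq fun o ho => (hx1 _ (hKS o ho)).symm) hx⟩)
      (by rwa [ev_cons, ev_nil, mul_one, evalI_true, e2])
      (fun f hf => by
        unfold FlagC.Sat
        rw [e3 (hKF f hf)]
        exact hxF f hf)
    obtain ⟨u0, hu0⟩ := L.exists_lifts x
    have e4 : ∀ {m : ℕ} {w' : Word O}, (∀ o ∈ wocc m w', o.1.k < K) →
        ev m (fun v => if v.k < K then u v else u0 v) w' = ev m u w' :=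
      fun h => ev_congr (Agree.of_eq fun o ho => if_pos (h o ho))
    rw [sat_cons, Flag_vx_sat] at hS
    rw [ev_cons, ev_nil, mul_one, evalI_true] at hu1
    refine ⟨L, fun v => if v.k < K then u v else u0 v, fun v => ?_,
      Sat.congr (Agree.of_eq fun o ho => (if_pos (hKS o ho)).symm) hS.2, ?_, fun f hf => ?_⟩
    · dsimp only
      split_ifs with hv
      · rw [← hx1 v hv]
        exact hu v
      · exact hu0 v
    · rw [e4 hKw]
      exact ⟨a, hab, _, _, hS.1.1, hS.1.2, hu1⟩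
    · unfold FlagC.Sat
      rw [e4 (hKF f hf)]
      exact huF f hf

theorem flag_lift (hA : PA' O ρ) (S : Sys O) (F : List (FlagC O)) (hok : ∀ v ∈ S, v.ok)
    (hnd : (occ S + (F.map fun f => wocc f.n f.w).sum).Nodup) (hT : Top ρ S)
    (hF : ∀ f ∈ F, FlagOK ρ f.n f.l) (x : Val ℂ) (hx : Sat x S) (hxF : ∀ f ∈ F, f.Sat x) :
    ∃ (L : LR O) (u : Val L.A), Lifts L u x ∧ Sat u S ∧ ∀ f ∈ F, f.Sat u := by
  induction F generalizing S x with
  | nil =>
    obtain ⟨L, u, h1, h2⟩ := hA S ⟨hok, by simpa using hnd⟩ hT x hx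
    exact ⟨L, u, h1, h2, fun _ h => by cases h⟩
  | cons f F ih =>
    obtain ⟨L, u, h1, h2, h3, h4⟩ := Flag_step F
      (fun S h1 h2 h3 x h4 h5 => ih S h1 h2 h3 (fun f hf => hF f (List.mem_cons_of_mem _ hf)) x h4 h5)
      f.l f.n f.w S hok hnd hT (hF f List.mem_cons_self) x hx (hxF f List.mem_cons_self)
      fun g hg => hxF g (List.mem_cons_of_mem _ hg)
    exact ⟨L, u, h1, h2, List.forall_mem_cons.2 ⟨h3, h4⟩⟩

theorem flag_lift_gl {κ : Type} [Countable κ] (hA : PA' O ρ) {m : ℕ} (y : κ → G m ℂ)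
    (Ws : List (List (Item O κ))) (Fs : List (List (Item O κ) × List (ℕ × Oˣ)))
    (hW : Ws ≠ [] → m < ρ) (hF : ∀ f ∈ Fs, FlagOK ρ m f.2)
    (hnd : ((Ws.map vocc).sum + (Fs.map fun f => vocc f.1).sum).Nodup)
    (h1 : ∀ w ∈ Ws, evalW y w = 1) (h2 : ∀ f ∈ Fs, Flagged ℂ f.2 m (evalW y f.1)) :
    ∃ (L : LR O) (y' : κ → G m L.A), (∀ k, gmap L.t (y' k) = y k) ∧
      (∀ w ∈ Ws, evalW y' w = 1) ∧ ∀ f ∈ Fs, Flagged L.A f.2 m (evalW y' f.1) := by
  obtain ⟨enc, henc⟩ := Countable.exists_injective_nat κ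
  have hex : ∀ v : Var, ∃ e : Ex ℂ v.a v.b v.n, ∀ k, v = varS m (enc k) → HEq e (Ex.ofS (y k)) := by
    intro v
    by_cases hv : ∃ k, v = varS m (enc k)
    · obtain ⟨k, rfl⟩ := hv
      refine ⟨Ex.ofS (y k), fun k' h => ?_⟩
      rw [henc (congrArg Var.k h)]
    · exact ⟨Ex.std ℂ v.h, fun k h => absurd ⟨k, h⟩ hv⟩
  choose x hx using hex
  have hx' : (fun k => letters m x (false, enc k)) = y := funext fun k =>
    letters_of_eq_ofL (false, enc k) (y k) (eq_of_heq (hx _ k rfl))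
  have hw : ∀ w : List (Item O κ), wocc m (w.map (Item.rename fun k => (false, enc k))) =
      (vocc w).map fun o => (varS m (enc o.1), o.2) := fun w => by
    rw [wocc, vocc_rename, Multiset.map_map]
    rfl
  have hS : ∀ Ws : List (List (Item O κ)), occ ((Ws.map fun w => Vx.closed m
      (w.map (Item.rename fun k => (false, enc k))) : List (Vx O)) : Sys O) =
        (Ws.map vocc).sum.map fun o => (varS m (enc o.1), o.2) := fun Ws => by
    induction Ws with
    | nil => rfl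
    | cons w Ws ih =>
      rw [List.map_cons, ← Multiset.cons_coe, occ_cons, ih, List.map_cons, List.sum_cons,
        Multiset.map_add, ← hw]
      rfl
  have hFs : ∀ Fs : List (List (Item O κ) × List (ℕ × Oˣ)), ((Fs.map fun f => (⟨m, f.1.map
      (Item.rename fun k => (false, enc k)), f.2⟩ : FlagC O)).map fun f => wocc f.n f.w).sum =
        (Fs.map fun f => vocc f.1).sum.map fun o => (varS m (enc o.1), o.2) := fun Fs => by
    induction Fs with
    | nil => rfl
    | cons f Fs ih =>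
      rw [List.map_cons, List.map_cons, List.sum_cons, ih, List.map_cons, List.sum_cons,
        Multiset.map_add, ← hw]
  obtain ⟨L, u, hu, h3, h4⟩ := flag_lift hA ((Ws.map fun w => Vx.closed m
      (w.map (Item.rename fun k => (false, enc k))) : List (Vx O)) : Sys O)
    (Fs.map fun f => ⟨m, f.1.map (Item.rename fun k => (false, enc k)), f.2⟩)
    (fun v hv => by
      obtain ⟨w, -, rfl⟩ := List.mem_map.1 (Multiset.mem_coe.1 hv)
      trivial)
    (by
      rw [hS, hFs, ← Multiset.map_add]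
      refine hnd.map fun o o' h => ?_
      exact Prod.ext (henc (congrArg Var.k (Prod.mk.inj h).1)) (Prod.mk.inj h).2)
    (fun v hv => by
      obtain ⟨w, hw, rfl⟩ := List.mem_map.1 (Multiset.mem_coe.1 hv)
      have : m < ρ := hW (List.ne_nil_of_mem hw)
      exact ⟨this.le, fun h => absurd h this.ne⟩)
    (fun f hf => by
      obtain ⟨g, hg, rfl⟩ := List.mem_map.1 hf
      exact hF g hg) x
    (fun v hv => by
      obtain ⟨w, hw, rfl⟩ := List.mem_map.1 (Multiset.mem_coe.1 hv)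
      change evalW _ _ = 1
      rw [evalW_rename, hx', h1 w hw])
    (fun f hf => by
      obtain ⟨g, hg, rfl⟩ := List.mem_map.1 hf
      change Flagged ℂ g.2 m (evalW _ _)
      rw [evalW_rename, hx']
      exact h2 g hg)
  refine ⟨L, fun k => letters m u (false, enc k), fun k => ?_, fun w hw => ?_, fun f hf => ?_⟩
  · rw [hu.letters, ← hx']
  · rw [← evalW_rename (fun k => (false, enc k)) (letters m u)]
    exact h3 _ (Multiset.mem_coe.2 (List.mem_map_of_mem hw))
  · rw [← evalW_rename (fun k => (false, enc k)) (letters m u)]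
    exact h4 _ (List.mem_map_of_mem hf)

end Crest.Agent.R3

end
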