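import Crest.Agent.R3.Canon
import Crest.Agent.R3.Flag
import Crest.Agent.R3.Burn
import Crest.Agent.R3.B3a

set_option autoImplicit false

noncomputable section

namespace Crest.Agent.R3

open Matrix Filter Topology

/-! Surfaces with boundary. -/

variable {O : Subring ℂ} {ρ g s : ℕ}

/-- The relation word. -/
def Surf_w (O : Subring ℂ) (g s : ℕ) : List (Item O ((Fin g × Bool) ⊕ Fin s)) :=
  B3a_cw O Sum.inl ++ List.ofFn fun j => .var (.inr j) true

theorem Surf_eval {R : Type*} [CommRing R] [Algebra O R] {m : ℕ}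
    (y : (Fin g × Bool) ⊕ Fin s → G m R) : evalW y (Surf_w O g s) = srel y := by
  rw [Surf_w, evalW_append, B3a_cw_eval, evalW, List.map_ofFn]
  rfl

theorem Surf_vocc {κ : Type} (f : Fin s → κ) (e : Bool) :
    vocc (List.ofFn fun j => (.var (f j) e : Item O κ)) =
      (Finset.univ : Finset (Fin s)).val.map fun j => (f j, e) := by
  rw [vocc, List.map_ofFn, List.sum_ofFn, ← Multiset.bind_singleton]
  rfl

theorem Surf_prod {A ι : Type*} [CommRing A] {π : A →+* ℂ} {t : Finset ι} {Δ : ι → A} :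
    π (∏ i ∈ t, Δ i) ≠ 0 ↔ ∀ i ∈ t, π (Δ i) ≠ 0 := by
  rw [map_prod, Finset.prod_ne_zero_iff]

theorem surf_lift (hA : PA' O ρ) {m : ℕ} (hm : m < ρ) (T : (Fin g × Bool) ⊕ Fin s → G m ℂ)
    (hT : srel T = 1) (ξ : Fin s → List Oˣ) (hξ : ∀ j, qk (T (.inr j))⁻¹ (ξ j) = 0) :
    ∃ (L : LR O) (T' : (Fin g × Bool) ⊕ Fin s → G m L.A) (Δ : L.A),
      (∀ v, gmap L.t (T' v) = T v) ∧ srel T' = 1 ∧ L.θ Δ ≠ 0 ∧
      ∀ π : L.A →ₐ[O] ℂ, π Δ ≠ 0 → ∀ j, ∃ P : G m ℂ,
        gmap (π : L.A →+* ℂ) (T' (.inr j)) = P * T (.inr j) * P⁻¹ := by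
  choose l hl hl' using fun j => canon_flag (ξ j) _ (hξ j)
  obtain ⟨L, T', k1, k2, k3⟩ := flag_lift_gl hA T [Surf_w O g s]
    (List.ofFn fun j => ([.var (.inr j) false], l j)) (fun _ => hm)
    (fun f _ => ⟨hm.le, fun h => absurd h hm.ne⟩) (by
      have e := Surf_vocc (O := O) (Sum.inr : Fin s → (Fin g × Bool) ⊕ Fin s) false
      rw [vocc, List.map_ofFn] at e
      rw [List.map_ofFn, List.map_singleton, List.sum_singleton, Surf_w, vocc_append, Surf_vocc]
      refine (congrArg (fun z => Multiset.Nodup (_ + z)) e).mpr ?_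
      have h2 : ∀ j e, (Sum.inr j, e) ∉
          vocc (B3a_cw O (Sum.inl : Fin g × Bool → (Fin g × Bool) ⊕ Fin s)) := fun j e h => by
        obtain ⟨v, hv⟩ := B3a_cw_mem _ h
        cases hv
      have h3 : ∀ e : Bool, ((Finset.univ : Finset (Fin s)).val.map fun j =>
          ((Sum.inr j : (Fin g × Bool) ⊕ Fin s), e)).Nodup := fun e =>
        Finset.univ.nodup.map fun i j h => Sum.inr_injective (Prod.mk.inj h).1
      simp only [Multiset.nodup_add, B3a_cw_nodup Sum.inl_injective, h3, true_and,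
        Multiset.disjoint_right, Multiset.mem_map, Multiset.mem_add]
      refine ⟨?_, ?_⟩
      · rintro _ ⟨j, -, rfl⟩
        exact h2 j _
      · rintro _ ⟨j, -, rfl⟩ (h | ⟨j', -, h⟩)
        · exact h2 j _ h
        · cases h)
    (by simpa [Surf_eval] using hT) (by simpa [List.forall_mem_ofFn_iff] using hl)
  choose Δ hΔ hΔ' using fun j k => rank_test L.t L.surj (qk (T' (.inr j))⁻¹ ((ξ j).take k))
  refine ⟨L, T', ∏ j, ∏ k ∈ Finset.range ((ξ j).length + 1), Δ j k, k1,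
    by simpa [Surf_eval] using k2,
    Surf_prod.2 fun j _ => Surf_prod.2 fun k _ => hΔ j k, fun π hπ j => ?_⟩
  have h1 := (k3 _ (List.mem_ofFn.2 ⟨j, rfl⟩)).map π
  simp only [evalW_cons, evalI_false, evalW_nil, mul_one] at h1
  obtain ⟨P, hP⟩ := hl' j _ h1 fun k hk => by
    have := hΔ' j k π (Surf_prod.1 (Surf_prod.1 hπ j (Finset.mem_univ j)) k
      (Finset.mem_range.2 (Nat.lt_succ_of_le hk)))
    rw [← qk_map, ← k1, ← map_inv, ← qk_map]
    exact this
  refine ⟨P, ?_⟩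
  rw [map_inv, inv_eq_iff_eq_inv] at hP
  rw [hP]
  group

theorem ss_lift (hA : PA' O ρ) {n : ℕ} (hn : n < ρ) (T : (Fin g × Bool) ⊕ Fin s → G n ℂ)
    (hT : srel T = 1) (hss : SSimple T) (ξ : Fin s → List Oˣ)
    (hξ : ∀ j, qk (T (.inr j))⁻¹ (ξ j) = 0) :
    ∃ (L : LR O) (T' : (Fin g × Bool) ⊕ Fin s → G n L.A) (Δ : L.A),
      (∀ v, gmap L.t (T' v) = T v) ∧ srel T' = 1 ∧ L.θ Δ ≠ 0 ∧
      ∀ π : L.A →ₐ[O] ℂ, π Δ ≠ 0 → SSimple (fun v => gmap (π : L.A →+* ℂ) (T' v)) ∧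
        ∀ j, ∃ P : G n ℂ, gmap (π : L.A →+* ℂ) (T' (.inr j)) = P * T (.inr j) * P⁻¹ := by
  obtain ⟨N, d, D, S, hS, hD⟩ := exists_dec hss
  have hp : ∀ t, Eqv (D.prj t) T (S t) := fun t v => by
    rw [hD v]; exact D.prj_sum (fun t => S t v) t
  have hc : ∀ t {X Y : Mat ℂ (d t) (d t)}, X * D.prj t = Y * D.prj t → X = Y := fun t X Y h => by
    rw [← Matrix.mul_one X, ← D.pi t, ← Matrix.mul_assoc, h, Matrix.mul_assoc, D.pi, Matrix.mul_one]
  choose Ls U Δ h1 h2 h3 h4 using fun t => surf_lift hA ((D.le t).trans_lt hn) (S t)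
    (Units.ext (hc t (by rw [← (hp t).srel, hT, Units.val_one, Units.val_one, Matrix.mul_one,
      Matrix.one_mul]))) ξ fun j => hc t (by
      rw [← Canon_qk_int ((hp t).inv (.inr j)), hξ, Matrix.mul_zero, Matrix.zero_mul])
  choose Δ' h5 h6 using fun t => simple_test (Ls t).t (Ls t).surj (U t)
    (by rw [funext (h1 t)]; exact hS t)
  obtain ⟨L₀, -⟩ := surf_lift hA hn T hT ξ hξ
  obtain ⟨L, -, f, -, hf⟩ := LR.prod_fin L₀ Ls
  obtain ⟨D', hD'⟩ := L.lift_dec D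
  have hg : ∀ (π : L.A →+* ℂ) v, gmap π (D'.sum fun t => gmap (f t : (Ls t).A →+* L.A) (U t v)) =
      (D'.map π).sum fun t => gmap (π.comp (f t : (Ls t).A →+* L.A)) (U t v) := fun π v =>
    D'.map_sum π _
  refine ⟨L, fun v => D'.sum fun t => gmap (f t : (Ls t).A →+* L.A) (U t v),
    ∏ t, f t (Δ t * Δ' t), fun v => ?_, ?_, Surf_prod.2 fun t _ => ?_, fun π hπ => ?_⟩
  · rw [hg, hD', hD]
    congr 1
    funext t
    rw [← h1 t v]
    congr 2
    exact RingHom.ext (hf t)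
  · have := srel_map D'.sumHom fun v t => gmap (f t : (Ls t).A →+* L.A) (U t v)
    simp only [Dec.sumHom_apply] at this
    rw [← this, ← Dec.sumHom_apply, ← map_one D'.sumHom]
    congr 1
    funext t
    refine (srel_map (Pi.evalMonoidHom (fun t => G (d t) L.A) t)
      fun v t => gmap (f t : (Ls t).A →+* L.A) (U t v)).trans ?_
    exact (srel_map (gmap (f t : (Ls t).A →+* L.A)) (U t)).symm.trans (by rw [h2, map_one]; rfl)
  · change L.θ _ ≠ 0
    rw [hf, map_mul]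
    exact mul_ne_zero (h3 t) (h5 t)
  · have hπ' := fun t => Surf_prod.1 hπ t (Finset.mem_univ t)
    simp only [map_mul, mul_ne_zero_iff] at hπ'
    simp only [hg]
    refine ⟨ssimple_of_dec _ _ fun t => h6 t _ (hπ' t).2, fun j => ?_⟩
    choose P hP using fun t => h4 t (π.comp (f t)) (hπ' t).1 j
    rw [hD]
    exact Dec.conj _ _ _ _ P hP

end Crest.Agent.R3

end
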