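import Crest.Agent.R3.Main
import Crest.Agent.R3.Surf
import Crest.Agent.R3.NiceO

set_option autoImplicit false

noncomputable section

namespace Crest.Agent.R3

open Matrix Filter Topology

open Crest.NumberTheoryR.CharVarRel

/-! Passing between `SL_r` and `GL_r`. -/

theorem fin_exists_xi {O : Subring ℂ} {n : ℕ} (M : G n ℂ)
    (h : ∀ ν, M.val.charpoly.IsRoot ν → ∃ u : Oˣ, ((u : O) : ℂ) = ν) :
    ∃ ξ : List Oˣ, qk M ξ = 0 := by
  have key : ∀ l : List ℂ, (∀ ν ∈ l, ∃ u : Oˣ, ((u : O) : ℂ) = ν) → ∃ ξ : List Oˣ,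
      qk M ξ = Polynomial.aeval M.val (l.map fun ν => Polynomial.X - Polynomial.C ν).prod := by
    intro l
    induction l with
    | nil => exact fun _ => ⟨[], by simp [qk]⟩
    | cons ν l ih =>
      intro hl
      obtain ⟨ξ, hξ⟩ := ih fun μ hμ => hl μ (List.mem_cons_of_mem _ hμ)
      obtain ⟨u, hu⟩ := hl ν List.mem_cons_self
      refine ⟨u :: ξ, ?_⟩
      rw [List.map_cons, List.prod_cons, map_mul, ← hξ]
      have e : (scal ℂ n u).val = algebraMap ℂ (Mat ℂ n n) ν := by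
        rw [scal_val, Algebra.algebraMap_eq_smul_one ν, ← hu]; rfl
      simp only [qk, List.map_cons, List.prod_cons, map_sub, Polynomial.aeval_X,
        Polynomial.aeval_C, e]
  obtain ⟨ξ, hξ⟩ := key M.val.charpoly.roots.toList fun ν hν =>
    h ν (Polynomial.isRoot_of_mem_roots (Multiset.mem_toList.1 hν))
  refine ⟨ξ, ?_⟩
  rw [hξ, ← Multiset.prod_coe, ← Multiset.map_coe, Multiset.coe_toList,
    ← (IsAlgClosed.splits _).eq_prod_roots_of_monic (Matrix.charpoly_monic _),
    Matrix.aeval_self_charpoly]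

theorem fin_root_inv {n : ℕ} (M : G n ℂ) (ν : ℂ) (h : (M⁻¹).val.charpoly.IsRoot ν) :
    ν ≠ 0 ∧ M.val.charpoly.IsRoot ν⁻¹ := by
  rw [Polynomial.IsRoot.def, Matrix.eval_charpoly] at h ⊢
  have h0 : ν ≠ 0 := by
    rintro rfl
    rw [map_zero, zero_sub, det_neg] at h
    exact mul_ne_zero (pow_ne_zero _ (by norm_num)) (Matrix.GeneralLinearGroup.det_ne_zero M⁻¹) h
  refine ⟨h0, ?_⟩
  have e : Matrix.scalar (Fin n) ν⁻¹ - M.val =
      (-ν⁻¹) • (M.val * (Matrix.scalar (Fin n) ν - (M⁻¹).val)) := by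
    rw [Matrix.mul_sub, Units.mul_inv, Matrix.scalar_apply, Matrix.scalar_apply,
      ← Matrix.smul_one_eq_diagonal, ← Matrix.smul_one_eq_diagonal, Matrix.mul_smul,
      Matrix.mul_one, smul_sub, smul_smul, neg_mul, inv_mul_cancel₀ h0]
    simp only [neg_smul, one_smul]
    abel
  rw [e, det_smul, det_mul, h, mul_zero, mul_zero]

theorem fin_cprod_central {H : Type*} [Group H] {g : ℕ} (z S : Fin g × Bool → H)
    (hz : ∀ v h, z v * h = h * z v) : cprod (fun v => z v * S v) = cprod S := by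
  induction g with
  | zero => rfl
  | succ g ih =>
    rw [cprod_succ, cprod_succ]
    congr 1
    · have key : ∀ a b x y : H, (∀ h, x * h = h * x) → (∀ h, y * h = h * y) →
          comm (x * a) (y * b) = comm a b := by
        intro a b x y hx hy
        simp only [comm]
        calc _ = x * (a * (y * (b * a⁻¹ * x⁻¹ * b⁻¹)) * y⁻¹) := by group
          _ = x * (a * b * a⁻¹) * x⁻¹ * b⁻¹ := by rw [hy]; group
          _ = _ := by rw [hx]; group
      exact key _ _ _ _ (hz _) (hz _)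
    · exact ih (tail z) (tail S) fun v h => hz _ h

theorem fin_rel_iff {g s r : ℕ} (T : RelGen g s → Matrix.SpecialLinearGroup (Fin r) ℂ) :
    IsRelSurfaceRep g s r T ↔ srel (fun v => Matrix.SpecialLinearGroup.toGL (T v)) = 1 := by
  rw [← srel_map, map_eq_one_iff _ Matrix.SpecialLinearGroup.toGL_injective, srel, cprod_eq,
    List.ofFn_eq_map]
  rfl

theorem fin_sl_conj {r : ℕ} (hr : 0 < r) (X Y : Matrix.SpecialLinearGroup (Fin r) ℂ) (P : G r ℂ)
    (h : Matrix.SpecialLinearGroup.toGL X = P * Matrix.SpecialLinearGroup.toGL Y * P⁻¹) :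
    ∃ k : Matrix.SpecialLinearGroup (Fin r) ℂ, X = k * Y * k⁻¹ := by
  obtain ⟨c, hc⟩ := IsAlgClosed.exists_pow_nat_eq (P.val.det)⁻¹ hr
  have hP := Matrix.GeneralLinearGroup.det_ne_zero P
  refine ⟨⟨c • P.val, by rw [det_smul, Fintype.card_fin, hc, inv_mul_cancel₀ hP]⟩, ?_⟩
  rw [eq_mul_inv_iff_mul_eq] at h ⊢
  have h1 : X.1 * P.val = P.val * Y.1 := congrArg Units.val h
  apply Subtype.ext
  change X.1 * (c • P.val) = (c • P.val) * Y.1
  rw [Matrix.mul_smul, Matrix.smul_mul, h1]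

theorem fin_eval_mem {g s r : ℕ} (R : Subring ℂ)
    (T : RelGen g s → Matrix.SpecialLinearGroup (Fin r) ℂ) (h : ∀ v i j, (T v).1 i j ∈ R)
    (p : MvPolynomial (RelVar g s r) ℤ) : evalRep p T ∈ R := by
  unfold evalRep
  induction p using MvPolynomial.induction_on with
  | C a => rw [MvPolynomial.aeval_C]; exact intCast_mem R a
  | add p q hp hq => rw [map_add]; exact add_mem hp hq
  | mul_X p v hp => rw [map_mul, MvPolynomial.aeval_X]; exact mul_mem hp (h _ _ _)

end Crest.Agent.R3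

end
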