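import Crest.Agent.R3.Syn

set_option autoImplicit false

noncomputable section

namespace Crest.Agent.R3

open Matrix Filter Topology

/-! Where the variables of top rank occur. -/

variable {O : Subring ℂ} {ρ : ℕ} {S : Sys O}

theorem Top.top2 (h : Top ρ S) : Top2 ρ S := fun v hv =>
  ⟨(h v hv).1, fun e => Or.inl ((h v hv).2 e)⟩

section Aux
variable {a b n : ℕ} {o : Var × Bool}

theorem Loc_mem_wocc {w : Word O} (h : o ∈ wocc n w) :
    ∃ φ, o.1 = letterVar n φ ∧ Item.var φ o.2 ∈ w := by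
  obtain ⟨⟨φ, e⟩, h1, rfl⟩ := Multiset.mem_map.1 h
  exact ⟨φ, rfl, mem_vocc.1 h1⟩

theorem Loc_wocc_n {w : Word O} (h : o ∈ wocc n w) : o.1.n = n := by
  obtain ⟨φ, h1, -⟩ := Loc_mem_wocc h
  rw [h1, letterVar_n]

theorem Loc_mem_locc {h : a + b = n} {e : Bool} {x : Option ℕ} (ho : o ∈ locc h e x) :
    ∃ k, x = some k ∧ o = (⟨a, b, n, k, h⟩, e) := by
  cases x with
  | none => exact absurd ho (Multiset.notMem_zero _)
  | some k => exact ⟨k, rfl, Multiset.mem_singleton.1 ho⟩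

theorem Loc_hl {l : HL O a b n} (h : o ∈ l.occ) :
    o ∈ locc l.h true l.x ∨ o ∈ wocc n l.m ∨ o.1.n = a ∨ o.1.n = b := by
  simp only [HL.occ, Multiset.mem_add] at h
  rcases h with ((h | h) | h) | h
  exacts [.inl h, .inr (.inl h), .inr (.inr (.inl (Loc_wocc_n h))),
    .inr (.inr (.inr (Loc_wocc_n h)))]

theorem Loc_tl {l : TL O a b n} (h : o ∈ l.occ) :
    o ∈ locc l.h false l.x ∨ o.1.n = a ∨ o.1.n = b := by
  simp only [TL.occ, Multiset.mem_add] at h
  rcases h with (h | h) | h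
  exacts [.inl h, .inr (.inl (Loc_wocc_n h)), .inr (.inr (Loc_wocc_n h))]

theorem Loc_hl_le {l : HL O a b n} (h : o ∈ l.occ) : o.1.n ≤ n := by
  have := l.h
  rcases Loc_hl h with h | h | h | h
  · obtain ⟨k, -, rfl⟩ := Loc_mem_locc h
    exact le_rfl
  · exact (Loc_wocc_n h).le
  · omega
  · omega

theorem Loc_tl_le {l : TL O a b n} (h : o ∈ l.occ) : o.1.n ≤ n := by
  have := l.h
  rcases Loc_tl h with h | h | h
  · obtain ⟨k, -, rfl⟩ := Loc_mem_locc h
    exact le_rfl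
  · omega
  · omega

theorem Loc_vx_le {v : Vx O} (h : o ∈ v.occ) : o.1.n ≤ v.rank := by
  cases v with
  | grid Γ =>
    have h1 := Γ.r2.h
    have h2 := Γ.c2.h
    change o.1.n ≤ Γ.n22
    simp only [Vx.occ, Grid.occ, Multiset.mem_add] at h
    rcases h with ((((h | h) | h) | h) | h) | h
    · have := Loc_hl_le h; omega
    · exact Loc_tl_le h
    · have := Loc_hl_le h; omega
    · have := Loc_tl_le h; omega
    · exact Loc_hl_le h
    · have := Loc_tl_le h; omega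
  | closed n w => exact (Loc_wocc_n h).le

theorem Loc_grid {Γ : Grid O} (hp : Γ.proper) (h : o ∈ Γ.occ) (hn : o.1.n = Γ.n22) :
    o ∈ locc Γ.r2.h false Γ.r2.x ∨ o ∈ locc Γ.c2.h true Γ.c2.x ∨ o ∈ wocc Γ.n22 Γ.c2.m := by
  have h1 := Γ.r2.h
  have h2 := Γ.c2.h
  obtain ⟨p1, p2, p3, p4⟩ := hp
  simp only [Grid.occ, Multiset.mem_add] at h
  rcases h with ((((h | h) | h) | h) | h) | h
  · have := Loc_hl_le h; omega
  · rcases Loc_tl h with h | h | h
    · exact .inl h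
    · omega
    · omega
  · have := Loc_hl_le h; omega
  · have := Loc_tl_le h; omega
  · rcases Loc_hl h with h | h | h | h
    · exact .inr (.inl h)
    · exact .inr (.inr h)
    · omega
    · omega
  · have := Loc_tl_le h; omega

end Aux

theorem loc_letter2 (hT : Top2 ρ S) (hρ : 0 < ρ) (φ : Bool × ℕ) (ε : Bool)
    (h : (letterVar ρ φ, ε) ∈ occ S) :
    (∃ Γ : Grid O, Vx.grid Γ ∈ S ∧ Γ.n22 = ρ ∧ Item.var φ ε ∈ Γ.c2.m) ∨
      ∃ w : Word O, Vx.closed ρ w ∈ S ∧ Item.var φ ε ∈ w := by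
  obtain ⟨v, hv, ho⟩ := Multiset.mem_bind.1 h
  have h1 := Loc_vx_le ho
  rw [letterVar_n] at h1
  have hr : v.rank = ρ := le_antisymm (hT v hv).1 h1
  have hd := letterVar_deg (n := ρ) φ
  rcases (hT v hv).2 hr with hp | ⟨w, rfl⟩
  · cases v with
    | closed n w => exact hp.elim
    | grid Γ =>
      obtain rfl : Γ.n22 = ρ := hr
      refine .inl ⟨Γ, hv, rfl, ?_⟩
      obtain ⟨p1, p2, p3, p4⟩ := id hp
      rcases Loc_grid hp ho (letterVar_n φ) with h2 | h2 | h2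
      · obtain ⟨k, -, e⟩ := Loc_mem_locc h2
        rw [(Prod.mk.inj e).1] at hd
        dsimp only at hd
        omega
      · obtain ⟨k, -, e⟩ := Loc_mem_locc h2
        rw [(Prod.mk.inj e).1] at hd
        dsimp only at hd
        omega
      · obtain ⟨ψ, e, h3⟩ := Loc_mem_wocc h2
        rwa [letterVar_inj hρ e]
  · obtain ⟨ψ, e, h3⟩ := Loc_mem_wocc ho
    exact .inr ⟨w, hv, by rwa [letterVar_inj hρ e]⟩

theorem loc_letter (hT : Top ρ S) (hρ : 0 < ρ) (φ : Bool × ℕ) (ε : Bool)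
    (h : (letterVar ρ φ, ε) ∈ occ S) :
    ∃ Γ : Grid O, Vx.grid Γ ∈ S ∧ Γ.n22 = ρ ∧ Item.var φ ε ∈ Γ.c2.m := by
  rcases loc_letter2 hT.top2 hρ φ ε h with h | ⟨w, hw, -⟩
  · exact h
  · exact ((hT _ hw).2 rfl).elim

theorem loc_seam (hT : Top ρ S) (g : Var) (hn : g.n = ρ) (ha : 0 < g.a) (hb : 0 < g.b)
    (h : (g, false) ∈ occ S) :
    ∃ Γ : Grid O, Vx.grid Γ ∈ S ∧ Γ.n22 = ρ ∧ Γ.r2.var = some g := by
  obtain ⟨v, hv, ho⟩ := Multiset.mem_bind.1 h
  have h1 := Loc_vx_le ho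
  have hr : v.rank = ρ := le_antisymm (hT v hv).1 (hn ▸ h1)
  have hp := (hT v hv).2 hr
  cases v with
  | closed n w => exact hp.elim
  | grid Γ =>
    refine ⟨Γ, hv, hr, ?_⟩
    rcases Loc_grid hp ho (hn.trans hr.symm) with h2 | h2 | h2
    · obtain ⟨k, e1, e⟩ := Loc_mem_locc h2
      rw [TL.var, e1, (Prod.mk.inj e).1]
      rfl
    · obtain ⟨k, -, e⟩ := Loc_mem_locc h2
      cases (Prod.mk.inj e).2
    · obtain ⟨ψ, e, -⟩ := Loc_mem_wocc h2
      have hd := letterVar_deg (n := Γ.n22) ψ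
      rw [← e] at hd
      dsimp only at hd
      omega

theorem pa_zero (L : LR O) : PA O 0 := by
  intro S _ hr x _
  obtain ⟨u, hu⟩ := L.exists_lifts x
  refine ⟨L, u, hu, fun v hv => ?_⟩
  have h := hr v hv
  cases v with
  | grid Γ =>
    have h0 : Γ.n22 ≤ 0 := h
    have h1 := Γ.r2.h
    have h2 := Γ.c2.h
    refine ⟨?_, ?_, ?_, ?_⟩ <;> ext i j <;> have := i.2 <;> have := j.2 <;> omega
  | closed n w =>
    have h0 : n ≤ 0 := h
    refine Units.ext ?_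
    ext i j
    have := i.2
    omega

end Crest.Agent.R3

end
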