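import Crest.Agent.R3.TopInd
import Crest.Agent.R3.Closed
import Crest.Agent.R3.B1
import Crest.Agent.R3.B3

set_option autoImplicit false

noncomputable section

namespace Crest.Agent.R3

open Matrix Filter Topology

/-! The main induction on the rank. -/

variable {O : Subring ℂ}

theorem pa_main {r : ℕ} (hN : Nice O r) : ∀ ρ ≤ r, PA O ρ ∧ ∀ k ≤ ρ, PBs O k := by
  obtain ⟨L₀⟩ := LR.nonempty hN.infinite
  intro ρ
  induction ρ with
  | zero =>
    refine fun _ => ⟨pa_zero L₀, fun k hk g ζ T hS => ?_⟩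
    have := hS.1
    omega
  | succ ρ ih =>
    intro hr
    obtain ⟨h1, h2⟩ := ih (by omega)
    have hA := pa'_succ h1
    have h3 : ∀ k ≤ ρ + 1, PBs O k := fun k hk => by
      rcases Nat.lt_or_eq_of_le hk with h | rfl
      · exact h2 k (by omega)
      · exact pbs_of hN hr hA
    exact ⟨pa_of (Nat.succ_pos _) hA (pb_of_simple L₀ h3), h3⟩

theorem pa'_main {r : ℕ} (hN : Nice O r) : PA' O (r + 1) := pa'_succ (pa_main hN r le_rfl).1

end Crest.Agent.R3

end
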