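import Crest.Agent.R3.Syn
import Crest.Agent.R3.Bimap

set_option autoImplicit false

noncomputable section

namespace Crest.Agent.R3

open Matrix Filter Topology

/-! Deleting a top grid that contains a variable occurring only once; same-vertex ear. -/

variable {O : Subring ℂ} {ρ : ℕ} {rest : Sys O} {x : Val ℂ}

theorem MvDel_only {g : Var} {ε : Bool} {B : Multiset (Var × Bool)}
    (hnd : ({(g, ε)} + B).Nodup) (hno : (g, !ε) ∉ {(g, ε)} + B) : ∀ o ∈ B, o.1 ≠ g := by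
  rintro ⟨v, e⟩ ho rfl
  rw [Multiset.singleton_add, Multiset.nodup_cons] at hnd
  by_cases h : e = ε
  · subst h
    exact hnd.1 ho
  · refine hno (Multiset.mem_add.2 (Or.inr ?_))
    rwa [← Bool.eq_not.2 h]

theorem MvDel_red {v : Vx O} (hW : WF (v ::ₘ rest)) (hT : Top ρ (v ::ₘ rest))
    (hx : Sat x (v ::ₘ rest)) (hl : Lift (0 + rest) x → Lift ({v} + rest) x) :
    Red ρ (v ::ₘ rest) x rest x := by
  refine ⟨⟨fun w hw => hW.ok w (Multiset.mem_cons_of_mem hw), ?_⟩,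
    fun w hw => hT w (Multiset.mem_cons_of_mem hw), ((sat_cons _ _ _).1 hx).2, fun h => ?_⟩
  · have := hW.nodup
    rw [occ_cons] at this
    exact (Multiset.nodup_add.1 this).2.1
  · rw [← Multiset.singleton_add]
    exact hl (by rwa [zero_add])

theorem MvDel_center (Γ : Grid O) (hx : Γ.Sat x) (L : LR O) (u : Val L.A) (hu : Lifts L u x) :
    ∃ c : Ex L.A Γ.n12 Γ.n32 Γ.n22, (c.map L.t).Sim (Γ.c2.val x) ∧ ∀ u' : Val L.A,
      (∀ o ∈ Γ.r1.occ + Γ.r2.occ + Γ.r3.occ + Γ.c1.occ + Γ.c3.occ, u o.1 = u' o.1) →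
      c.Sim (Γ.c2.val u') → Γ.Sat u' := by
  obtain ⟨c, h1, h2⟩ := center_c2 L.t L.surj (Γ.r1.val u) (Γ.r2.val u) (Γ.r3.val u) (Γ.c1.val u)
    (Γ.c3.val u) Γ.c2.h (Γ.c2.val x) (Grid0.congr hx (hu.hl _).symm (hu.tl _).symm (hu.hl _).symm
      (hu.tl _).symm (Ex.Sim.refl _) (hu.tl _).symm)
  refine ⟨c, h1, fun u' h hc => ?_⟩
  have h' := Agree.of_eq h
  exact Grid0.congr h2 (HL.val_congr (h'.mono fun o ho => by simp [ho]))
    (TL.val_congr (h'.mono fun o ho => by simp [ho]))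
    (HL.val_congr (h'.mono fun o ho => by simp [ho]))
    (TL.val_congr (h'.mono fun o ho => by simp [ho])) hc
    (TL.val_congr (h'.mono fun o ho => by simp [ho]))

theorem MvDel_lval {L : LR O} {u : Val L.A} (hu : Lifts L u x) {a b n : ℕ} (h : a + b = n)
    (k : Option ℕ) : ((lval u h k).map L.t).Sim (lval x h k) :=
  (Ex.Sim.of_eq (Syn_lval_map L.t u h k).symm).trans
    (Syn_lval_congr (u := u.map L.t) h true k fun o _ => hu o.1)

theorem MvDel_E5 {R : Type*} [CommRing R] {a b n : ℕ} (e : Ex R a b n) (σ s' R1 C1 : G a R)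
    (κ q' R3 C3 : G b R) {r1 c1 : Ex R a 0 a} {r3 c3 : Ex R 0 b b} (h1 : r1.i = R1.val)
    (h2 : c1.i = (C1⁻¹).val) (h3 : r3.p = (R3⁻¹).val) (h4 : c3.p = C3.val) :
    Grid0 r1 (e.twist 1 s'⁻¹ q'⁻¹) r3 c1 (e.twist 1 σ κ) c3 ↔
      σ * R1 * C1 * s' = 1 ∧ κ * R3 * C3 * q' = 1 := by
  have k1 : (e.twist 1 σ κ).i * r1.i = e.i * (σ * R1).val := by
    simp only [Ex.twist_i, h1, Units.val_one, Units.val_mul, Matrix.one_mul, Matrix.mul_assoc]
  have k2 : (e.twist 1 s'⁻¹ q'⁻¹).i * c1.i = e.i * (s'⁻¹ * C1⁻¹).val := by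
    simp only [Ex.twist_i, h2, Units.val_one, Units.val_mul, Matrix.one_mul, Matrix.mul_assoc]
  have k3 : c3.p * (e.twist 1 s'⁻¹ q'⁻¹).p = (C3 * q').val * e.p := by
    simp only [Ex.twist_p, h4, inv_one, inv_inv, Units.val_one, Units.val_mul, Matrix.mul_one,
      Matrix.mul_assoc]
  have k4 : r3.p * (e.twist 1 σ κ).p = (R3⁻¹ * κ⁻¹).val * e.p := by
    simp only [Ex.twist_p, h3, inv_one, Units.val_one, Units.val_mul, Matrix.mul_one,
      Matrix.mul_assoc]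
  constructor
  · intro H
    have e1 := H.ii
    have e2 := H.pp
    rw [k1, k2] at e1
    rw [k3, k4] at e2
    have f1 : σ * R1 = s'⁻¹ * C1⁻¹ := Units.ext (e.i_cancel e1)
    have f2 : C3 * q' = R3⁻¹ * κ⁻¹ := Units.ext (e.p_cancel e2)
    refine ⟨by rw [f1]; group, ?_⟩
    rw [mul_assoc, f2]
    group
  · rintro ⟨f1, f2⟩
    have g1 : σ * R1 = s'⁻¹ * C1⁻¹ := by
      rw [← _root_.mul_inv_rev, eq_inv_iff_mul_eq_one, ← mul_assoc, f1]
    have g2 : C3 * q' = R3⁻¹ * κ⁻¹ := by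
      rw [← _root_.mul_inv_rev]
      exact eq_inv_of_mul_eq_one_right (by rw [← mul_assoc, f2])
    refine ⟨by rw [k1, k2, g1], ?_, ?_, by rw [k3, k4, g2]⟩
    · have : c3.i * r1.p = 0 := by ext; simp [Matrix.mul_apply]
      rw [this]
      simp only [Ex.twist_i, Ex.twist_p, inv_one, Units.val_one, Matrix.mul_one, Matrix.one_mul,
        Matrix.mul_assoc, Bimap_pi, Matrix.mul_zero]
    · have : r3.i * c1.p = 0 := by ext; simp [Matrix.mul_apply]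
      rw [this]
      simp only [Ex.twist_i, Ex.twist_p, inv_one, Units.val_one, Matrix.mul_one, Matrix.one_mul,
        Matrix.mul_assoc, Bimap_pi, Matrix.mul_zero]

/-- If `i * p = 0` for an inclusion `i` and a projection `p`, the common rank vanishes. -/
theorem MvDel_zero {a b n a' n' : ℕ} (c : Ex ℂ b a' n') (r : Ex ℂ a b n) (h : c.i * r.p = 0) :
    b = 0 := by
  have h1 : r.p = 0 := c.i_cancel (by rw [h, Matrix.mul_zero])
  have h2 := congrArg Matrix.trace r.ps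
  rw [h1, Matrix.zero_mul, trace_zero, trace_one, Fintype.card_fin] at h2
  exact_mod_cast h2.symm

theorem mv_del_letter (Γ : Grid O) (hW : WF (.grid Γ ::ₘ rest)) (hT : Top ρ (.grid Γ ::ₘ rest))
    (hx : Sat x (.grid Γ ::ₘ rest)) (hρ : Γ.n22 = ρ) (w1 w2 : Word O) (φ : Bool × ℕ) (ε : Bool)
    (hm : Γ.c2.m = w1 ++ .var φ ε :: w2)
    (hno : (letterVar ρ φ, !ε) ∉ occ (.grid Γ ::ₘ rest)) :
    Red ρ (.grid Γ ::ₘ rest) x rest x := by
  subst hρ
  have hocc : occ (.grid Γ ::ₘ rest) = {(letterVar Γ.n22 φ, ε)} +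
      ((Γ.r1.occ + Γ.r2.occ + Γ.r3.occ + Γ.c1.occ + Γ.c3.occ) +
        (locc Γ.c2.h true Γ.c2.x + wocc Γ.n22 w1 + wocc Γ.n22 w2 + wocc Γ.n12 Γ.c2.s +
          wocc Γ.n32 Γ.c2.q) + occ rest) := by
    have : Γ.c2.occ = locc Γ.c2.h true Γ.c2.x + (wocc Γ.n22 w1 + ({(letterVar Γ.n22 φ, ε)} +
        wocc Γ.n22 w2)) + wocc Γ.n12 Γ.c2.s + wocc Γ.n32 Γ.c2.q := by
      rw [HL.occ, hm, wocc_append, wocc_var]
    rw [occ_cons, Vx.occ, Grid.occ, this]
    abel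
  have hon := MvDel_only (hocc ▸ hW.nodup) (hocc ▸ hno)
  refine MvDel_red hW hT hx (lift_moveL Γ.n22 φ
    (fun e he => hon _ (Multiset.mem_add.2 (Or.inr he)) rfl) (fun _ _ _ => rfl) fun L u hu _ => ?_)
  obtain ⟨c, hc, hsat⟩ := MvDel_center Γ ((sat_cons _ _ _).1 hx).1 L u hu
  obtain ⟨ψ, hψ, hs⟩ := edge1 L.t L.surj ((lval u Γ.c2.h Γ.c2.x).twist (ev Γ.n22 u w2)
    (ev Γ.n12 u Γ.c2.s) (ev Γ.n32 u Γ.c2.q)) (c.twist (ev Γ.n22 u w1)⁻¹ 1 1)
    (evalI (letters Γ.n22 x) (.var φ ε : Item O (Bool × ℕ))) (by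
      rw [Ex.map_twist, Ex.map_twist, map_inv, map_one, map_one, hu.ev, hu.ev, hu.ev, hu.ev]
      refine (((MvDel_lval hu _ _).twist _ _ _).twist _ _ _).trans
        (Ex.Sim.trans (Ex.Sim.of_eq ?_) (hc.twist _ _ _).symm)
      rw [HL.val, hm, ev_append, ev_cons, Ex.twist_twist, Ex.twist_twist, inv_mul_cancel_left])
  refine ⟨if ε then ψ else ψ⁻¹, ?_, fun u' h1 h2 => (sat_singleton _ _).2 (hsat u'
    (fun o ho => (h1 _ (hon o (by simp only [Multiset.mem_add] at ho ⊢; tauto))).symm) ?_)⟩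
  · cases ε
    · rw [if_neg Bool.false_ne_true, map_inv, hψ, evalI_false, inv_inv]
    · rw [if_pos rfl, hψ, evalI_true]
  · have hA : Agree u u' (locc Γ.c2.h true Γ.c2.x + wocc Γ.n22 w1 + wocc Γ.n22 w2 +
        wocc Γ.n12 Γ.c2.s + wocc Γ.n32 Γ.c2.q) := Agree.of_eq fun o ho =>
      (h1 _ (hon o (by simp only [Multiset.mem_add] at ho ⊢; tauto))).symm
    have hI : evalI (letters Γ.n22 u') (.var φ ε : Item O (Bool × ℕ)) = ψ := by
      cases ε
      · rw [evalI_false, h2, if_neg Bool.false_ne_true, inv_inv]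
      · rw [evalI_true, h2, if_pos rfl]
    have := hs.twist (ev Γ.n22 u w1) 1 1
    simp only [Ex.twist_twist, mul_one, mul_inv_cancel, Ex.twist_one] at this
    rw [HL.val, hm, ev_append, ev_cons, hI,
      ← ev_congr (w := w1) (hA.mono fun o ho => by simp [ho]),
      ← ev_congr (w := w2) (hA.mono fun o ho => by simp [ho]),
      ← ev_congr (w := Γ.c2.s) (hA.mono fun o ho => by simp [ho]),
      ← ev_congr (w := Γ.c2.q) (hA.mono fun o ho => by simp [ho])]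
    refine this.symm.trans ?_
    exact (Syn_lval_congr _ true _ (hA.mono fun o ho => by simp [ho])).twist _ _ _

theorem mv_del_seam (Γ : Grid O) (hW : WF (.grid Γ ::ₘ rest)) (hT : Top ρ (.grid Γ ::ₘ rest))
    (hx : Sat x (.grid Γ ::ₘ rest)) (hρ : Γ.n22 = ρ) (g : Var) (hg : Γ.c2.var = some g)
    (hno : (g, false) ∉ occ (.grid Γ ::ₘ rest)) :
    Red ρ (.grid Γ ::ₘ rest) x rest x := by
  obtain ⟨k, hk, rfl⟩ := Option.map_eq_some_iff.1 hg
  have hocc : occ (.grid Γ ::ₘ rest) = {(⟨Γ.n12, Γ.n32, Γ.n22, k, Γ.c2.h⟩, true)} +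
      ((Γ.r1.occ + Γ.r2.occ + Γ.r3.occ + Γ.c1.occ + Γ.c3.occ) +
        (wocc Γ.n22 Γ.c2.m + wocc Γ.n12 Γ.c2.s + wocc Γ.n32 Γ.c2.q) + occ rest) := by
    have : Γ.c2.occ = {(⟨Γ.n12, Γ.n32, Γ.n22, k, Γ.c2.h⟩, true)} + wocc Γ.n22 Γ.c2.m +
        wocc Γ.n12 Γ.c2.s + wocc Γ.n32 Γ.c2.q := by
      rw [HL.occ, hk, locc]
    rw [occ_cons, Vx.occ, Grid.occ, this]
    abel
  have hon := MvDel_only (hocc ▸ hW.nodup) (hocc ▸ hno)
  refine MvDel_red hW hT hx (lift_move ⟨Γ.n12, Γ.n32, Γ.n22, k, Γ.c2.h⟩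
    (fun e he => hon _ (Multiset.mem_add.2 (Or.inr he)) rfl) (fun _ _ _ => rfl) fun L u hu _ => ?_)
  obtain ⟨c, hc, hsat⟩ := MvDel_center Γ ((sat_cons _ _ _).1 hx).1 L u hu
  refine ⟨c.twist (ev Γ.n22 u Γ.c2.m)⁻¹ (ev Γ.n12 u Γ.c2.s)⁻¹ (ev Γ.n32 u Γ.c2.q)⁻¹, ?_,
    fun u' h1 h2 => (sat_singleton _ _).2 (hsat u'
    (fun o ho => (h1 _ (hon o (by simp only [Multiset.mem_add] at ho ⊢; tauto))).symm) ?_)⟩
  · dsimp only
    rw [Ex.map_twist, map_inv, map_inv, map_inv, hu.ev, hu.ev, hu.ev]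
    refine (hc.twist _ _ _).trans (Ex.Sim.of_eq ?_)
    rw [HL.val, hk, Ex.twist_twist, inv_mul_cancel, mul_inv_cancel, mul_inv_cancel, Ex.twist_one,
      lval]
  · have hA : Agree u u' (wocc Γ.n22 Γ.c2.m + wocc Γ.n12 Γ.c2.s + wocc Γ.n32 Γ.c2.q) :=
      Agree.of_eq fun o ho => (h1 _ (hon o (by simp only [Multiset.mem_add] at ho ⊢; tauto))).symm
    refine Ex.Sim.of_eq ?_
    rw [HL.val, hk, lval, h2, ← ev_congr (w := Γ.c2.m) (hA.mono fun o ho => by simp [ho]),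
      ← ev_congr (w := Γ.c2.s) (hA.mono fun o ho => by simp [ho]),
      ← ev_congr (w := Γ.c2.q) (hA.mono fun o ho => by simp [ho]), Ex.twist_twist,
      mul_inv_cancel, inv_mul_cancel, inv_mul_cancel, Ex.twist_one]

theorem mv_E5 (Γ : Grid O) (hW : WF (.grid Γ ::ₘ rest)) (hT : Top ρ (.grid Γ ::ₘ rest))
    (hx : Sat x (.grid Γ ::ₘ rest)) (hρ : Γ.n22 = ρ) (hm : nvar Γ.c2.m = 0) (g : Var)
    (hg : Γ.c2.var = some g) (hg' : Γ.r2.var = some g) :
    ∃ N : Sys O, Red ρ (.grid Γ ::ₘ rest) x (N + rest) x ∧ mu ρ N = 0 := by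
  have hp : Γ.proper := (hT _ (Multiset.mem_cons_self _ _)).2 hρ
  have hs : Γ.Sat x := ((sat_cons _ _ _).1 hx).1
  obtain ⟨n11, n12, n13, n21, n22, n23, n31, n32, n33, r1, ⟨h2, k2, s', q'⟩, r3, c1,
    ⟨h, k, m, s, q⟩, c3⟩ := Γ
  obtain ⟨k, rfl, rfl⟩ := Option.map_eq_some_iff.1 hg
  obtain ⟨k2, rfl, hk⟩ := Option.map_eq_some_iff.1 hg'
  simp only [Var.mk.injEq] at hk
  obtain ⟨rfl, rfl, -, rfl⟩ := hk
  dsimp only at hρ hm
  subst hρ
  obtain ⟨ζ, hζ⟩ := exists_scal_of_nvar m hm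
  have hc2 : ∀ (R : Type) [CommRing R] [Algebra O R] (u : Val R),
      HL.val u (⟨h, some k2, m, s, q⟩ : HL O n21 n23 n22) = (u ⟨n21, n23, n22, k2, h⟩).twist 1
        (ev n21 u m * ev n21 u s) (ev n23 u m * ev n23 u q) := by
    intro R _ _ u
    simp only [HL.val, lval, ev, hζ, Ex.twist_scal]
  have hr2 : ∀ (R : Type) [CommRing R] [Algebra O R] (u : Val R),
      TL.val u (⟨h2, some k2, s', q'⟩ : TL O n21 n23 n22) = (u ⟨n21, n23, n22, k2, h⟩).twist 1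
        (ev n21 u s')⁻¹ (ev n23 u q')⁻¹ := fun R _ _ u => rfl
  have e13 : n13 = 0 := by
    refine MvDel_zero (c3.val x) (r1.val x) (hs.pi.symm.trans ?_)
    dsimp only
    simp only [hc2, hr2, Ex.twist_i, Ex.twist_p, inv_one, Units.val_one, Matrix.mul_one,
      Matrix.one_mul, Matrix.mul_assoc, Bimap_pi, Matrix.mul_zero]
  have e31 : n31 = 0 := by
    refine MvDel_zero (r3.val x) (c1.val x) (hs.ip.symm.trans ?_)
    dsimp only
    simp only [hc2, hr2, Ex.twist_i, Ex.twist_p, inv_one, Units.val_one, Matrix.mul_one,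
      Matrix.one_mul, Matrix.mul_assoc, Bimap_pi, Matrix.mul_zero]
  subst e13 e31
  obtain rfl : n11 = n21 := by simpa using r1.h
  obtain rfl : n33 = n23 := by simpa using r3.h
  have key : ∀ (R : Type) [CommRing R] [Algebra O R] (u : Val R),
      Grid.Sat u ⟨n11, n11, 0, n11, n22, n33, 0, n33, n33, r1, ⟨h2, some k2, s', q'⟩, r3, c1,
        ⟨h, some k2, m, s, q⟩, c3⟩ ↔
      Sat u (.closed n11 (m ++ s ++ r1.wS ++ c1.wS ++ s') ::ₘ
        {.closed n33 (m ++ q ++ r3.wQ ++ c3.wQ ++ q')} : Sys O) := by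
    intro R _ _ u
    rw [sat_cons, sat_singleton]
    simp only [Grid.Sat, Vx.Sat, ev_append, hc2, hr2]
    exact MvDel_E5 _ _ _ _ _ _ _ _ _ (r1.wS_val u) (c1.wS_val u) (r3.wQ_val u) (c3.wQ_val u)
  obtain ⟨p1, p2, -, -⟩ := hp
  dsimp only at p1 p2
  refine ⟨.closed n11 (m ++ s ++ r1.wS ++ c1.wS ++ s') ::ₘ
    {.closed n33 (m ++ q ++ r3.wQ ++ c3.wQ ++ q')}, ⟨⟨fun v hv => ?_, ?_⟩, fun v hv => ?_,
      (sat_add _ _ _).2 ⟨(key ℂ x).1 hs, ((sat_cons _ _ _).1 hx).2⟩, fun hl => ?_⟩, ?_⟩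
  · rcases Multiset.mem_add.1 hv with hv | hv
    · simp only [Multiset.mem_cons, Multiset.mem_singleton] at hv
      rcases hv with rfl | rfl <;> trivial
    · exact hW.ok v (Multiset.mem_cons_of_mem hv)
  · refine Multiset.nodup_of_le ?_ hW.nodup
    rw [occ_add, occ_cons, occ_cons, occ_singleton]
    refine add_le_add_left (Multiset.le_iff_exists_add.2 ⟨wocc 0 r1.q + wocc 0 c1.q + wocc 0 r3.s +
      wocc 0 c3.s + locc h2 false (some k2) + locc h true (some k2), ?_⟩) _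
    simp only [Vx.occ, Grid.occ, wocc_append, wocc_of_nvar hm, r1.wS_occ, c1.wS_occ, r3.wQ_occ,
      c3.wQ_occ]
    simp only [HL.occ, TL.occ, wocc_of_nvar hm]
    abel
  · rcases Multiset.mem_add.1 hv with hv | hv
    · simp only [Multiset.mem_cons, Multiset.mem_singleton] at hv
      rcases hv with rfl | rfl <;> simp only [Vx.rank] <;> exact ⟨by omega, fun _ => by omega⟩
    · exact hT v (Multiset.mem_cons_of_mem hv)
  · rw [← Multiset.singleton_add]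
    exact lift_move0 (fun _ _ => rfl)
      (fun L u _ hN => (sat_singleton _ _).2 ((key L.A u).2 hN)) hl
  · simp [Vx.mu]

end Crest.Agent.R3

end
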