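import Crest.Agent.R3.Bimap

set_option autoImplicit false

noncomputable section

namespace Crest.Agent.R3

open Matrix Filter Topology

/-! Solving for the removed seam in the two ear moves. -/

variable {A B : Type*} [CommRing A] [CommRing B]

private theorem solve_lift (θ : A →+* B) (hθ : Function.Surjective θ) {n k : ℕ} (M : Mat B n k) :
    ∃ N : Mat A n k, N.map θ = M :=
  ⟨Matrix.of fun x y => (hθ (M x y)).choose, by ext x y; exact (hθ (M x y)).choose_spec⟩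

private theorem solve_assoc {n k l k' m : ℕ} {X : Mat A n k} {Y : Mat A k l} {X' : Mat A n k'}
    {Y' : Mat A k' l} (h : X * Y = X' * Y') (Z : Mat A l m) : X * (Y * Z) = X' * (Y' * Z) := by
  rw [← Matrix.mul_assoc, h, Matrix.mul_assoc]

private theorem solve_assoc' {n k l m : ℕ} {X : Mat A n k} {Y : Mat A k l} {W : Mat A n l}
    (h : X * Y = W) (Z : Mat A l m) : X * (Y * Z) = W * Z := by
  rw [← Matrix.mul_assoc, h]

private theorem solve_map_sub (θ : A →+* B) {n k : ℕ} (M N : Mat A n k) :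
    (M - N).map θ = M.map θ - N.map θ := by
  ext x y; simp

theorem dist_solve (θ : A →+* B) (hθ : Function.Surjective θ)
    {ρ smm qmm msm mqm mms mmq ssm sqm qsm qqm mss msq mqs mqq : ℕ}
    {asm : Ex A ssm qsm msm} {amm : Ex A smm qmm ρ} {aqm : Ex A sqm qqm mqm}
    {bsm : Ex A ssm sqm smm} {bqm : Ex A qsm qqm qmm}
    {bms : Ex A mss mqs mms} {bmq : Ex A msq mqq mmq}
    {cms : Ex A mss msq msm} {cmm : Ex A mms mmq ρ} {cmq : Ex A mqs mqq mqm}
    {sms smq qms qmq sss ssq sqs sqq qss qsq qqs qqq : ℕ}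
    {ams : Ex A sms qms mms} {amq : Ex A smq qmq mmq}
    {csm : Ex A sms smq smm} {cqm : Ex A qms qmq qmm}
    {ass : Ex A sss qss mss} {asq : Ex A ssq qsq msq} {aqs : Ex A sqs qqs mqs}
    {aqq : Ex A sqq qqq mqq}
    {bss : Ex A sss sqs sms} {bsq : Ex A ssq sqq smq} {bqs : Ex A qss qqs qms}
    {bqq : Ex A qsq qqq qmq}
    {css : Ex A sss ssq ssm} {csq : Ex A sqs sqq sqm} {cqs : Ex A qss qsq qsm}
    {cqq : Ex A qqs qqq qqm}
    (H : Cube asm amm aqm bsm bqm bms bmq cms cmm cmq ams amq csm cqm ass asq aqs aqq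
      bss bsq bqs bqq css csq cqs cqq)
    (h : msm + mqm = ρ) (e0 : Ex B msm mqm ρ)
    (hv : Grid0 (asm.map θ) (amm.map θ) (aqm.map θ) (bsm.map θ) e0 (bqm.map θ))
    (hv' : Grid0 (bms.map θ) e0 (bmq.map θ) (cms.map θ) (cmm.map θ) (cmq.map θ)) :
    ∃ e : Ex A msm mqm ρ, (e.map θ).Sim e0 ∧ Grid0 asm amm aqm bsm e bqm ∧
      Grid0 bms e bmq cms cmm cmq := by
  obtain ⟨i, hi0, hi1, hi2, hi3, hi4⟩ := bimap_lift θ hθ H.u2 H.w (cmm.i * bms.i) (amm.i * bsm.i)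
    (bqm.i * asm.p) (bmq.i * cms.p)
    (by rw [Matrix.mul_assoc, H.u3.ii, solve_assoc H.w.ii, H.u1.ii, Matrix.mul_assoc])
    (by rw [solve_assoc H.u1q.ip, ← H.u2.pp, solve_assoc H.u3q.pi])
    (by rw [solve_assoc H.w.pi, H.u3.pi, solve_assoc H.u1q.ii, Matrix.mul_assoc, H.u2.ip])
    (by rw [solve_assoc' amm.pi, Matrix.mul_assoc, asm.pi, Matrix.zero_mul, Matrix.mul_zero])
    (by rw [solve_assoc' cmm.pi, Matrix.mul_assoc, cms.pi, Matrix.zero_mul, Matrix.mul_zero])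
    (by rw [solve_assoc H.w.ip, H.u1.ip, ← solve_assoc H.u3q.ii, Matrix.mul_assoc, H.u2.pi])
    e0.i (by rw [Matrix.map_mul]; exact hv'.ii.symm) (by rw [Matrix.map_mul]; exact hv.ii)
    (by rw [Matrix.map_mul]; exact hv.pi) (by rw [Matrix.map_mul]; exact hv'.ip)
  obtain ⟨p, hp0, hp1, hp2, hp3, hp4⟩ := bimap_lift θ hθ H.w H.u2q (aqm.i * bsm.p) (cmq.i * bms.p)
    (bmq.p * cmm.p) (bqm.p * amm.p)
    (by rw [Matrix.mul_assoc, H.u1.pi, solve_assoc H.u2q.ii, Matrix.mul_assoc, H.u3.ip])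
    (by rw [← solve_assoc H.u3q.pp, ← H.w.pp, solve_assoc H.u1q.pp])
    (by rw [solve_assoc H.u2q.pi, H.u1.pp, ← solve_assoc H.u3q.ip, Matrix.mul_assoc, H.w.ip])
    (by rw [solve_assoc' cmq.pi, Matrix.mul_assoc, cmm.pi, Matrix.zero_mul, Matrix.mul_zero])
    (by rw [solve_assoc' aqm.pi, Matrix.mul_assoc, amm.pi, Matrix.zero_mul, Matrix.mul_zero])
    (by rw [solve_assoc H.u2q.ip, ← H.u3.pp, ← solve_assoc H.u1q.pi, Matrix.mul_assoc, H.w.pi])
    e0.p (by rw [Matrix.map_mul]; exact hv.ip) (by rw [Matrix.map_mul]; exact hv'.pi)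
    (by rw [Matrix.map_mul]; exact hv'.pp) (by rw [Matrix.map_mul]; exact hv.pp.symm)
  set z := p * i with hz
  have z1 : z * cms.i = 0 := by
    rw [hz, Matrix.mul_assoc, hi1, solve_assoc hp2, bms.pi, Matrix.mul_zero]
  have z2 : z * asm.i = 0 := by
    rw [hz, Matrix.mul_assoc, hi2, solve_assoc hp1, bsm.pi, Matrix.mul_zero]
  have z3 : cmq.p * z = 0 := by
    rw [hz, solve_assoc' hp3, Matrix.mul_assoc, hi4, solve_assoc' bmq.pi, Matrix.zero_mul]
  have z4 : aqm.p * z = 0 := by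
    rw [hz, solve_assoc' hp4, Matrix.mul_assoc, hi3, solve_assoc' bqm.pi, Matrix.zero_mul]
  have z0 : z.map θ = 0 := by rw [hz, Matrix.map_mul, hp0, hi0, e0.pi]
  have z5 := H.u2q.ker z z3 z4
  set δ := cmm.i * (ams.i * (bss.s * (csq.r * aqm.r * z))) with hδ
  have d1 : δ * cms.i = 0 := by simp only [hδ, Matrix.mul_assoc, z1, Matrix.mul_zero]
  have d2 : δ * asm.i = 0 := by simp only [hδ, Matrix.mul_assoc, z2, Matrix.mul_zero]
  have d3 : amm.p * δ = 0 := by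
    rw [hδ, solve_assoc H.w.pi, solve_assoc' ams.pi, Matrix.zero_mul, Matrix.mul_zero]
  have d4 : cmm.p * δ = 0 := by rw [hδ, solve_assoc' cmm.pi, Matrix.zero_mul]
  have d5 : p * δ = z := by
    rw [hδ, solve_assoc' hp2, Matrix.mul_assoc, solve_assoc H.u3.ip, solve_assoc' bss.ps,
      Matrix.one_mul, ← solve_assoc H.u2q.ii, ← Matrix.mul_assoc, ← z5]
  have d0 : δ.map θ = 0 := by simp only [hδ, Matrix.map_mul, z0, Matrix.mul_zero]
  have g1 : (i - δ) * asm.i = amm.i * bsm.i := by rw [Matrix.sub_mul, d2, sub_zero, hi2]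
  have g2 : amm.p * (i - δ) = bqm.i * asm.p := by rw [Matrix.mul_sub, d3, sub_zero, hi3]
  obtain ⟨e, he1, he2⟩ := exists_c2 asm amm aqm bsm bqm h (i - δ) p
    (by rw [Matrix.mul_sub, d5, sub_self]) g1 g2 hp1 hp4.symm
  refine ⟨e, ⟨?_, ?_⟩, ⟨?_, ?_, ?_, ?_⟩, ⟨?_, ?_, ?_, ?_⟩⟩
  · rw [Ex.map_i, he1, solve_map_sub, d0, sub_zero, hi0]
  · rw [Ex.map_p, he2, hp0]
  · rw [he1, g1]
  · rw [he1, g2]
  · rw [he2, hp1]
  · rw [he2, hp4]
  · rw [he1, Matrix.sub_mul, d1, sub_zero, hi1]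
  · rw [he2, hp2]
  · rw [he1, Matrix.mul_sub, d4, sub_zero, hi4]
  · rw [he2, hp3]

/-- A common complement `e` of `e1` and `e3`. -/
theorem tprime_solve (θ : A →+* B) (hθ : Function.Surjective θ) {a b ρ n11 t n33 : ℕ}
    (e1 e3 : Ex A b a ρ) (α1 γ1 : Ex A n11 t b) (α3 γ3 : Ex A t n33 a)
    (Hw : Grid0 α1 e1 α3 γ1 e3 γ3) (A1 A2 : G a A) (B1 B2 : G b A) (x : G t A)
    (hb : (γ1.twist (B2⁻¹ * B1) 1 (-x)).Sim α1) (ha : (γ3.twist (A2 * A1⁻¹) x⁻¹ 1).Sim α3)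
    (h : a + b = ρ) (e0 : Ex B a b ρ)
    (k1 : e1.p.map θ * e0.i = A1.val.map θ) (k2 : e3.p.map θ * e0.i = A2.val.map θ)
    (k3 : e0.p * e1.i.map θ = B1.val.map θ) (k4 : e0.p * e3.i.map θ = B2.val.map θ) :
    ∃ e : Ex A a b ρ, (e.map θ).Sim e0 ∧ e1.p * e.i = A1.val ∧ e3.p * e.i = A2.val ∧
      e.p * e1.i = B1.val ∧ e.p * e3.i = B2.val := by
  have uA1 : (A1⁻¹).val * A1.val = 1 := A1.inv_mul
  have uA2 : (A2⁻¹).val * A2.val = 1 := A2.inv_mul
  have uB1 : (B1⁻¹).val * B1.val = 1 := B1.inv_mul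
  have vA1 : A1.val * (A1⁻¹).val = 1 := A1.mul_inv
  have vB1 : B1.val * (B1⁻¹).val = 1 := B1.mul_inv
  have vB2 : B2.val * (B2⁻¹).val = 1 := B2.mul_inv
  have ux : (x⁻¹).val * x.val = 1 := x.inv_mul
  have vx : x.val * (x⁻¹).val = 1 := x.mul_inv
  have b1 : B1.val * γ1.i = B2.val * α1.i := by
    rw [← hb.1]
    simp only [Ex.twist_i, Units.val_mul, Units.val_one, Matrix.mul_one, Matrix.mul_assoc]
    rw [solve_assoc' vB2, Matrix.one_mul]
  have b2 : γ1.p * ((B1⁻¹).val * B2.val) = -(x.val * α1.p) := by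
    rw [← hb.2]
    simp only [Ex.twist_p, _root_.mul_inv_rev, inv_inv, Units.val_mul, inv_neg, Units.val_neg,
      Matrix.neg_mul, Matrix.mul_neg, neg_neg, Matrix.mul_assoc]
    rw [solve_assoc' vx, Matrix.one_mul]
  have a1 : A2.val * ((A1⁻¹).val * γ3.i) = α3.i * x.val := by
    rw [← ha.1]
    simp only [Ex.twist_i, Units.val_mul, Matrix.mul_assoc, ux, Matrix.mul_one]
  have a2 : γ3.p * A1.val = α3.p * A2.val := by
    rw [← ha.2]
    simp only [Ex.twist_p, _root_.mul_inv_rev, inv_inv, inv_one, Units.val_mul, Units.val_one,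
      Matrix.one_mul, Matrix.mul_assoc, uA2, Matrix.mul_one]
  set ι := e3.i * α1.i with hι
  set π := α3.p * e3.p with hπ
  have ι1 : e1.p * ι = 0 := by rw [hι, Hw.ii, solve_assoc' e1.pi, Matrix.zero_mul]
  have ι3 : e3.p * ι = 0 := by rw [hι, solve_assoc' e3.pi, Matrix.zero_mul]
  have π1 : π * e1.i = 0 := by rw [hπ, ← Hw.pp, Matrix.mul_assoc, e1.pi, Matrix.mul_zero]
  have π3 : π * e3.i = 0 := by rw [hπ, Matrix.mul_assoc, e3.pi, Matrix.mul_zero]
  obtain ⟨i, hi0, hi1, hi3⟩ : ∃ i : Mat A ρ a, i.map θ = e0.i ∧ e1.p * i = A1.val ∧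
      e3.p * i = A2.val := by
    obtain ⟨i₀, h1, h3⟩ := Hw.pull A1.val A2.val a2
    have hk := (Hw.map θ).ker (i₀.map θ - e0.i)
      (by rw [Matrix.mul_sub, Ex.map_p, ← Matrix.map_mul, h1, k1, sub_self])
      (by rw [Matrix.mul_sub, Ex.map_p, ← Matrix.map_mul, h3, k2, sub_self])
    obtain ⟨t₀, ht⟩ := solve_lift θ hθ ((α1.map θ).r * (e3.map θ).r * (i₀.map θ - e0.i))
    refine ⟨i₀ - ι * t₀, ?_, ?_, ?_⟩
    · rw [solve_map_sub, Matrix.map_mul, ht, hι, Matrix.map_mul, ← Ex.map_i, ← Ex.map_i, ← hk,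
        sub_sub_cancel]
    · rw [Matrix.mul_sub, solve_assoc' ι1, Matrix.zero_mul, sub_zero, h1]
    · rw [Matrix.mul_sub, solve_assoc' ι3, Matrix.zero_mul, sub_zero, h3]
  obtain ⟨p, hp0, hp1, hp3⟩ : ∃ p : Mat A b ρ, p.map θ = e0.p ∧ p * e1.i = B1.val ∧
      p * e3.i = B2.val := by
    obtain ⟨p₀, h1, h3⟩ := Hw.push B1.val B2.val b1
    have hk := (Hw.map θ).coker (p₀.map θ - e0.p)
      (by rw [Matrix.sub_mul, Ex.map_i, ← Matrix.map_mul, h1, k3, sub_self])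
      (by rw [Matrix.sub_mul, Ex.map_i, ← Matrix.map_mul, h3, k4, sub_self])
    obtain ⟨t₀, ht⟩ := solve_lift θ hθ ((p₀.map θ - e0.p) * (e3.map θ).s * (α3.map θ).s)
    refine ⟨p₀ - t₀ * π, ?_, ?_, ?_⟩
    · rw [solve_map_sub, Matrix.map_mul, ht, hπ, Matrix.map_mul, ← Ex.map_p, ← Ex.map_p, ← hk,
        sub_sub_cancel]
    · rw [Matrix.sub_mul, Matrix.mul_assoc, π1, Matrix.mul_zero, sub_zero, h1]
    · rw [Matrix.sub_mul, Matrix.mul_assoc, π3, Matrix.mul_zero, sub_zero, h3]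
  have pι : p * ι = B1.val * γ1.i := by rw [hι, Hw.ii, solve_assoc' hp1]
  have πi : π * i = γ3.p * A1.val := by rw [hπ, Matrix.mul_assoc, hi3, a2]
  have πι : π * ι = 0 := by rw [hι, solve_assoc' π3, Matrix.zero_mul]
  set κ := (B1⁻¹).val * (p * (i * (A1⁻¹).val)) with hκ
  have κ0 : κ.map θ = 0 := by
    rw [hκ, ← Matrix.mul_assoc p, Matrix.map_mul, Matrix.map_mul, Matrix.map_mul, hp0, hi0, e0.pi,
      Matrix.zero_mul, Matrix.mul_zero]
  have κ1 : B1.val * (κ * A1.val) = p * i := by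
    simp only [hκ, Matrix.mul_assoc, uA1, Matrix.mul_one]
    rw [solve_assoc' vB1, Matrix.one_mul]
  have κ2 : γ1.p * (κ * γ3.i) = 0 := by
    have hk := Hw.ker (i * ((A1⁻¹).val * γ3.i) - (e3.i * α1.s + e1.i * (γ1.s * x.val)))
      (by
        rw [Matrix.mul_sub, Matrix.mul_add, solve_assoc' hi1, solve_assoc' vA1, Matrix.one_mul,
          solve_assoc Hw.pi, α1.ps, Matrix.mul_one, solve_assoc' e1.pi, Matrix.zero_mul, add_zero,
          sub_self])
      (by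
        rw [Matrix.mul_sub, Matrix.mul_add, solve_assoc' hi3, a1, solve_assoc' e3.pi,
          Matrix.zero_mul, zero_add, solve_assoc Hw.ip, solve_assoc' γ1.ps, Matrix.one_mul,
          sub_self])
    rw [sub_eq_iff_eq_add, ← hι] at hk
    simp only [hκ, Matrix.mul_assoc]
    rw [hk]
    simp only [Matrix.mul_add]
    rw [solve_assoc' pι, solve_assoc' hp3, solve_assoc' hp1, Matrix.mul_assoc, solve_assoc' uB1,
      solve_assoc' uB1, Matrix.one_mul, Matrix.one_mul, solve_assoc' γ1.pi, Matrix.zero_mul,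
      zero_add, solve_assoc' γ1.ps, Matrix.one_mul, ← Matrix.mul_assoc (B1⁻¹).val,
      solve_assoc' b2, Matrix.neg_mul, Matrix.mul_assoc, α1.ps, Matrix.mul_one, neg_add_cancel]
  set di := ι * (γ1.r * (κ * A1.val)) with hdi
  set dp := B1.val * (γ1.s * (γ1.p * (κ * (γ3.s * π)))) with hdp
  have j1 : e1.p * (i - di) = A1.val := by
    rw [Matrix.mul_sub, hdi, solve_assoc' ι1, Matrix.zero_mul, sub_zero, hi1]
  have j3 : e3.p * (i - di) = A2.val := by
    rw [Matrix.mul_sub, hdi, solve_assoc' ι3, Matrix.zero_mul, sub_zero, hi3]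
  have q1 : (p - dp) * e1.i = B1.val := by
    simp only [Matrix.sub_mul, hdp, Matrix.mul_assoc, π1, Matrix.mul_zero, sub_zero, hp1]
  have q3 : (p - dp) * e3.i = B2.val := by
    simp only [Matrix.sub_mul, hdp, Matrix.mul_assoc, π3, Matrix.mul_zero, sub_zero, hp3]
  have hpi : (p - dp) * (i - di) = 0 := by
    have c1 : p * di = B1.val * (γ1.i * γ1.r * (κ * A1.val)) := by
      rw [hdi, solve_assoc' pι]
      simp only [Matrix.mul_assoc]
    have c2 : dp * di = 0 := by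
      simp only [hdp, hdi, Matrix.mul_assoc]
      rw [solve_assoc' πι]
      simp only [Matrix.zero_mul, Matrix.mul_zero]
    have c3 : dp * i = B1.val * (γ1.s * γ1.p * (κ * A1.val)) := by
      have t3 := γ3.fac_p _ ((Matrix.mul_assoc _ _ _).trans κ2)
      simp only [hdp, Matrix.mul_assoc, πi]
      congr 2
      rw [← Matrix.mul_assoc γ1.p κ A1.val, t3]
      simp only [Matrix.mul_assoc]
    rw [Matrix.sub_mul, Matrix.mul_sub, Matrix.mul_sub, c1, c2, c3, sub_zero, sub_sub,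
      ← Matrix.mul_add, ← Matrix.add_mul, γ1.tot, Matrix.one_mul, κ1, sub_self]
  obtain ⟨e, he1, he2⟩ := Ex.exists_of h (i - di) (p - dp) ((A1⁻¹).val * e1.p)
    (e1.i * (B1⁻¹).val) (by rw [Matrix.mul_assoc, j1, uA1]) (by rw [solve_assoc' q1, vB1]) hpi
  refine ⟨e, ⟨?_, ?_⟩, he1 ▸ j1, he1 ▸ j3, he2 ▸ q1, he2 ▸ q3⟩
  · rw [Ex.map_i, he1, solve_map_sub, hi0]
    simp only [hdi, Matrix.map_mul, κ0, Matrix.zero_mul, Matrix.mul_zero, sub_zero]
  · rw [Ex.map_p, he2, solve_map_sub, hp0]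
    simp only [hdp, Matrix.map_mul, κ0, Matrix.zero_mul, Matrix.mul_zero, sub_zero]

end Crest.Agent.R3

end
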