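import Crest.Agent.R3.Syn
import Crest.Agent.R3.Solve
import Crest.Agent.R3.CubeEx

set_option autoImplicit false

noncomputable section

namespace Crest.Agent.R3

open Matrix Filter Topology

/-! Removing a seam of top rank: the distributive case. -/

variable {O : Subring ℂ} {ρ : ℕ} {rest : Sys O} {x : Val ℂ}

/-- A grid from six lines. -/
def MvDist_g {n11 n12 n13 n21 n22 n23 n31 n32 n33 : ℕ} (r1 : HL O n11 n13 n12)
    (r2 : TL O n21 n23 n22) (r3 : HL O n31 n33 n32) (c1 : TL O n11 n31 n21)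
    (c2 : HL O n12 n32 n22) (c3 : TL O n13 n33 n23) : Vx O :=
  .grid ⟨_, _, _, _, _, _, _, _, _, r1, r2, r3, c1, c2, c3⟩

section G
variable {n11 n12 n13 n21 n22 n23 n31 n32 n33 : ℕ} (r1 : HL O n11 n13 n12)
  (r2 : TL O n21 n23 n22) (r3 : HL O n31 n33 n32) (c1 : TL O n11 n31 n21)
  (c2 : HL O n12 n32 n22) (c3 : TL O n13 n33 n23)

theorem MvDist_g_occ : (MvDist_g r1 r2 r3 c1 c2 c3).occ =
    r1.occ + r2.occ + r3.occ + c1.occ + c2.occ + c3.occ := rfl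

theorem MvDist_g_sat {R : Type*} [CommRing R] [Algebra O R] (u : Val R) :
    (MvDist_g r1 r2 r3 c1 c2 c3).Sat u ↔
      Grid0 (r1.val u) (r2.val u) (r3.val u) (c1.val u) (c2.val u) (c3.val u) := Iff.rfl

theorem MvDist_g_mu : (MvDist_g r1 r2 r3 c1 c2 c3).mu ρ =
    if n22 = ρ then 1 + 2 * nvar c2.m else 0 := rfl

theorem MvDist_g_rank : (MvDist_g r1 r2 r3 c1 c2 c3).rank = n22 := rfl

theorem MvDist_g_proper : (MvDist_g r1 r2 r3 c1 c2 c3).proper ↔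
    0 < n12 ∧ 0 < n32 ∧ 0 < n21 ∧ 0 < n23 := Iff.rfl

end G

/-- Both occurrences of the variables of a list. -/
def MvDist_F : List Var → Multiset (Var × Bool)
  | [] => 0
  | v :: l => {(v, true)} + {(v, false)} + MvDist_F l

theorem MvDist_mem_F {l : List Var} {o : Var × Bool} (h : o ∈ MvDist_F l) : o.1 ∈ l := by
  induction l with
  | nil => simp [MvDist_F] at h
  | cons v l ih =>
    simp only [MvDist_F, Multiset.mem_add, Multiset.mem_singleton] at h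
    rcases h with (rfl | rfl) | h
    · exact List.mem_cons_self
    · exact List.mem_cons_self
    · exact List.mem_cons_of_mem _ (ih h)

theorem MvDist_nodup_F {l : List Var} (h : l.Nodup) : (MvDist_F l).Nodup := by
  induction l with
  | nil => exact Multiset.nodup_zero
  | cons v l ih =>
    rw [List.nodup_cons] at h
    rw [MvDist_F, add_assoc, Multiset.singleton_add, Multiset.singleton_add, Multiset.nodup_cons,
      Multiset.nodup_cons, Multiset.mem_cons]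
    exact ⟨fun h' => h'.elim (by simp) fun h' => h.1 (MvDist_mem_F h'),
      fun h' => h.1 (MvDist_mem_F h'), ih h.2⟩

section Eq
variable {R : Type*} [CommRing R] [Algebra O R] {a b n : ℕ} {u u' : Val R}

theorem MvDist_lval (h : a + b = n) (e : Bool) (y : Option ℕ)
    (H : ∀ o ∈ locc h e y, u o.1 = u' o.1) : lval u h y = lval u' h y := by
  cases y with
  | none => rfl
  | some k => exact H _ (Multiset.mem_singleton_self _)

theorem MvDist_hl {l : HL O a b n} (h : ∀ o ∈ l.occ, u o.1 = u' o.1) : l.val u = l.val u' := by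
  unfold HL.val
  rw [ev_congr (w := l.m) (Agree.of_eq fun o ho => h o (by simp [HL.occ, ho])),
    ev_congr (w := l.s) (Agree.of_eq fun o ho => h o (by simp [HL.occ, ho])),
    ev_congr (w := l.q) (Agree.of_eq fun o ho => h o (by simp [HL.occ, ho])),
    MvDist_lval l.h true l.x fun o ho => h o (by simp [HL.occ, ho])]

theorem MvDist_tl {l : TL O a b n} (h : ∀ o ∈ l.occ, u o.1 = u' o.1) : l.val u = l.val u' := by
  unfold TL.val
  rw [ev_congr (w := l.s) (Agree.of_eq fun o ho => h o (by simp [TL.occ, ho])),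
    ev_congr (w := l.q) (Agree.of_eq fun o ho => h o (by simp [TL.occ, ho])),
    MvDist_lval l.h false l.x fun o ho => h o (by simp [TL.occ, ho])]

end Eq

theorem MvDist_core {smm qmm msm mqm mms mmq ssm sqm qsm qqm mss msq mqs mqq : ℕ}
    (asm : HL O ssm qsm msm) (amm : TL O smm qmm ρ) (aqm : HL O sqm qqm mqm)
    (bsm : TL O ssm sqm smm) (bqm : TL O qsm qqm qmm)
    (bms : HL O mss mqs mms) (bmq : HL O msq mqq mmq)
    (cms : TL O mss msq msm) (cmm : HL O mms mmq ρ) (cmq : TL O mqs mqq mqm)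
    (o1 : asm.ok) (o2 : amm.ok) (o3 : aqm.ok) (o4 : bsm.ok) (o5 : bqm.ok) (o6 : bms.ok)
    (o7 : bmq.ok) (o8 : cms.ok) (o9 : cmm.ok) (o10 : cmq.ok)
    (p1 : 0 < msm) (p2 : 0 < mqm) (p3 : 0 < smm) (p4 : 0 < qmm) (p5 : 0 < mms) (p6 : 0 < mmq)
    (K : ℕ) (D : Multiset (Var × Bool))
    (hD : D = asm.occ + amm.occ + aqm.occ + bsm.occ + bqm.occ + bms.occ + bmq.occ + cms.occ +
      cmm.occ + cmq.occ) (hK : ∀ o ∈ D, o.1.k < K) (e : Ex ℂ msm mqm ρ)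
    (hv : Grid0 (asm.val x) (amm.val x) (aqm.val x) (bsm.val x) e (bqm.val x))
    (hv' : Grid0 (bms.val x) e (bmq.val x) (cms.val x) (cmm.val x) (cmq.val x))
    (hn : qsm = 0 ∨ sqm = 0) :
    ∃ (N : Sys O) (x' : Val ℂ) (l : List Var), occ N = D + MvDist_F l ∧ l.Nodup ∧
      (∀ v ∈ l, K ≤ v.k) ∧ (∀ v ∈ N, v.ok) ∧ Top ρ N ∧ mu ρ N = 1 + 2 * nvar cmm.m ∧
      (∀ v : Var, v.k < K → x' v = x v) ∧ Sat x' N ∧
      ∀ (L : LR O) (u : Val L.A), Lifts L u x' → Sat u N →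
        ∃ e' : Ex L.A msm mqm ρ, (e'.map L.t).Sim e ∧
          Grid0 (asm.val u) (amm.val u) (aqm.val u) (bsm.val u) e' (bqm.val u) ∧
          Grid0 (bms.val u) e' (bmq.val u) (cms.val u) (cmm.val u) (cmq.val u) := by
  obtain ⟨sms, smq, qms, qmq, sss, ssq, sqs, sqq, qss, qsq, qqs, qqq,
    ams, amq, csm, cqm, ass, asq, aqs, aqq, bss, bsq, bqs, bqq, css, csq, cqs, cqq, H⟩ :=
    cube_ex e hv hv' hn
  obtain ⟨x', hx', hl⟩ := exists_ext x K
    [⟨⟨_, _, _, K, ams.dim⟩, ams⟩, ⟨⟨_, _, _, K + 1, amq.dim⟩, amq⟩,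
      ⟨⟨_, _, _, K + 2, csm.dim⟩, csm⟩, ⟨⟨_, _, _, K + 3, cqm.dim⟩, cqm⟩,
      ⟨⟨_, _, _, K + 4, ass.dim⟩, ass⟩, ⟨⟨_, _, _, K + 5, asq.dim⟩, asq⟩,
      ⟨⟨_, _, _, K + 6, aqs.dim⟩, aqs⟩, ⟨⟨_, _, _, K + 7, aqq.dim⟩, aqq⟩,
      ⟨⟨_, _, _, K + 8, bss.dim⟩, bss⟩, ⟨⟨_, _, _, K + 9, bsq.dim⟩, bsq⟩,
      ⟨⟨_, _, _, K + 10, bqs.dim⟩, bqs⟩, ⟨⟨_, _, _, K + 11, bqq.dim⟩, bqq⟩,
      ⟨⟨_, _, _, K + 12, css.dim⟩, css⟩, ⟨⟨_, _, _, K + 13, csq.dim⟩, csq⟩,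
      ⟨⟨_, _, _, K + 14, cqs.dim⟩, cqs⟩, ⟨⟨_, _, _, K + 15, cqq.dim⟩, cqq⟩]
    (List.nodup_range' (s := K) (n := 16)) (by simp)
  simp only [List.forall_mem_cons] at hl
  obtain ⟨h1, h2, h3, h4, h5, h6, h7, h8, h9, h10, h11, h12, h13, h14, h15, h16, -⟩ := hl
  have hA : ∀ o ∈ D, x' o.1 = x o.1 := fun o ho => hx' _ (hK o ho)
  have e1 : asm.val x' = asm.val x := MvDist_hl fun o ho => hA o (by simp [hD, ho])
  have e2 : amm.val x' = amm.val x := MvDist_tl fun o ho => hA o (by simp [hD, ho])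
  have e3 : aqm.val x' = aqm.val x := MvDist_hl fun o ho => hA o (by simp [hD, ho])
  have e4 : bsm.val x' = bsm.val x := MvDist_tl fun o ho => hA o (by simp [hD, ho])
  have e5 : bqm.val x' = bqm.val x := MvDist_tl fun o ho => hA o (by simp [hD, ho])
  have e6 : bms.val x' = bms.val x := MvDist_hl fun o ho => hA o (by simp [hD, ho])
  have e7 : bmq.val x' = bmq.val x := MvDist_hl fun o ho => hA o (by simp [hD, ho])
  have e8 : cms.val x' = cms.val x := MvDist_tl fun o ho => hA o (by simp [hD, ho])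
  have e9 : cmm.val x' = cmm.val x := MvDist_hl fun o ho => hA o (by simp [hD, ho])
  have e10 : cmq.val x' = cmq.val x := MvDist_tl fun o ho => hA o (by simp [hD, ho])
  have d1 := amm.h
  have d2 := cmm.h
  have d3 := e.dim
  refine ⟨MvDist_g (.new ams.dim K) amm (.new amq.dim (K + 1)) (.new csm.dim (K + 2)) cmm
        (.new cqm.dim (K + 3)) ::ₘ
      MvDist_g (.new bss.dim (K + 8)) bsm (.new bsq.dim (K + 9)) (.new css.dim (K + 12))
        (.new csm.dim (K + 2)) (.new csq.dim (K + 13)) ::ₘ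
      MvDist_g (.new bqs.dim (K + 10)) bqm (.new bqq.dim (K + 11)) (.new cqs.dim (K + 14))
        (.new cqm.dim (K + 3)) (.new cqq.dim (K + 15)) ::ₘ
      MvDist_g (.new css.dim (K + 12)) cms (.new cqs.dim (K + 14)) (.new ass.dim (K + 4)) asm
        (.new asq.dim (K + 5)) ::ₘ
      MvDist_g (.new csq.dim (K + 13)) cmq (.new cqq.dim (K + 15)) (.new aqs.dim (K + 6)) aqm
        (.new aqq.dim (K + 7)) ::ₘ
      MvDist_g (.new ass.dim (K + 4)) (.new ams.dim K) (.new aqs.dim (K + 6))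
        (.new bss.dim (K + 8)) bms (.new bqs.dim (K + 10)) ::ₘ
      MvDist_g (.new asq.dim (K + 5)) (.new amq.dim (K + 1)) (.new aqq.dim (K + 7))
        (.new bsq.dim (K + 9)) bmq (.new bqq.dim (K + 11)) ::ₘ 0, x',
    [⟨_, _, _, K, ams.dim⟩, ⟨_, _, _, K + 1, amq.dim⟩, ⟨_, _, _, K + 2, csm.dim⟩,
      ⟨_, _, _, K + 3, cqm.dim⟩, ⟨_, _, _, K + 4, ass.dim⟩, ⟨_, _, _, K + 5, asq.dim⟩,
      ⟨_, _, _, K + 6, aqs.dim⟩, ⟨_, _, _, K + 7, aqq.dim⟩, ⟨_, _, _, K + 8, bss.dim⟩,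
      ⟨_, _, _, K + 9, bsq.dim⟩, ⟨_, _, _, K + 10, bqs.dim⟩, ⟨_, _, _, K + 11, bqq.dim⟩,
      ⟨_, _, _, K + 12, css.dim⟩, ⟨_, _, _, K + 13, csq.dim⟩, ⟨_, _, _, K + 14, cqs.dim⟩,
      ⟨_, _, _, K + 15, cqq.dim⟩], ?_,
    List.Nodup.of_map Var.k (List.nodup_range' (s := K) (n := 16)), by simp, ?_, ?_, ?_, hx',
    ?_, ?_⟩
  · simp only [hD, occ_cons, occ_zero, MvDist_g_occ, HL.new_occ, TL.new_occ, MvDist_F]
    abel
  · simp only [Multiset.forall_mem_cons]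
    have a := @HL.new_ok O
    have b := @TL.new_ok O
    exact ⟨⟨a _ _, o2, a _ _, b _ _, o9, b _ _⟩, ⟨a _ _, o4, a _ _, b _ _, a _ _, b _ _⟩,
      ⟨a _ _, o5, a _ _, b _ _, a _ _, b _ _⟩, ⟨a _ _, o8, a _ _, b _ _, o1, b _ _⟩,
      ⟨a _ _, o10, a _ _, b _ _, o3, b _ _⟩, ⟨a _ _, b _ _, a _ _, b _ _, o6, b _ _⟩,
      ⟨a _ _, b _ _, a _ _, b _ _, o7, b _ _⟩, by simp⟩
  · simp only [Top, Multiset.forall_mem_cons, MvDist_g_rank, MvDist_g_proper]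
    refine ⟨?_, ?_, ?_, ?_, ?_, ?_, ?_, by simp⟩ <;> omega
  · simp only [mu_cons, mu_zero, MvDist_g_mu]
    rw [if_pos trivial, if_neg (by omega), if_neg (by omega), if_neg (by omega),
      if_neg (by omega), if_neg (by omega), if_neg (by omega)]
    rfl
  · simp only [sat_cons, MvDist_g_sat, HL.new_val, TL.new_val, h1, h2, h3, h4, h5, h6, h7, h8, h9,
      h10, h11, h12, h13, h14, h15, h16, e1, e2, e3, e4, e5, e6, e7, e8, e9, e10]
    exact ⟨H.w, H.u1, H.u1q, H.u2, H.u2q, H.u3, H.u3q, sat_zero _⟩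
  · intro L u hu hN
    simp only [sat_cons, MvDist_g_sat] at hN
    obtain ⟨g1, g2, g3, g4, g5, g6, g7, -⟩ := hN
    simp only [HL.new_val, TL.new_val] at g1 g2 g3 g4 g5 g6 g7
    refine dist_solve L.t L.surj ⟨g1, g2, g3, g4, g5, g6, g7⟩ d3 e ?_ ?_
    · exact hv.congr (e1 ▸ hu.hl asm).symm (e2 ▸ hu.tl amm).symm (e3 ▸ hu.hl aqm).symm
        (e4 ▸ hu.tl bsm).symm (Ex.Sim.refl _) (e5 ▸ hu.tl bqm).symm
    · exact hv'.congr (e6 ▸ hu.hl bms).symm (Ex.Sim.refl _) (e7 ▸ hu.hl bmq).symm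
        (e8 ▸ hu.tl cms).symm (e9 ▸ hu.hl cmm).symm (e10 ▸ hu.tl cmq).symm

/-- The seam variable enters the first grid through the value of the tail line. -/
theorem MvDist_push {R : Type*} [CommRing R] [Algebra O R] (u : Val R)
    {n11 n12 n13 n21 n22 n23 n31 n32 n33 : ℕ} (r1 : HL O n11 n13 n12)
    (r2 : TL O n21 n23 n22) (r3 : HL O n31 n33 n32) (c1 : TL O n11 n31 n21)
    (c3 : TL O n13 n33 n23) (h : n12 + n32 = n22) (y : Option ℕ) (m s q s' q' : Word O) (ζ : Oˣ)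
    (hζ : ∀ n, ev n u m = scal R n ζ) :
    Grid0 (r1.val u) (r2.val u) (r3.val u) (c1.val u) (HL.val u ⟨h, y, m, s, q⟩) (c3.val u) ↔
      Grid0 (HL.val u ⟨r1.h, r1.x, (s' ++ m ++ s) ++ r1.m, r1.s, r1.q⟩) (r2.val u)
        (HL.val u ⟨r3.h, r3.x, (q' ++ m ++ q) ++ r3.m, r3.s, r3.q⟩) (c1.val u)
        (TL.val u ⟨h, y, s', q'⟩) (c3.val u) := by
  have h1 : HL.val u ⟨h, y, m, s, q⟩ = (TL.val u ⟨h, y, s', q'⟩).twist 1
      (ev n12 u (s' ++ m ++ s)) (ev n32 u (q' ++ m ++ q)) := by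
    simp only [HL.val, TL.val, Ex.twist_twist, ev_append, hζ, Ex.twist_scal, mul_one, mul_assoc,
      inv_mul_cancel_left]
  rw [h1, Grid0.push_c2]
  simp only [HL.val, Ex.twist_twist, ev_append, mul_one]

theorem mv_dist (Γ Γ' : Grid O) (hW : WF (.grid Γ ::ₘ .grid Γ' ::ₘ rest))
    (hT : Top ρ (.grid Γ ::ₘ .grid Γ' ::ₘ rest)) (hx : Sat x (.grid Γ ::ₘ .grid Γ' ::ₘ rest))
    (hρ : Γ.n22 = ρ) (hm : nvar Γ.c2.m = 0) (g : Var) (hg : Γ.c2.var = some g)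
    (hg' : Γ'.r2.var = some g) (hn : Γ.n13 = 0 ∨ Γ.n31 = 0) :
    ∃ (N : Sys O) (x' : Val ℂ), Red ρ (.grid Γ ::ₘ .grid Γ' ::ₘ rest) x (N + rest) x' ∧
      mu ρ N < (Vx.grid Γ).mu ρ + (Vx.grid Γ').mu ρ := by
  obtain ⟨ssm, msm, qsm, smm, ρ₁, qmm, sqm, mqm, qqm, r1, amm, r3, bsm, ⟨h, y, m, s, q⟩, bqm⟩ := Γ
  obtain ⟨mss, mms, msq', msm', ρ₂, mqm', msq, mmq, mqq, bms, ⟨h', y', s', q'⟩, bmq, cms, cmm,
    cmq⟩ := Γ'
  obtain rfl : ρ₁ = ρ := hρ
  obtain ⟨k, rfl, rfl⟩ := Option.map_eq_some_iff.1 hg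
  obtain ⟨k', rfl, hk⟩ := Option.map_eq_some_iff.1 hg'
  obtain ⟨rfl, rfl, rfl, rfl⟩ : msm' = msm ∧ mqm' = mqm ∧ ρ₂ = ρ₁ ∧ k' = k := by
    simpa only [Var.mk.injEq] using hk
  clear hg hg' hk
  dsimp only at hm hn
  obtain ⟨ζ, hζ⟩ := exists_scal_of_nvar m hm
  obtain ⟨K, hK⟩ := exists_fresh (occ (.grid ⟨_, _, _, _, _, _, _, _, _, r1, amm, r3, bsm,
    ⟨h, some k', m, s, q⟩, bqm⟩ ::ₘ .grid ⟨_, _, _, _, _, _, _, _, _, bms, ⟨h', some k', s', q'⟩,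
      bmq, cms, cmm, cmq⟩ ::ₘ rest))
  have hN := hW.nodup
  have ok := hW.ok
  simp only [Top, Multiset.forall_mem_cons] at hT ok
  obtain ⟨⟨-, hP⟩, ⟨-, hP'⟩, hT⟩ := hT
  obtain ⟨p1, p2, p3, p4⟩ := hP rfl
  obtain ⟨p5, p6, -, -⟩ := hP' rfl
  obtain ⟨ok1, ok2, ok⟩ := ok
  rw [sat_cons, sat_cons] at hx
  obtain ⟨hx1, hx2, hx⟩ := hx
  set asm : HL O ssm qsm msm' := ⟨r1.h, r1.x, (s' ++ m ++ s) ++ r1.m, r1.s, r1.q⟩ with hasm
  set aqm : HL O sqm qqm mqm' := ⟨r3.h, r3.x, (q' ++ m ++ q) ++ r3.m, r3.s, r3.q⟩ with haqm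
  obtain ⟨D, hD⟩ : ∃ D, D = asm.occ + amm.occ + aqm.occ + bsm.occ + bqm.occ + bms.occ + bmq.occ +
      cms.occ + cmm.occ + cmq.occ := ⟨_, rfl⟩
  have hO : occ (.grid ⟨_, _, _, _, _, _, _, _, _, r1, amm, r3, bsm,
      ⟨h, some k', m, s, q⟩, bqm⟩ ::ₘ .grid ⟨_, _, _, _, _, _, _, _, _, bms, ⟨h', some k', s', q'⟩,
        bmq, cms, cmm, cmq⟩ ::ₘ rest) =
      (⟨_, _, _, k', h⟩, true) ::ₘ (⟨_, _, _, k', h⟩, false) ::ₘ (D + occ rest) := by
    have a1 : asm.occ = r1.occ + wocc msm' s' + wocc msm' s := by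
      simp only [hasm, HL.occ, wocc_append, wocc_of_nvar hm]; abel
    have a2 : aqm.occ = r3.occ + wocc mqm' q' + wocc mqm' q := by
      simp only [haqm, HL.occ, wocc_append, wocc_of_nvar hm]; abel
    have a3 : HL.occ (⟨h, some k', m, s, q⟩ : HL O _ _ _) =
        {(⟨_, _, _, k', h⟩, true)} + wocc msm' s + wocc mqm' q := by
      simp only [HL.occ, locc, wocc_of_nvar hm, add_zero]
    have a4 : TL.occ (⟨h', some k', s', q'⟩ : TL O _ _ _) =
        {(⟨_, _, _, k', h⟩, false)} + wocc msm' s' + wocc mqm' q' := rfl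
    rw [occ_cons, occ_cons]
    simp only [Vx.occ, Grid.occ, hD, a1, a2, a3, a4, ← Multiset.singleton_add]
    abel
  rw [hO] at hK hN
  simp only [Multiset.nodup_cons, Multiset.mem_cons, not_or] at hN
  obtain ⟨⟨-, n1⟩, n2, hN⟩ := hN
  have hg0 : ∀ o ∈ D + occ rest, o.1 ≠ ⟨_, _, _, k', h⟩ := by
    rintro ⟨v, _ | _⟩ ho rfl
    exacts [n2 ho, n1 ho]
  have hK' : ∀ o ∈ D + occ rest, o.1.k < K := fun o ho =>
    hK o (Multiset.mem_cons_of_mem (Multiset.mem_cons_of_mem ho))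
  obtain ⟨N, x', l, c1, c2, c3, c4, c5, c6, c7, c8, c9⟩ :=
    MvDist_core asm amm aqm bsm bqm bms bmq cms cmm cmq ok1.r1 ok1.r2 ok1.r3 ok1.c1 ok1.c3 ok2.r1
      ok2.r3 ok2.c1 ok2.c2 ok2.c3 p1 p2 p3 p4 p5 p6 K D hD
      (fun o ho => hK' o (Multiset.mem_add.2 (Or.inl ho))) (TL.val x ⟨h', some k', s', q'⟩)
      ((MvDist_push x r1 amm r3 bsm bqm h _ m s q s' q' ζ fun n => hζ ℂ n _).1 hx1) hx2 hn
  refine ⟨N, x', ⟨⟨fun v hv => (Multiset.mem_add.1 hv).elim (c4 v) (ok v), ?_⟩,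
    fun v hv => (Multiset.mem_add.1 hv).elim (c5 v) (hT v), (sat_add _ _ _).2 ⟨c8, hx.congr
      (Agree.of_eq fun o ho => (c7 _ (hK' o (Multiset.mem_add.2 (Or.inr ho)))).symm)⟩, ?_⟩, ?_⟩
  · rw [occ_add, c1]
    exact nodup_move hN hK' (MvDist_nodup_F c2) (fun o ho => c3 _ (MvDist_mem_F ho)) le_rfl
  · intro hL
    rw [← Multiset.singleton_add, ← Multiset.singleton_add, ← add_assoc] at hO ⊢
    refine lift_move ⟨_, _, _, k', h⟩
      (fun e he => hg0 _ (Multiset.mem_add.2 (Or.inr he)) rfl)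
      (fun o ho _ => c7 _ (hK o (hO ▸ ho))) (fun L u hu hS => ?_) hL
    obtain ⟨e, he, g1, g2⟩ := c9 L u hu hS
    have hA : ∀ o ∈ D, x' o.1 = x o.1 := fun o ho =>
      c7 _ (hK' o (Multiset.mem_add.2 (Or.inl ho)))
    refine ⟨e.twist 1 (ev _ u s') (ev _ u q'), ?_, fun u' hu' hu'' => ?_⟩
    · rw [Ex.map_twist, map_one, hu.ev, hu.ev,
        ev_congr (u := x') (u' := x) (w := s')
          (Agree.of_eq fun o ho => hA o (by simp [hD, hasm, HL.occ, ho])),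
        ev_congr (u := x') (u' := x) (w := q')
          (Agree.of_eq fun o ho => hA o (by simp [hD, haqm, HL.occ, ho]))]
      refine (he.twist _ _ _).trans (Ex.Sim.of_eq ?_)
      simp only [TL.val, lval, Ex.twist_twist, mul_one, inv_mul_cancel, Ex.twist_one]
    · have hB : ∀ o ∈ D, u' o.1 = u o.1 := fun o ho =>
        hu' _ (hg0 o (Multiset.mem_add.2 (Or.inl ho)))
      have e0 : TL.val u' ⟨h', some k', s', q'⟩ = e := by
        simp only [TL.val, lval]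
        rw [hu'', ev_congr (u := u') (u' := u) (w := s')
          (Agree.of_eq fun o ho => hB o (by simp [hD, hasm, HL.occ, ho])),
          ev_congr (u := u') (u' := u) (w := q')
          (Agree.of_eq fun o ho => hB o (by simp [hD, haqm, HL.occ, ho]))]
        simp only [Ex.twist_twist, mul_one, mul_inv_cancel, Ex.twist_one]
      rw [← MvDist_hl (l := asm) fun o ho => hB o (by simp [hD, ho]),
        ← MvDist_tl (l := amm) fun o ho => hB o (by simp [hD, ho]),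
        ← MvDist_hl (l := aqm) fun o ho => hB o (by simp [hD, ho]),
        ← MvDist_tl (l := bsm) fun o ho => hB o (by simp [hD, ho]),
        ← MvDist_tl (l := bqm) fun o ho => hB o (by simp [hD, ho]), ← e0] at g1
      rw [← MvDist_hl (l := bms) fun o ho => hB o (by simp [hD, ho]),
        ← MvDist_hl (l := bmq) fun o ho => hB o (by simp [hD, ho]),
        ← MvDist_tl (l := cms) fun o ho => hB o (by simp [hD, ho]),
        ← MvDist_hl (l := cmm) fun o ho => hB o (by simp [hD, ho]),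
        ← MvDist_tl (l := cmq) fun o ho => hB o (by simp [hD, ho]), ← e0] at g2
      rw [sat_add, sat_singleton, sat_singleton]
      exact ⟨(MvDist_push u' r1 amm r3 bsm bqm h _ m s q s' q' ζ fun n => hζ L.A n _).2 g1, g2⟩
  · rw [c6]
    simp only [Vx.mu, if_true]
    omega

end Crest.Agent.R3

end
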