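import Crest.Agent.R3.Syn
import Crest.Agent.R3.Bimap
import Crest.Agent.R3.Cx

set_option autoImplicit false

noncomputable section

namespace Crest.Agent.R3

open Matrix

/-! Auxiliary lemmas for removing a letter of top rank. -/

variable {O : Subring ℂ}

/-- Occurrences outside the middle column. -/
def MvE3_occ (Γ : Grid O) : Multiset (Var × Bool) :=
  Γ.r1.occ + Γ.r2.occ + Γ.r3.occ + Γ.c1.occ + Γ.c3.occ

/-- Replace the middle column. -/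
def MvE3_set (Γ : Grid O) (c : HL O Γ.n12 Γ.n32 Γ.n22) : Grid O := { Γ with c2 := c }

theorem MvE3_occ_eq (Γ : Grid O) : Γ.occ = MvE3_occ Γ + Γ.c2.occ := by
  simp only [Grid.occ, MvE3_occ]; abel

theorem MvE3_set_occ (Γ : Grid O) (c : HL O Γ.n12 Γ.n32 Γ.n22) :
    (MvE3_set Γ c).occ = MvE3_occ Γ + c.occ := MvE3_occ_eq _

section R
variable {R : Type*} [CommRing R] [Algebra O R]

theorem MvE3_set_sat {u u' : Val R} (Γ : Grid O) (c : HL O Γ.n12 Γ.n32 Γ.n22)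
    (hag : Agree u u' (MvE3_occ Γ)) (hc : (Γ.c2.val u).Sim (c.val u')) (h : Γ.Sat u) :
    (MvE3_set Γ c).Sat u' := by
  refine Grid0.congr h (HL.val_congr (hag.mono ?_)) (TL.val_congr (hag.mono ?_))
    (HL.val_congr (hag.mono ?_)) (TL.val_congr (hag.mono ?_)) hc (TL.val_congr (hag.mono ?_)) <;>
  · intro o ho
    simp only [MvE3_occ, Multiset.mem_add]
    tauto

theorem MvE3_unset_sat {u u' : Val R} (Γ : Grid O) (c : HL O Γ.n12 Γ.n32 Γ.n22)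
    (hag : Agree u u' (MvE3_occ Γ)) (hc : (c.val u).Sim (Γ.c2.val u'))
    (h : (MvE3_set Γ c).Sat u) : Γ.Sat u' :=
  MvE3_set_sat (MvE3_set Γ c) Γ.c2 hag hc h

theorem MvE3_step {u u' : Val R} {a b n : ℕ} (hc : a + b = n) (xo : Option ℕ)
    (w1 wt s q : Word O) (it : Item O (Bool × ℕ)) (φ : G n R) (C H : Ex R a b n)
    (hag : Agree u u' (wocc n w1 + wocc a s + wocc b q))
    (hφ : evalI (letters n u') it = φ) (hH : (C.twist φ 1 1).Sim H)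
    (hC : C.Sim (HL.val u' (⟨hc, xo, wt, [], []⟩ : HL O a b n))) :
    (H.twist (ev n u w1) (ev a u s) (ev b u q)).Sim
      (HL.val u' (⟨hc, xo, w1 ++ it :: wt, s, q⟩ : HL O a b n)) := by
  have e1 : ev n u w1 = ev n u' w1 := ev_congr (hag.mono fun o ho => by
    simp only [Multiset.mem_add, ho, true_or])
  have e2 : ev a u s = ev a u' s := ev_congr (hag.mono fun o ho => by
    simp only [Multiset.mem_add, ho, true_or, or_true])
  have e3 : ev b u q = ev b u' q := ev_congr (hag.mono fun o ho => by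
    simp only [Multiset.mem_add, ho, or_true])
  rw [e1, e2, e3]
  refine ((hH.symm.trans (hC.twist φ 1 1)).twist _ _ _).trans (Ex.Sim.of_eq ?_)
  simp only [HL.val, Ex.twist_twist, ev_append, ev_cons, ev_nil, hφ, one_mul]

theorem MvE3_inv {a b n : ℕ} {C H : Ex R a b n} {φ : G n R} (h : (H.twist φ 1 1).Sim C) :
    (C.twist φ⁻¹ 1 1).Sim H := by
  refine (h.symm.twist φ⁻¹ 1 1).trans (Ex.Sim.of_eq ?_)
  rw [Ex.twist_twist, inv_mul_cancel, one_mul, one_mul, Ex.twist_one]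

end R

/-- The new grids. -/
def MvE3_grid {a b a' b' ρ n11 n13 n31 n33 : ℕ} (h1 : n11 + n13 = a) (h3 : n31 + n33 = b)
    (k1 : n11 + n31 = a') (k3 : n13 + n33 = b') (hk : a' + b' = ρ) (K1 K3 T1 T3 Kk : ℕ)
    (c : HL O a b ρ) : Grid O :=
  ⟨n11, a, n13, a', ρ, b', n31, b, n33, HL.new h1 K1, TL.new hk Kk, HL.new h3 K3, TL.new k1 T1, c,
    TL.new k3 T3⟩

section Grid
variable {a b a' b' ρ n11 n13 n31 n33 : ℕ} (h1 : n11 + n13 = a) (h3 : n31 + n33 = b)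
  (k1 : n11 + n31 = a') (k3 : n13 + n33 = b') (hk : a' + b' = ρ) (K1 K3 T1 T3 Kk : ℕ)
  (c : HL O a b ρ)

theorem MvE3_grid_sat {R : Type*} [CommRing R] [Algebra O R] (u : Val R) :
    (MvE3_grid h1 h3 k1 k3 hk K1 K3 T1 T3 Kk c).Sat u ↔
      Grid0 (u ⟨_, _, _, K1, h1⟩) (u ⟨_, _, _, Kk, hk⟩) (u ⟨_, _, _, K3, h3⟩)
        (u ⟨_, _, _, T1, k1⟩) (c.val u) (u ⟨_, _, _, T3, k3⟩) := by
  simp only [Grid.Sat, MvE3_grid, HL.new_val, TL.new_val]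

theorem MvE3_grid_occ : (MvE3_grid h1 h3 k1 k3 hk K1 K3 T1 T3 Kk c).occ =
    {(⟨_, _, _, K1, h1⟩, true)} + {(⟨_, _, _, Kk, hk⟩, false)} + {(⟨_, _, _, K3, h3⟩, true)} +
      {(⟨_, _, _, T1, k1⟩, false)} + c.occ + {(⟨_, _, _, T3, k3⟩, false)} := rfl

theorem MvE3_grid_ok (hc : c.ok) : (MvE3_grid h1 h3 k1 k3 hk K1 K3 T1 T3 Kk c).ok :=
  ⟨HL.new_ok _ _, TL.new_ok _ _, HL.new_ok _ _, TL.new_ok _ _, hc, TL.new_ok _ _⟩

theorem MvE3_grid_mu : (Vx.grid (MvE3_grid h1 h3 k1 k3 hk K1 K3 T1 T3 Kk c)).mu ρ =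
    1 + 2 * nvar c.m := by
  simp only [Vx.mu, MvE3_grid, if_true]

end Grid

/-- The fresh occurrences. -/
def MvE3_F (v0 v1 v2 v3 v4 v5 : Var) : Multiset (Var × Bool) :=
  {(v0, true)} + ({(v0, false)} + ({(v1, true)} + ({(v1, false)} + ({(v2, true)} +
    ({(v2, false)} + ({(v3, true)} + ({(v3, false)} + ({(v4, true)} + ({(v4, false)} +
      ({(v5, true)} + {(v5, false)}))))))))))

theorem MvE3_F_spec {v0 v1 v2 v3 v4 v5 : Var} {K : ℕ} (e0 : v0.k = K) (e1 : v1.k = K + 1)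
    (e2 : v2.k = K + 2) (e3 : v3.k = K + 3) (e4 : v4.k = K + 4) (e5 : v5.k = K + 5) :
    (MvE3_F v0 v1 v2 v3 v4 v5).Nodup ∧ ∀ o ∈ MvE3_F v0 v1 v2 v3 v4 v5, K ≤ o.1.k := by
  constructor
  · refine Multiset.Nodup.of_map (fun o => (o.1.k, o.2)) ?_
    simp [MvE3_F, e0, e1, e2, e3, e4, e5]
  · intro o ho
    simp only [MvE3_F, Multiset.mem_add, Multiset.mem_singleton] at ho
    rcases ho with h | h | h | h | h | h | h | h | h | h | h | h <;> subst h <;> dsimp only <;>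
      omega

theorem MvE3_not_mem {g : Var} {ε : Bool} {M : Multiset (Var × Bool)}
    (h : ({(g, ε)} + ({(g, !ε)} + M) : Multiset (Var × Bool)).Nodup) : ∀ o ∈ M, o.1 ≠ g := by
  rintro ⟨v, e⟩ ho rfl
  simp only [Multiset.singleton_add, Multiset.nodup_cons, Multiset.mem_cons, not_or] at h
  by_cases he : e = ε
  · subst he; exact h.1.2 ho
  · have : e = !ε := by cases e <;> cases ε <;> simp_all
    subst this; exact h.2.1 ho

/-- The extended complex point. -/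
theorem MvE3_ext {a b a' b' ρ : ℕ} (hh : a + b = ρ) (hk : a' + b' = ρ) (x : Val ℂ) (K : ℕ)
    (ψ : G ρ ℂ) (g : Ex ℂ a b ρ) (k : Ex ℂ a' b' ρ) :
    ∃ (n11 n13 n31 n33 : ℕ) (h1 : n11 + n13 = a) (h3 : n31 + n33 = b) (k1 : n11 + n31 = a')
      (k3 : n13 + n33 = b') (x' : Val ℂ), (∀ v : Var, v.k < K → x' v = x v) ∧
      x' ⟨_, _, _, K + 4, hh⟩ = g.twist ψ 1 1 ∧ x' ⟨_, _, _, K + 5, hk⟩ = k ∧
      Grid0 (x' ⟨_, _, _, K, h1⟩) k (x' ⟨_, _, _, K + 1, h3⟩) (x' ⟨_, _, _, K + 2, k1⟩) g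
        (x' ⟨_, _, _, K + 3, k3⟩) := by
  obtain ⟨n11, n13, n31, n33, σ1, σ3, τ1, τ3, H⟩ := corner g k
  have h1 := σ1.dim
  have h3 := σ3.dim
  have k1 := τ1.dim
  have k3 := τ3.dim
  obtain ⟨x', hx', hl⟩ := exists_ext x K
    [⟨⟨_, _, _, K, h1⟩, σ1⟩, ⟨⟨_, _, _, K + 1, h3⟩, σ3⟩, ⟨⟨_, _, _, K + 2, k1⟩, τ1⟩,
      ⟨⟨_, _, _, K + 3, k3⟩, τ3⟩, ⟨⟨_, _, _, K + 4, hh⟩, g.twist ψ 1 1⟩,
      ⟨⟨_, _, _, K + 5, hk⟩, k⟩] (by simp) (by simp)
  simp only [List.forall_mem_cons] at hl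
  obtain ⟨e0, e1, e2, e3, e4, e5, -⟩ := hl
  refine ⟨n11, n13, n31, n33, h1, h3, k1, k3, x', hx', e4, e5, ?_⟩
  rw [e0, e1, e2, e3]
  exact H

/-- Solving for the letter. -/
theorem MvE3_solve {a b a' b' ρ n11 n13 n31 n33 : ℕ} (h1 : n11 + n13 = a) (h3 : n31 + n33 = b)
    (k1 : n11 + n31 = a') (k3 : n13 + n33 = b') (hh : a + b = ρ) (hk : a' + b' = ρ)
    (K1 K3 T1 T3 Kh Kk : ℕ) (cA : HL O a b ρ) (cB : HL O a' b' ρ) {x x' : Val ℂ} {L : LR O}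
    {u : Val L.A} (hu : Lifts L u x') (φ : Bool × ℕ) (ε : Bool)
    (hA : (MvE3_grid h1 h3 k1 k3 hk K1 K3 T1 T3 Kk cA).Sat u)
    (hB : (MvE3_grid k1 k3 h1 h3 hh T1 T3 K1 K3 Kh cB).Sat u)
    (s1 : ((cA.val x').twist (evalI (letters ρ x) (.var φ ε : Item O _)) 1 1).Sim
      (x' ⟨_, _, _, Kh, hh⟩))
    (s2 : ((x' ⟨_, _, _, Kk, hk⟩).twist (evalI (letters ρ x) (.var φ ε : Item O _)) 1 1).Sim
      (cB.val x')) :
    ∃ M ψ : G ρ L.A, gmap L.t M = letters ρ x φ ∧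
      (∀ u' : Val L.A, letters ρ u' φ = M → evalI (letters ρ u') (.var φ ε : Item O _) = ψ) ∧
      ((cA.val u).twist ψ 1 1).Sim (u ⟨_, _, _, Kh, hh⟩) ∧
      ((u ⟨_, _, _, Kk, hk⟩).twist ψ 1 1).Sim (cB.val u) := by
  rw [MvE3_grid_sat] at hA hB
  obtain ⟨ψ, hψ, t1, t2⟩ := edge2 L.t L.surj _ _ _ _ _ _ _ _ hA hB
    (evalI (letters ρ x) (.var φ ε : Item O _))
    (((hu.hl cA).twist _ 1 1).trans (s1.trans (hu _).symm))
    (((hu ⟨_, _, _, Kk, hk⟩).twist _ 1 1).trans (s2.trans (hu.hl cB).symm))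
  cases ε
  · refine ⟨ψ⁻¹, ψ, ?_, fun u' hu' => ?_, t1, t2⟩
    · rw [map_inv, hψ, evalI_false, inv_inv]
    · rw [evalI_false, hu', inv_inv]
  · refine ⟨ψ, ψ, ?_, fun u' hu' => ?_, t1, t2⟩
    · rw [hψ, evalI_true]
    · rw [evalI_true, hu']

end Crest.Agent.R3

end
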