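import Crest.Agent.R3.Syn
import Crest.Agent.R3.Bimap
import Crest.Agent.R3.Cx
import Crest.Agent.R3.MvE3Aux1

set_option autoImplicit false

noncomputable section

namespace Crest.Agent.R3

open Matrix Filter Topology

/-! Removing a letter of top rank. -/

variable {O : Subring ℂ} {ρ : ℕ} {rest : Sys O} {x : Val ℂ}

theorem mv_E3a (Γ Γ' : Grid O) (hW : WF (.grid Γ ::ₘ .grid Γ' ::ₘ rest))
    (hT : Top ρ (.grid Γ ::ₘ .grid Γ' ::ₘ rest)) (hx : Sat x (.grid Γ ::ₘ .grid Γ' ::ₘ rest))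
    (hρ : Γ.n22 = ρ) (hρ' : Γ'.n22 = ρ) (w1 w2 w1' w2' : Word O) (φ : Bool × ℕ) (ε : Bool)
    (hm : Γ.c2.m = w1 ++ .var φ ε :: w2) (hm' : Γ'.c2.m = w1' ++ .var φ (!ε) :: w2') :
    ∃ (N : Sys O) (x' : Val ℂ), Red ρ (.grid Γ ::ₘ .grid Γ' ::ₘ rest) x (N + rest) x' ∧
      mu ρ N < (Vx.grid Γ).mu ρ + (Vx.grid Γ').mu ρ := by
  obtain ⟨m11, a, m13, m21, ρ0, m23, m31, b, m33, r1, r2, r3, c1, ⟨hh, xo, m, s, q⟩, c3⟩ := Γ
  obtain ⟨m11', a', m13', m21', ρ0', m23', m31', b', m33', r1', r2', r3', c1',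
    ⟨hk, xo', m', s', q'⟩, c3'⟩ := Γ'
  dsimp only at hρ hρ' hm hm'
  have hρ1 := hρ.symm
  have hρ2 := hρ'.symm
  clear hρ hρ'
  subst hρ1 hρ2 hm hm'
  set Γ : Grid O := ⟨m11, a, m13, m21, ρ, m23, m31, b, m33, r1, r2, r3, c1,
    ⟨hh, xo, w1 ++ .var φ ε :: w2, s, q⟩, c3⟩ with hΓ
  set Γ' : Grid O := ⟨m11', a', m13', m21', ρ, m23', m31', b', m33', r1', r2', r3', c1',
    ⟨hk, xo', w1' ++ .var φ (!ε) :: w2', s', q'⟩, c3'⟩ with hΓ'
  have hp : Γ.proper := (hT (.grid Γ) (by simp)).2 rfl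
  have hp' : Γ'.proper := (hT (.grid Γ') (by simp)).2 rfl
  have hok : Γ.ok := hW.ok (.grid Γ) (by simp)
  have hok' : Γ'.ok := hW.ok (.grid Γ') (by simp)
  let T : HL O a b ρ := ⟨hh, xo, w2, [], []⟩
  let T' : HL O a' b' ρ := ⟨hk, xo', w2', [], []⟩
  let M0 : Multiset (Var × Bool) := MvE3_occ Γ + (wocc ρ w1 + wocc a s + wocc b q) + T.occ +
    MvE3_occ Γ' + (wocc ρ w1' + wocc a' s' + wocc b' q') + T'.occ
  have hocc : occ ((.grid Γ ::ₘ {.grid Γ'} : Sys O)) =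
      {(letterVar ρ φ, ε)} + ({(letterVar ρ φ, !ε)} + M0) := by
    simp only [occ_cons, occ_singleton, Vx.occ, MvE3_occ_eq, M0, T, T', Γ, Γ', HL.occ,
      wocc_append, wocc_var, wocc_nil]
    abel
  have hS : (.grid Γ ::ₘ .grid Γ' ::ₘ rest : Sys O) = (.grid Γ ::ₘ {.grid Γ'}) + rest := by
    simp
  rw [hS] at hW hT hx ⊢
  have hnd := hW.nodup
  rw [occ_add] at hnd
  obtain ⟨K, hK⟩ := exists_fresh (occ ((.grid Γ ::ₘ {.grid Γ'} : Sys O)) + occ rest)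
  have hg : ∀ o ∈ M0 + occ rest, o.1 ≠ letterVar ρ φ := by
    refine MvE3_not_mem (ε := ε) ?_
    rw [hocc] at hnd
    simpa only [add_assoc] using hnd
  have hK0 : ∀ o ∈ M0 + occ rest, o.1.k < K := fun o ho => hK o (by
    rw [hocc]
    simp only [Multiset.mem_add] at ho ⊢
    tauto)
  have sub1 : MvE3_occ Γ ⊆ M0 + occ rest := fun o ho => by
    simp only [M0, Multiset.mem_add, ho, true_or]
  have sub2 : wocc ρ w1 + wocc a s + wocc b q ⊆ M0 + occ rest := fun o ho => by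
    simp only [M0, Multiset.mem_add] at ho ⊢; tauto
  have sub3 : T.occ ⊆ M0 + occ rest := fun o ho => by
    simp only [M0, Multiset.mem_add, ho, true_or, or_true]
  have sub4 : MvE3_occ Γ' ⊆ M0 + occ rest := fun o ho => by
    simp only [M0, Multiset.mem_add, ho, true_or, or_true]
  have sub5 : wocc ρ w1' + wocc a' s' + wocc b' q' ⊆ M0 + occ rest := fun o ho => by
    simp only [M0, Multiset.mem_add] at ho ⊢; tauto
  have sub6 : T'.occ ⊆ M0 + occ rest := fun o ho => by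
    simp only [M0, Multiset.mem_add, ho, true_or, or_true]
  have sub7 : occ rest ⊆ M0 + occ rest := fun o ho => by
    simp only [Multiset.mem_add, ho, or_true]
  obtain ⟨n11, n13, n31, n33, h1, h3, k1, k3, x', hx', e4, e5, HA⟩ := MvE3_ext hh hk x K
    (evalI (letters ρ x) (.var φ ε : Item O _)) (T.val x)
    ((T'.val x).twist (evalI (letters ρ x) (.var φ ε : Item O _))⁻¹ 1 1)
  have ag : Agree x x' (M0 + occ rest) := Agree.of_eq fun o ho => (hx' _ (hK0 o ho)).symm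
  have ag' : Agree x' x (M0 + occ rest) := Agree.of_eq fun o ho => hx' _ (hK0 o ho)
  have sT : (T.val x).Sim (T.val x') := HL.val_congr (ag.mono sub3)
  have sT' : (T'.val x).Sim (T'.val x') := HL.val_congr (ag.mono sub6)
  have s1 : ((T.val x').twist (evalI (letters ρ x) (.var φ ε : Item O _)) 1 1).Sim
      (x' ⟨_, _, _, K + 4, hh⟩) := by
    rw [e4]; exact sT.symm.twist _ _ _
  have s2 : ((x' ⟨_, _, _, K + 5, hk⟩).twist (evalI (letters ρ x) (.var φ ε : Item O _)) 1 1).Sim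
      (T'.val x') := by
    rw [e5, Ex.twist_twist, mul_inv_cancel, one_mul, one_mul, Ex.twist_one]; exact sT'
  rw [sat_add, sat_cons, sat_singleton] at hx
  refine ⟨.grid (MvE3_set Γ ⟨hh, some (K + 4), w1, s, q⟩) ::ₘ
    .grid (MvE3_set Γ' ⟨hk, some (K + 5), w1', s', q'⟩) ::ₘ
    .grid (MvE3_grid h1 h3 k1 k3 hk K (K + 1) (K + 2) (K + 3) (K + 5) T) ::ₘ
    {.grid (MvE3_grid k1 k3 h1 h3 hh (K + 2) (K + 3) K (K + 1) (K + 4) T')}, x',
    ⟨⟨?_, ?_⟩, ?_, ?_, ?_⟩, ?_⟩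
  · intro v hv
    simp only [Multiset.mem_add, Multiset.mem_cons, Multiset.mem_singleton] at hv
    rcases hv with (rfl | rfl | rfl | rfl) | hv
    · exact ⟨hok.r1, hok.r2, hok.r3, hok.c1, (fun h => by cases h), hok.c3⟩
    · exact ⟨hok'.r1, hok'.r2, hok'.r3, hok'.c1, (fun h => by cases h), hok'.c3⟩
    · exact MvE3_grid_ok _ _ _ _ _ _ _ _ _ _ _ hok.c2
    · exact MvE3_grid_ok _ _ _ _ _ _ _ _ _ _ _ hok'.c2
    · exact hW.ok v (Multiset.mem_add.2 (Or.inr hv))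
  · rw [occ_add]
    obtain ⟨f1, f2⟩ := MvE3_F_spec (K := K) (v0 := ⟨_, _, _, K, h1⟩) (v1 := ⟨_, _, _, K + 1, h3⟩)
      (v2 := ⟨_, _, _, K + 2, k1⟩) (v3 := ⟨_, _, _, K + 3, k3⟩) (v4 := ⟨_, _, _, K + 4, hh⟩)
      (v5 := ⟨_, _, _, K + 5, hk⟩) rfl rfl rfl rfl rfl rfl
    refine nodup_move hnd hK f1 f2 (Multiset.le_iff_exists_add.2
      ⟨{(letterVar ρ φ, ε)} + {(letterVar ρ φ, !ε)}, ?_⟩)
    rw [hocc]
    simp only [occ_cons, occ_singleton, Vx.occ, MvE3_set_occ, MvE3_grid_occ, MvE3_F, M0]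
    simp only [HL.occ, locc]
    abel
  · intro v hv
    simp only [Multiset.mem_add, Multiset.mem_cons, Multiset.mem_singleton] at hv
    rcases hv with (rfl | rfl | rfl | rfl) | hv
    · exact ⟨le_rfl, fun _ => hp⟩
    · exact ⟨le_rfl, fun _ => hp'⟩
    · exact ⟨le_rfl, fun _ => ⟨hp.1, hp.2.1, hp'.1, hp'.2.1⟩⟩
    · exact ⟨le_rfl, fun _ => ⟨hp'.1, hp'.2.1, hp.1, hp.2.1⟩⟩
    · exact hT v (Multiset.mem_add.2 (Or.inr hv))
  · simp only [sat_add, sat_cons, sat_singleton]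
    refine ⟨⟨?_, ?_, ?_, ?_⟩, Sat.congr (ag.mono sub7) hx.2⟩
    · exact MvE3_set_sat Γ _ (ag.mono sub1) (MvE3_step hh xo w1 w2 s q _ _ _ _ (ag'.mono sub2) rfl
        s1 sT.symm).symm hx.1.1
    · exact MvE3_set_sat Γ' _ (ag.mono sub4) (MvE3_step hk xo' w1' w2' s' q' _ _ _ _
        (ag'.mono sub5) (evalI_not _ _ _) (MvE3_inv s2) sT'.symm).symm hx.1.2
    · refine (MvE3_grid_sat _ _ _ _ _ _ _ _ _ _ _ _).2 ?_
      rw [← e5] at HA
      exact HA.congr (.refl _) (.refl _) (.refl _) (.refl _) sT (.refl _)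
    · refine (MvE3_grid_sat _ _ _ _ _ _ _ _ _ _ _ _).2 ?_
      rw [← e5] at HA
      exact (HA.tr.twist_mid _).congr (.refl _) ((sT.twist _ 1 1).trans s1) (.refl _) (.refl _) s2
        (.refl _)
  · refine lift_moveL ρ φ (fun e he => hg _ (sub7 he) rfl)
      (fun o ho _ => hx' _ (hK o (by rwa [occ_add] at ho))) fun L u hu hN => ?_
    simp only [sat_cons, sat_singleton] at hN
    obtain ⟨M, ψ, hM, hψ, t1, t2⟩ := MvE3_solve h1 h3 k1 k3 hh hk _ _ _ _ _ _ T T' hu φ ε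
      hN.2.2.1 hN.2.2.2 s1 s2
    refine ⟨M, hM, fun u' hu' hl => ?_⟩
    have au : Agree u u' (M0 + occ rest) := Agree.of_eq fun o ho => (hu' _ (hg o ho)).symm
    rw [sat_cons, sat_singleton]
    constructor
    · exact MvE3_unset_sat Γ ⟨hh, some (K + 4), w1, s, q⟩ (au.mono sub1)
        (MvE3_step hh xo w1 w2 s q _ _ _ _ (au.mono sub2)
        (hψ u' hl) t1 (HL.val_congr (au.mono sub3))) hN.1
    · exact MvE3_unset_sat Γ' ⟨hk, some (K + 5), w1', s', q'⟩ (au.mono sub4)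
        (MvE3_step hk xo' w1' w2' s' q' _ _ _ _
        (au.mono sub5) (by rw [evalI_not, hψ u' hl]) (MvE3_inv t2)
        (HL.val_congr (au.mono sub6))) hN.2.1
  · simp only [mu_cons, mu_singleton, MvE3_grid_mu]
    simp only [Vx.mu, MvE3_set, Γ, Γ', T, T', if_true, nvar_append, nvar_var]
    omega

theorem mv_E3b (Γ : Grid O) (hW : WF (.grid Γ ::ₘ rest)) (hT : Top ρ (.grid Γ ::ₘ rest))
    (hx : Sat x (.grid Γ ::ₘ rest)) (hρ : Γ.n22 = ρ) (w1 w2 w3 : Word O) (φ : Bool × ℕ)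
    (ε : Bool) (hm : Γ.c2.m = w1 ++ .var φ ε :: (w2 ++ .var φ (!ε) :: w3)) :
    ∃ (N : Sys O) (x' : Val ℂ), Red ρ (.grid Γ ::ₘ rest) x (N + rest) x' ∧
      mu ρ N < (Vx.grid Γ).mu ρ := by
  obtain ⟨m11, a, m13, m21, ρ0, m23, m31, b, m33, r1, r2, r3, c1, ⟨hh, xo, m, s, q⟩, c3⟩ := Γ
  dsimp only at hρ hm
  have hρ1 := hρ.symm
  clear hρ
  subst hρ1 hm
  set Γ : Grid O := ⟨m11, a, m13, m21, ρ, m23, m31, b, m33, r1, r2, r3, c1,
    ⟨hh, xo, w1 ++ .var φ ε :: (w2 ++ .var φ (!ε) :: w3), s, q⟩, c3⟩ with hΓ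
  have hp : Γ.proper := (hT (.grid Γ) (by simp)).2 rfl
  have hok : Γ.ok := hW.ok (.grid Γ) (by simp)
  let T' : HL O a b ρ := ⟨hh, xo, w3, [], []⟩
  let M0 : Multiset (Var × Bool) := MvE3_occ Γ + (wocc ρ w1 + wocc a s + wocc b q) + wocc ρ w2 +
    T'.occ
  have hocc : occ ({.grid Γ} : Sys O) =
      {(letterVar ρ φ, ε)} + ({(letterVar ρ φ, !ε)} + M0) := by
    simp only [occ_singleton, Vx.occ, MvE3_occ_eq, M0, T', Γ, HL.occ,
      wocc_append, wocc_var, wocc_nil]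
    abel
  have hS : (.grid Γ ::ₘ rest : Sys O) = {.grid Γ} + rest := by
    simp
  rw [hS] at hW hT hx ⊢
  have hnd := hW.nodup
  rw [occ_add] at hnd
  obtain ⟨K, hK⟩ := exists_fresh (occ ({.grid Γ} : Sys O) + occ rest)
  let T : HL O a b ρ := ⟨hh, some (K + 5), w2, [], []⟩
  have hg : ∀ o ∈ M0 + occ rest, o.1 ≠ letterVar ρ φ := by
    refine MvE3_not_mem (ε := ε) ?_
    rw [hocc] at hnd
    simpa only [add_assoc] using hnd
  have hK0 : ∀ o ∈ M0 + occ rest, o.1.k < K := fun o ho => hK o (by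
    rw [hocc]
    simp only [Multiset.mem_add] at ho ⊢
    tauto)
  have sub1 : MvE3_occ Γ ⊆ M0 + occ rest := fun o ho => by
    simp only [M0, Multiset.mem_add, ho, true_or]
  have sub2 : wocc ρ w1 + wocc a s + wocc b q ⊆ M0 + occ rest := fun o ho => by
    simp only [M0, Multiset.mem_add] at ho ⊢; tauto
  have sub3 : wocc ρ w2 + wocc a ([] : Word O) + wocc b ([] : Word O) ⊆ M0 + occ rest :=
    fun o ho => by
      simp only [wocc_nil, add_zero] at ho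
      simp only [M0, Multiset.mem_add, ho, true_or, or_true]
  have sub3' : wocc ρ w2 ⊆ M0 + occ rest := fun o ho => by
    simp only [M0, Multiset.mem_add, ho, true_or, or_true]
  have sub6 : T'.occ ⊆ M0 + occ rest := fun o ho => by
    simp only [M0, Multiset.mem_add, ho, true_or, or_true]
  have sub7 : occ rest ⊆ M0 + occ rest := fun o ho => by
    simp only [Multiset.mem_add, ho, or_true]
  obtain ⟨n11, n13, n31, n33, h1, h3, k1, k3, x', hx', e4, e5, HA⟩ := MvE3_ext hh hh x K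
    (evalI (letters ρ x) (.var φ ε : Item O _))
    (((T'.val x).twist (evalI (letters ρ x) (.var φ ε : Item O _))⁻¹ 1 1).twist (ev ρ x w2) 1 1)
    ((T'.val x).twist (evalI (letters ρ x) (.var φ ε : Item O _))⁻¹ 1 1)
  have ag : Agree x x' (M0 + occ rest) := Agree.of_eq fun o ho => (hx' _ (hK0 o ho)).symm
  have ag' : Agree x' x (M0 + occ rest) := Agree.of_eq fun o ho => hx' _ (hK0 o ho)
  have eT : T.val x' = ((T'.val x).twist (evalI (letters ρ x) (.var φ ε : Item O _))⁻¹ 1 1).twist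
      (ev ρ x w2) 1 1 := by
    rw [← e5, ev_congr (ag.mono sub3')]
    rfl
  have sT' : (T'.val x).Sim (T'.val x') := HL.val_congr (ag.mono sub6)
  have s1 : ((T.val x').twist (evalI (letters ρ x) (.var φ ε : Item O _)) 1 1).Sim
      (x' ⟨_, _, _, K + 4, hh⟩) := by
    rw [e4, eT]; exact .refl _
  have s2 : ((x' ⟨_, _, _, K + 5, hh⟩).twist (evalI (letters ρ x) (.var φ ε : Item O _)) 1 1).Sim
      (T'.val x') := by
    rw [e5, Ex.twist_twist, mul_inv_cancel, one_mul, one_mul, Ex.twist_one]; exact sT'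
  rw [sat_add, sat_singleton] at hx
  rw [← eT, ← e5] at HA
  refine ⟨.grid (MvE3_set Γ ⟨hh, some (K + 4), w1, s, q⟩) ::ₘ
    .grid (MvE3_grid h1 h3 k1 k3 hh K (K + 1) (K + 2) (K + 3) (K + 5) T) ::ₘ
    {.grid (MvE3_grid k1 k3 h1 h3 hh (K + 2) (K + 3) K (K + 1) (K + 4) T')}, x',
    ⟨⟨?_, ?_⟩, ?_, ?_, ?_⟩, ?_⟩
  · intro v hv
    simp only [Multiset.mem_add, Multiset.mem_cons, Multiset.mem_singleton] at hv
    rcases hv with (rfl | rfl | rfl) | hv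
    · exact ⟨hok.r1, hok.r2, hok.r3, hok.c1, (fun h => by cases h), hok.c3⟩
    · exact MvE3_grid_ok _ _ _ _ _ _ _ _ _ _ _ (fun h => by cases h)
    · exact MvE3_grid_ok _ _ _ _ _ _ _ _ _ _ _ hok.c2
    · exact hW.ok v (Multiset.mem_add.2 (Or.inr hv))
  · rw [occ_add]
    obtain ⟨f1, f2⟩ := MvE3_F_spec (K := K) (v0 := ⟨_, _, _, K, h1⟩) (v1 := ⟨_, _, _, K + 1, h3⟩)
      (v2 := ⟨_, _, _, K + 2, k1⟩) (v3 := ⟨_, _, _, K + 3, k3⟩) (v4 := ⟨_, _, _, K + 4, hh⟩)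
      (v5 := ⟨_, _, _, K + 5, hh⟩) rfl rfl rfl rfl rfl rfl
    refine nodup_move hnd hK f1 f2 (Multiset.le_iff_exists_add.2
      ⟨{(letterVar ρ φ, ε)} + {(letterVar ρ φ, !ε)}, ?_⟩)
    rw [hocc]
    have hT : T.occ = {(⟨_, _, _, K + 5, hh⟩, true)} + wocc ρ w2 := by
      simp only [T, HL.occ, locc, wocc_nil, add_zero]
    simp only [occ_cons, occ_singleton, Vx.occ, MvE3_set_occ, MvE3_grid_occ, MvE3_F, M0, hT]
    simp only [HL.occ, locc]
    abel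
  · intro v hv
    simp only [Multiset.mem_add, Multiset.mem_cons, Multiset.mem_singleton] at hv
    rcases hv with (rfl | rfl | rfl) | hv
    · exact ⟨le_rfl, fun _ => hp⟩
    · exact ⟨le_rfl, fun _ => ⟨hp.1, hp.2.1, hp.1, hp.2.1⟩⟩
    · exact ⟨le_rfl, fun _ => ⟨hp.1, hp.2.1, hp.1, hp.2.1⟩⟩
    · exact hT v (Multiset.mem_add.2 (Or.inr hv))
  · simp only [sat_add, sat_cons, sat_singleton]
    refine ⟨⟨?_, ?_, ?_⟩, Sat.congr (ag.mono sub7) hx.2⟩
    · exact MvE3_set_sat Γ ⟨hh, some (K + 4), w1, s, q⟩ (ag.mono sub1)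
        (MvE3_step hh xo w1 _ s q _ _ (T.val x') _ (ag'.mono sub2) rfl s1
          (MvE3_step hh xo w2 w3 [] [] _ _ _ _ (ag'.mono sub3) (evalI_not _ _ _) (MvE3_inv s2)
            sT'.symm)).symm hx.1
    · exact (MvE3_grid_sat _ _ _ _ _ _ _ _ _ _ _ _).2 HA
    · refine (MvE3_grid_sat _ _ _ _ _ _ _ _ _ _ _ _).2 ?_
      exact (HA.tr.twist_mid _).congr (.refl _) s1 (.refl _) (.refl _) s2 (.refl _)
  · refine lift_moveL ρ φ (fun e he => hg _ (sub7 he) rfl)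
      (fun o ho _ => hx' _ (hK o (by rwa [occ_add] at ho))) fun L u hu hN => ?_
    simp only [sat_cons, sat_singleton] at hN
    obtain ⟨M, ψ, hM, hψ, t1, t2⟩ := MvE3_solve h1 h3 k1 k3 hh hh _ _ _ _ _ _ T T' hu φ ε
      hN.2.1 hN.2.2 s1 s2
    refine ⟨M, hM, fun u' hu' hl => ?_⟩
    have au : Agree u u' (M0 + occ rest) := Agree.of_eq fun o ho => (hu' _ (hg o ho)).symm
    rw [sat_singleton]
    exact MvE3_unset_sat Γ ⟨hh, some (K + 4), w1, s, q⟩ (au.mono sub1)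
      (MvE3_step hh xo w1 _ s q _ _ (T.val u) _ (au.mono sub2) (hψ u' hl) t1
        (MvE3_step hh xo w2 w3 [] [] _ _ _ _ (au.mono sub3) (by rw [evalI_not, hψ u' hl])
          (MvE3_inv t2) (HL.val_congr (au.mono sub6)))) hN.1
  · simp only [mu_cons, mu_singleton, MvE3_grid_mu]
    simp only [Vx.mu, MvE3_set, Γ, T, T', if_true, nvar_append, nvar_var]
    omega

end Crest.Agent.R3

end
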