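import Crest.Agent.R3.Syn
import Crest.Agent.R3.Solve
import Crest.Agent.R3.Cx

set_option autoImplicit false

noncomputable section

namespace Crest.Agent.R3

open Matrix Filter Topology

/-! Removing a seam of top rank: the common complement. -/

section MvTAux
variable {O : Subring ℂ} {a b ρ : ℕ}

/-- A grid with zero corners is a pair of equations. -/
theorem MvT_grid {R : Type*} [CommRing R] {a b : ℕ}
    (r1 : Ex R 0 a a) (r2 : Ex R b a ρ) (r3 : Ex R b 0 b) (c1 : Ex R 0 b b) (c2 : Ex R a b ρ)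
    (c3 : Ex R a 0 a) :
    Grid0 r1 r2 r3 c1 c2 c3 ↔ r2.p * c2.i = c3.i * r1.p ∧ c2.p * r2.i = r3.i * c1.p :=
  ⟨fun H => ⟨H.pi, H.ip⟩, fun H => ⟨Subsingleton.elim _ _, H.1, H.2, Subsingleton.elim _ _⟩⟩

/-- The first grid. -/
abbrev MvT_G1 (r1 : HL O 0 a a) (r2 : TL O b a ρ) (r3 : HL O b 0 b) (c1 : TL O 0 b b)
    (c2 : HL O a b ρ) (c3 : TL O a 0 a) : Grid O :=
  ⟨0, a, a, b, ρ, a, b, b, 0, r1, r2, r3, c1, c2, c3⟩

theorem MvT_sat1 {R : Type} [CommRing R] [Algebra O R] (u : Val R)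
    (r1 : HL O 0 a a) (r2 : TL O b a ρ) (r3 : HL O b 0 b) (c1 : TL O 0 b b)
    (h : a + b = ρ) (k : ℕ) (m s q : Word O) (c3 : TL O a 0 a) (s' q' : Word O)
    (hm : nvar m = 0) :
    (MvT_G1 r1 r2 r3 c1 ⟨h, some k, m, s, q⟩ c3).Sat u ↔
      (r2.val u).p * ((⟨h, some k, s', q'⟩ : TL O a b ρ).val u).i =
          ((ev a u (s' ++ m ++ s ++ r1.wQ ++ c3.wS))⁻¹).val ∧
        ((⟨h, some k, s', q'⟩ : TL O a b ρ).val u).p * (r2.val u).i =
          (ev b u (q' ++ m ++ q ++ r3.wS ++ c1.wQ)).val := by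
  obtain ⟨ζ, hζ⟩ := exists_scal_of_nvar m hm
  have hm' : ∀ n, ev n u m = scal R n ζ := fun n => hζ R n _
  have hc : (⟨h, some k, m, s, q⟩ : HL O a b ρ).val u =
      ((⟨h, some k, s', q'⟩ : TL O a b ρ).val u).twist 1 (ev a u (s' ++ m ++ s))
        (ev b u (q' ++ m ++ q)) := by
    simp only [HL.val, TL.val, Ex.twist_twist, ev_append, hm', Ex.twist_scal, mul_one,
      mul_assoc, inv_mul_cancel_left]
  change Grid0 (r1.val u) (r2.val u) (r3.val u) (c1.val u)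
    ((⟨h, some k, m, s, q⟩ : HL O a b ρ).val u) (c3.val u) ↔ _
  rw [MvT_grid, hc, HL.wQ_val, TL.wS_val, HL.wS_val, TL.wQ_val]
  generalize (⟨h, some k, s', q'⟩ : TL O a b ρ).val u = e
  rw [ev_append _ _ c3.wS, ev_append _ _ r1.wQ, ev_append _ _ c1.wQ, ev_append _ _ r3.wS]
  generalize ev a u (s' ++ m ++ s) = σ
  generalize ev b u (q' ++ m ++ q) = κ
  simp only [Ex.twist_i, Ex.twist_p, inv_one, Units.val_one, Matrix.one_mul, Matrix.mul_one,
    _root_.mul_inv_rev, Units.val_mul]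
  rw [← Matrix.mul_assoc, ExB_eq_iff_r, Matrix.mul_assoc (κ⁻¹).val, ExB_eq_iff_l]
  simp only [Matrix.mul_assoc]

theorem MvT_sat2 {R : Type} [CommRing R] [Algebra O R] (u : Val R)
    (r1 : HL O 0 a a) (r2 : TL O b a ρ) (r3 : HL O b 0 b) (c1 : TL O 0 b b)
    (c2 : HL O a b ρ) (c3 : TL O a 0 a) :
    (MvT_G1 r1 r2 r3 c1 c2 c3).Sat u ↔
      (c2.val u).p * (r2.val u).i = (ev b u (r3.wS ++ c1.wQ)).val ∧
        (r2.val u).p * (c2.val u).i = ((ev a u (r1.wQ ++ c3.wS))⁻¹).val := by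
  change Grid0 (r1.val u) (r2.val u) (r3.val u) (c1.val u) (c2.val u) (c3.val u) ↔ _
  rw [MvT_grid, HL.wQ_val, TL.wS_val, HL.wS_val, TL.wQ_val, and_comm]
  simp only [ev_append, _root_.mul_inv_rev, Units.val_mul]

theorem MvT_hlocc {n : ℕ} (h : a + b = n) (k : ℕ) (m s q : Word O) :
    (⟨h, some k, m, s, q⟩ : HL O a b n).occ =
      {(⟨a, b, n, k, h⟩, true)} + wocc n m + wocc a s + wocc b q := rfl

theorem MvT_tlocc {n : ℕ} (h : a + b = n) (k : ℕ) (s q : Word O) :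
    (⟨h, some k, s, q⟩ : TL O a b n).occ =
      {(⟨a, b, n, k, h⟩, false)} + wocc a s + wocc b q := rfl

/-- The new system. -/
def MvT_N {n11 t n33 : ℕ} (h1 : n11 + t = b) (h3 : t + n33 = a) (K : ℕ) (r2 : TL O b a ρ)
    (c2 : HL O b a ρ) (WB WA : Word O) : Sys O :=
  .grid ⟨n11, b, t, b, ρ, a, t, a, n33, HL.new h1 K, r2, HL.new h3 (K + 2), TL.new h1 (K + 1), c2,
      TL.new h3 (K + 3)⟩ ::ₘ
    .grid (r2form ⟨h1, some (K + 1), WB, [], [.sc (-1), .var (false, K + 4) true]⟩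
      (TL.new h1 K)) ::ₘ
    {.grid (r2form ⟨h3, some (K + 3), WA, [.var (false, K + 4) false], []⟩ (TL.new h3 (K + 2)))}

theorem MvT_satN {R : Type} [CommRing R] [Algebra O R] (u : Val R) {n11 t n33 : ℕ}
    (h1 : n11 + t = b) (h3 : t + n33 = a) (K : ℕ) (r2 : TL O b a ρ) (c2 : HL O b a ρ)
    (WB WA : Word O) :
    Sat u (MvT_N h1 h3 K r2 c2 WB WA) ↔
      Grid0 (u ⟨n11, t, b, K, h1⟩) (r2.val u) (u ⟨t, n33, a, K + 2, h3⟩)
          (u ⟨n11, t, b, K + 1, h1⟩) (c2.val u) (u ⟨t, n33, a, K + 3, h3⟩) ∧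
        ((u ⟨n11, t, b, K + 1, h1⟩).twist (ev b u WB) 1 (-(u (varS t (K + 4))).glS)).Sim
          (u ⟨n11, t, b, K, h1⟩) ∧
        ((u ⟨t, n33, a, K + 3, h3⟩).twist (ev a u WA) ((u (varS t (K + 4))).glS)⁻¹ 1).Sim
          (u ⟨t, n33, a, K + 2, h3⟩) := by
  rw [MvT_N, sat_cons, sat_cons, sat_singleton]
  change Grid0 ((HL.new h1 K).val u) (r2.val u) ((HL.new h3 (K + 2)).val u)
    ((TL.new h1 (K + 1)).val u) (c2.val u) ((TL.new h3 (K + 3)).val u) ∧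
      (r2form _ _).Sat u ∧ (r2form _ _).Sat u ↔ _
  rw [r2form_sat, r2form_sat]
  simp only [HL.new_val, TL.new_val]
  simp only [HL.val, lval, ev_cons, ev_nil, evalI_sc, evalI_true, evalI_false, scal_neg_one,
    letters, mul_one, neg_mul, one_mul]

/-- The fresh occurrences. -/
def MvT_F {n11 t n33 : ℕ} (h1 : n11 + t = b) (h3 : t + n33 = a) (K : ℕ) :
    Multiset (Var × Bool) :=
  {(⟨n11, t, b, K, h1⟩, true)} + {(⟨n11, t, b, K, h1⟩, false)} +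
    {(⟨n11, t, b, K + 1, h1⟩, true)} + {(⟨n11, t, b, K + 1, h1⟩, false)} +
    {(⟨t, n33, a, K + 2, h3⟩, true)} + {(⟨t, n33, a, K + 2, h3⟩, false)} +
    {(⟨t, n33, a, K + 3, h3⟩, true)} + {(⟨t, n33, a, K + 3, h3⟩, false)} +
    {(varS t (K + 4), true)} + {(varS t (K + 4), false)}

theorem MvT_F_nodup {n11 t n33 : ℕ} (h1 : n11 + t = b) (h3 : t + n33 = a) (K : ℕ) :
    (MvT_F h1 h3 K).Nodup := by
  refine Multiset.Nodup.of_map (fun o : Var × Bool => (o.1.k - K, o.2)) ?_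
  simp only [MvT_F, Multiset.map_add, Multiset.map_singleton, Nat.sub_self, Nat.add_sub_cancel_left]
  decide

theorem MvT_F_ge {n11 t n33 : ℕ} (h1 : n11 + t = b) (h3 : t + n33 = a) (K : ℕ) :
    ∀ o ∈ MvT_F h1 h3 K, K ≤ o.1.k := by
  intro o ho
  simp only [MvT_F, Multiset.mem_add, Multiset.mem_singleton] at ho
  rcases ho with ((((((((rfl | rfl) | rfl) | rfl) | rfl) | rfl) | rfl) | rfl) | rfl) | rfl <;>
    simp

theorem MvT_occN {n11 t n33 : ℕ} (h1 : n11 + t = b) (h3 : t + n33 = a) (K : ℕ) (r2 : TL O b a ρ)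
    (c2 : HL O b a ρ) (WB WA : Word O) :
    occ (MvT_N h1 h3 K r2 c2 WB WA) =
      r2.occ + c2.occ + wocc b WB + wocc a WA + MvT_F h1 h3 K := by
  simp only [MvT_N, occ_cons, occ_singleton, Vx.occ, r2form_occ]
  simp only [Grid.occ, HL.new_occ, TL.new_occ, MvT_F, MvT_hlocc, wocc_nil, wocc_sc, wocc_var,
    letterVar, add_zero]
  abel

theorem MvT_core {rest : Sys O} {x : Val ℂ} (ha : 0 < a) (hb : 0 < b)
    (r1 : HL O 0 a a) (r2 : TL O b a ρ) (r3 : HL O b 0 b) (c1 : TL O 0 b b)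
    (h : a + b = ρ) (k : ℕ) (m s q : Word O) (c3 : TL O a 0 a)
    (r1' : HL O 0 b b) (s' q' : Word O) (r3' : HL O a 0 a) (c1' : TL O 0 a a)
    (c2' : HL O b a ρ) (c3' : TL O b 0 b) (hm : nvar m = 0)
    (hW : WF (.grid (MvT_G1 r1 r2 r3 c1 ⟨h, some k, m, s, q⟩ c3) ::ₘ
      .grid (MvT_G1 r1' ⟨h, some k, s', q'⟩ r3' c1' c2' c3') ::ₘ rest))
    (hT : Top ρ rest)
    (hx : Sat x (.grid (MvT_G1 r1 r2 r3 c1 ⟨h, some k, m, s, q⟩ c3) ::ₘ
      .grid (MvT_G1 r1' ⟨h, some k, s', q'⟩ r3' c1' c2' c3') ::ₘ rest)) :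
    ∃ (N : Sys O) (x' : Val ℂ), Red ρ (.grid (MvT_G1 r1 r2 r3 c1 ⟨h, some k, m, s, q⟩ c3) ::ₘ
      .grid (MvT_G1 r1' ⟨h, some k, s', q'⟩ r3' c1' c2' c3') ::ₘ rest) x (N + rest) x' ∧
      mu ρ N = 1 + 2 * nvar c2'.m := by
  set g : Var := ⟨a, b, ρ, k, h⟩ with hg
  set WA1 : Word O := s' ++ m ++ s ++ r1.wQ ++ c3.wS with hWA1
  set WA2 : Word O := r3'.wS ++ c1'.wQ with hWA2
  set WB1 : Word O := q' ++ m ++ q ++ r3.wS ++ c1.wQ with hWB1
  set WB2 : Word O := r1'.wQ ++ c3'.wS with hWB2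
  set Old : Sys O := .grid (MvT_G1 r1 r2 r3 c1 ⟨h, some k, m, s, q⟩ c3) ::ₘ
      {.grid (MvT_G1 r1' ⟨h, some k, s', q'⟩ r3' c1' c2' c3')} with hOld
  have hS : (.grid (MvT_G1 r1 r2 r3 c1 ⟨h, some k, m, s, q⟩ c3) ::ₘ
      .grid (MvT_G1 r1' ⟨h, some k, s', q'⟩ r3' c1' c2' c3') ::ₘ rest : Sys O) = Old + rest := by
    rw [hOld, Multiset.cons_add, Multiset.singleton_add]
  rw [hS] at hW hx ⊢
  -- the equations of the old system
  have hsat : ∀ (R : Type) [CommRing R] [Algebra O R] (u : Val R), Sat u Old ↔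
      (r2.val u).p * ((⟨h, some k, s', q'⟩ : TL O a b ρ).val u).i = ((ev a u WA1)⁻¹).val ∧
      (c2'.val u).p * ((⟨h, some k, s', q'⟩ : TL O a b ρ).val u).i = (ev a u WA2).val ∧
      ((⟨h, some k, s', q'⟩ : TL O a b ρ).val u).p * (r2.val u).i = (ev b u WB1).val ∧
      ((⟨h, some k, s', q'⟩ : TL O a b ρ).val u).p * (c2'.val u).i = ((ev b u WB2)⁻¹).val := by
    intro R _ _ u
    rw [hOld, sat_cons, sat_singleton]
    change Grid.Sat _ _ ∧ Grid.Sat _ _ ↔ _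
    rw [MvT_sat1 u r1 r2 r3 c1 h k m s q c3 s' q' hm, MvT_sat2]
    tauto
  -- the occurrences of the old system
  have hm0 : ∀ n, wocc n m = 0 := fun n => wocc_of_nvar hm
  set D : Multiset (Var × Bool) :=
    r2.occ + c2'.occ + wocc b (WB2 ++ WB1) + wocc a (WA2 ++ WA1) with hD
  obtain ⟨E, hE⟩ : ∃ E, occ Old = {(g, true)} + {(g, false)} + D + E := by
    refine ⟨wocc 0 r1.s + wocc 0 r3.q + wocc 0 c1.s + wocc 0 c3.q + wocc 0 r1'.s + wocc 0 r3'.q +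
      wocc 0 c1'.s + wocc 0 c3'.q, ?_⟩
    simp only [hOld, occ_cons, occ_singleton, Vx.occ, Grid.occ, MvT_hlocc, MvT_tlocc, hD, hWA1,
      hWA2, hWB1, hWB2, wocc_append, hm0, HL.wQ_occ r1, HL.wS_occ r3, TL.wQ_occ c1, TL.wS_occ c3,
      HL.wQ_occ r1', HL.wS_occ r3', TL.wQ_occ c1', TL.wS_occ c3', hg]
    abel
  have hnd : (occ Old + occ rest).Nodup := by rw [← occ_add]; exact hW.nodup
  have hgD : ∀ o ∈ D + occ rest, o.1 ≠ g := by
    rintro ⟨v, e⟩ ho rfl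
    have h1 : ({(g, true)} + {(g, false)} + (D + occ rest)).Nodup := by
      refine Multiset.nodup_of_le ?_ hnd
      rw [hE]
      calc _ ≤ {(g, true)} + {(g, false)} + (D + occ rest) + E := Multiset.le_add_right _ _
        _ = _ := by abel
    have h2 := (Multiset.nodup_add.1 h1).2.2
    rw [Multiset.disjoint_right] at h2
    apply h2 ho
    cases e <;> simp
  obtain ⟨K, hK⟩ := exists_fresh (occ Old + occ rest)
  obtain ⟨k1, k2, k3, k4⟩ := (hsat ℂ x).1 ((sat_add _ _ _).1 hx).1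
  obtain ⟨n11, t, n33, α1, γ1, α3, γ3, y, Hw, Hb, Ha⟩ :=
    tprime_ex (r2.val x) (c2'.val x) _ _ _ _ _ k1 k2 k3 k4
  have h1 : n11 + t = b := α1.dim
  have h3 : t + n33 = a := α3.dim
  obtain ⟨x', hx1, hx2⟩ := exists_ext x K
    [⟨⟨n11, t, b, K, h1⟩, α1⟩, ⟨⟨n11, t, b, K + 1, h1⟩, γ1⟩, ⟨⟨t, n33, a, K + 2, h3⟩, α3⟩,
      ⟨⟨t, n33, a, K + 3, h3⟩, γ3⟩, ⟨varS t (K + 4), Ex.ofS y⟩] (by simp) (by simp)
  have e1 : x' ⟨n11, t, b, K, h1⟩ = α1 := hx2 ⟨⟨n11, t, b, K, h1⟩, α1⟩ (by simp)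
  have e2 : x' ⟨n11, t, b, K + 1, h1⟩ = γ1 := hx2 ⟨⟨n11, t, b, K + 1, h1⟩, γ1⟩ (by simp)
  have e3 : x' ⟨t, n33, a, K + 2, h3⟩ = α3 := hx2 ⟨⟨t, n33, a, K + 2, h3⟩, α3⟩ (by simp)
  have e4 : x' ⟨t, n33, a, K + 3, h3⟩ = γ3 := hx2 ⟨⟨t, n33, a, K + 3, h3⟩, γ3⟩ (by simp)
  have e5 : x' (varS t (K + 4)) = Ex.ofS y := hx2 ⟨varS t (K + 4), Ex.ofS y⟩ (by simp)
  have hxx : ∀ o ∈ occ Old + occ rest, x' o.1 = x o.1 := fun o ho => hx1 _ (hK o ho)
  have hDle : D ≤ occ Old := by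
    rw [hE]
    calc D ≤ D + ({(g, true)} + {(g, false)} + E) := Multiset.le_add_right _ _
      _ = _ := by abel
  have hx' : Sat x' (Old + rest) :=
    Sat.congr (Agree.of_eq fun o ho => (hxx o (by rwa [← occ_add])).symm) hx
  -- agreement on `D`
  have hag : ∀ (R : Type) [CommRing R] [Algebra O R] (u u' : Val R), Agree u u' D →
      (r2.val u).Sim (r2.val u') ∧ (c2'.val u).Sim (c2'.val u') ∧ ev a u WA1 = ev a u' WA1 ∧
        ev a u WA2 = ev a u' WA2 ∧ ev b u WB1 = ev b u' WB1 ∧ ev b u WB2 = ev b u' WB2 ∧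
        ev a u s' = ev a u' s' ∧ ev b u q' = ev b u' q' := by
    intro R _ _ u u' H
    refine ⟨TL.val_congr (H.mono fun o ho => ?_), HL.val_congr (H.mono fun o ho => ?_),
      ev_congr (H.mono fun o ho => ?_), ev_congr (H.mono fun o ho => ?_),
      ev_congr (H.mono fun o ho => ?_), ev_congr (H.mono fun o ho => ?_),
      ev_congr (H.mono fun o ho => ?_), ev_congr (H.mono fun o ho => ?_)⟩
    all_goals simp only [hD, wocc_append, Multiset.mem_add, ho, true_or, or_true]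
    · simp only [hWA1, wocc_append, Multiset.mem_add, ho, true_or, or_true]
    · simp only [hWB1, wocc_append, Multiset.mem_add, ho, true_or, or_true]
  obtain ⟨hok1, hok2⟩ : (MvT_G1 r1 r2 r3 c1 ⟨h, some k, m, s, q⟩ c3).ok ∧
      (MvT_G1 r1' ⟨h, some k, s', q'⟩ r3' c1' c2' c3').ok :=
    ⟨hW.ok (.grid _) (by simp [hOld]), hW.ok (.grid _) (by simp [hOld])⟩
  refine ⟨MvT_N h1 h3 K r2 c2' (WB2 ++ WB1) (WA2 ++ WA1), x', ⟨⟨?_, ?_⟩, ?_, ?_, ?_⟩, ?_⟩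
  · intro v hv
    rcases Multiset.mem_add.1 hv with hv | hv
    · simp only [MvT_N, Multiset.mem_cons, Multiset.mem_singleton] at hv
      rcases hv with rfl | rfl | rfl
      · exact ⟨HL.new_ok _ _, hok1.r2, HL.new_ok _ _, TL.new_ok _ _, hok2.c2, TL.new_ok _ _⟩
      · exact r2form_ok (fun h => by cases h) (TL.new_ok _ _)
      · exact r2form_ok (fun h => by cases h) (TL.new_ok _ _)
    · exact hW.ok v (Multiset.mem_add.2 (Or.inr hv))
  · rw [occ_add]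
    refine nodup_move hnd hK (MvT_F_nodup h1 h3 K) (MvT_F_ge h1 h3 K) ?_
    rw [MvT_occN]
    exact add_le_add_left hDle _
  · intro v hv
    rcases Multiset.mem_add.1 hv with hv | hv
    · simp only [MvT_N, Multiset.mem_cons, Multiset.mem_singleton] at hv
      rcases hv with rfl | rfl | rfl
      · exact ⟨le_rfl, fun _ => ⟨hb, ha, hb, ha⟩⟩
      · have : b < ρ := by omega
        exact ⟨this.le, fun h => absurd h this.ne⟩
      · have : a < ρ := by omega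
        exact ⟨this.le, fun h => absurd h this.ne⟩
    · exact hT v hv
  · refine (sat_add _ _ _).2 ⟨?_, ((sat_add _ _ _).1 hx').2⟩
    obtain ⟨a1, a2, a3, a4, a5, a6, -, -⟩ := hag ℂ x x' (Agree.of_eq fun o ho =>
      (hxx o (Multiset.mem_add.2 (Or.inl (Multiset.mem_of_le hDle ho)))).symm)
    rw [MvT_satN, e1, e2, e3, e4, e5, Ex.glS_ofS, ev_append _ WB2, ev_append _ WA2, ← a3, ← a4,
      ← a5, ← a6]
    rw [inv_inv] at Hb Ha
    exact ⟨Hw.congr (.refl _) a1 (.refl _) (.refl _) a2 (.refl _), Hb, Ha⟩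
  · refine lift_move g (fun e he => hgD (g, e) (Multiset.mem_add.2 (Or.inr he)) rfl)
      (fun o ho _ => hxx o (by rwa [← occ_add])) fun L u hu hN => ?_
    rw [MvT_satN, ev_append _ WB2, ev_append _ WA2] at hN
    obtain ⟨Hw', Hb', Ha'⟩ := hN
    obtain ⟨k1', k2', k3', k4'⟩ := (hsat ℂ x').1 ((sat_add _ _ _).1 hx').1
    obtain ⟨e, he, f1, f2, f3, f4⟩ := tprime_solve L.t L.surj (r2.val u) (c2'.val u) _ _ _ _ Hw'
      (ev a u WA1)⁻¹ (ev a u WA2) (ev b u WB1) (ev b u WB2)⁻¹ (u (varS t (K + 4))).glS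
      (by rwa [inv_inv]) (by rwa [inv_inv]) h ((⟨h, some k, s', q'⟩ : TL O a b ρ).val x')
      (by rw [← Ex.map_p, (hu.tl r2).2, k1', ← gmap_val, map_inv, hu.ev])
      (by rw [← Ex.map_p, (hu.hl c2').2, k2', ← gmap_val, hu.ev])
      (by rw [← Ex.map_i, (hu.tl r2).1, k3', ← gmap_val, hu.ev])
      (by rw [← Ex.map_i, (hu.hl c2').1, k4', ← gmap_val, map_inv, hu.ev])
    refine ⟨e.twist 1 (ev a u s') (ev b u q'), ?_, fun u' hu1 hu2 => ?_⟩
    · rw [Ex.map_twist, map_one, hu.ev, hu.ev]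
      refine (he.twist _ _ _).trans (Ex.Sim.of_eq ?_)
      rw [← hxx (g, true) (by rw [hE]; simp)]
      change ((x' g).twist 1 (ev a x' s')⁻¹ (ev b x' q')⁻¹).twist 1 (ev a x' s') (ev b x' q') = x' g
      rw [Ex.twist_twist, mul_one, inv_mul_cancel, inv_mul_cancel, Ex.twist_one]
    · obtain ⟨a1, a2, a3, a4, a5, a6, a7, a8⟩ := hag L.A u' u (Agree.of_eq fun o ho =>
        hu1 _ (hgD o (Multiset.mem_add.2 (Or.inl ho))))
      have hv : (⟨h, some k, s', q'⟩ : TL O a b ρ).val u' = e := by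
        change (u' g).twist 1 (ev a u' s')⁻¹ (ev b u' q')⁻¹ = e
        rw [hu2, a7, a8, Ex.twist_twist, mul_one, mul_inv_cancel, mul_inv_cancel, Ex.twist_one]
      rw [hsat, hv, a1.1, a1.2, a2.1, a2.2, a3, a4, a5, a6]
      exact ⟨f1, f2, f3, f4⟩
  · have hb' : b ≠ ρ := by omega
    have ha' : a ≠ ρ := by omega
    simp [MvT_N, Vx.mu, r2form, ha', hb']

end MvTAux

variable {O : Subring ℂ} {ρ : ℕ} {rest : Sys O} {x : Val ℂ}

theorem mv_T (Γ Γ' : Grid O) (hW : WF (.grid Γ ::ₘ .grid Γ' ::ₘ rest))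
    (hT : Top ρ (.grid Γ ::ₘ .grid Γ' ::ₘ rest)) (hx : Sat x (.grid Γ ::ₘ .grid Γ' ::ₘ rest))
    (hρ : Γ.n22 = ρ) (hm : nvar Γ.c2.m = 0) (g : Var) (hg : Γ.c2.var = some g)
    (hg' : Γ'.r2.var = some g) (h11 : Γ.n11 = 0) (h33 : Γ.n33 = 0) (h11' : Γ'.n11 = 0)
    (h33' : Γ'.n33 = 0) :
    ∃ (N : Sys O) (x' : Val ℂ), Red ρ (.grid Γ ::ₘ .grid Γ' ::ₘ rest) x (N + rest) x' ∧
      mu ρ N < (Vx.grid Γ).mu ρ + (Vx.grid Γ').mu ρ := by
  have hp : Γ.proper := (hT (.grid Γ) (Multiset.mem_cons_self _ _)).2 hρ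
  have hT' : Top ρ rest := fun v hv =>
    hT v (Multiset.mem_cons_of_mem (Multiset.mem_cons_of_mem hv))
  obtain ⟨n11, n12, n13, n21, n22, n23, n31, n32, n33, r1, r2, r3, c1, ⟨h, k, m, s, q⟩, c3⟩ := Γ
  obtain ⟨n11', n12', n13', n21', n22', n23', n31', n32', n33', r1', ⟨h', k', s', q'⟩, r3', c1',
    c2', c3'⟩ := Γ'
  obtain ⟨ha, hb, -, -⟩ := hp
  dsimp only at hρ hm h11 h33 h11' h33' ha hb
  subst hρ h11 h33 h11' h33'
  rcases k with _ | k
  · simp [HL.var] at hg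
  rcases k' with _ | k'
  · simp [TL.var] at hg'
  simp only [HL.var, TL.var, Option.map_some, Option.some.injEq] at hg hg'
  subst hg
  simp only [Var.mk.injEq] at hg'
  obtain ⟨rfl, rfl, rfl, rfl⟩ := hg'
  obtain rfl : n13 = n21' := by have := r1.h; omega
  obtain rfl : n23 = n13 := by have := c3.h; omega
  obtain rfl : n31 = n23' := by have := r3.h; omega
  obtain rfl : n21 = n31 := by have := c1.h; omega
  obtain rfl : n31' = n23 := by have := c1'.h; omega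
  obtain rfl : n32' = n31' := by have := r3'.h; omega
  obtain rfl : n13' = n21 := by have := c3'.h; omega
  obtain rfl : n12' = n13' := by have := r1'.h; omega
  obtain ⟨N, x', hR, hmu⟩ := MvT_core ha hb r1 r2 r3 c1 h k' m s q c3 r1' s' q' r3' c1' c2' c3' hm
    hW hT' hx
  refine ⟨N, x', hR, ?_⟩
  rw [hmu]
  simp only [Vx.mu, if_true]
  omega

end Crest.Agent.R3

end
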