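import Crest.Agent.R3.Defs

set_option autoImplicit false

noncomputable section

namespace Crest.Agent.R3

open Matrix Filter Topology

/-! Relative units separate multiplicative characters (Dirichlet). -/

theorem NiceU_sum {G W : Type} [Fintype G] [Fintype W] (f : G → W) (hf : Function.Injective f)
    (w0 : W) (hw0 : ∀ g, f g ≠ w0) (ν : G → ℤ) (g1 : G) (hmax : ∀ g, ν g ≤ ν g1)
    (hpos : 0 < ν g1) (L : W → ℝ) (hL : ∀ w, w ≠ f g1 → L w < 0) (hsum : ∑ w, L w = 0) :
    0 < ∑ g, (ν g : ℝ) * L (f g) := by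
  classical
  have h1 : ∑ w ∈ Finset.univ.image f, L w = ∑ g, L (f g) :=
    Finset.sum_image (fun a _ b _ h => hf h)
  have h2 : ∑ w ∈ Finset.univ \ Finset.univ.image f, L w + ∑ w ∈ Finset.univ.image f, L w
      = ∑ w, L w := Finset.sum_sdiff (Finset.subset_univ _)
  have h3 : ∑ w ∈ Finset.univ \ Finset.univ.image f, L w < 0 := by
    refine Finset.sum_neg (fun w hw => hL w ?_) ⟨w0, ?_⟩
    · rintro rfl
      simp at hw
    · simp only [Finset.mem_sdiff, Finset.mem_univ, Finset.mem_image, true_and, not_exists]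
      exact hw0
  have h4 : 0 < ∑ g, L (f g) := by linarith
  have h5 : 0 ≤ ∑ g, ((ν g : ℝ) - ν g1) * L (f g) := by
    refine Finset.sum_nonneg fun g _ => ?_
    by_cases hg : g = g1
    · subst hg; simp
    · have a1 : ((ν g : ℝ) - ν g1) ≤ 0 := by
        have : (ν g : ℝ) ≤ ν g1 := by exact_mod_cast hmax g
        linarith
      exact mul_nonneg_of_nonpos_of_nonpos a1 (hL _ fun h => hg (hf h)).le
  have h6 : ∑ g, (ν g : ℝ) * L (f g)
      = ∑ g, ((ν g : ℝ) - ν g1) * L (f g) + (ν g1 : ℝ) * ∑ g, L (f g) := by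
    rw [Finset.mul_sum, ← Finset.sum_add_distrib]
    exact Finset.sum_congr rfl fun g _ => by ring
  have h7 : (0 : ℝ) < ν g1 := by exact_mod_cast hpos
  have := mul_pos h7 h4
  linarith

theorem NiceU_conj_ne (z : ℂ) (n : ℕ) (hn : 2 < n) (hz : IsPrimitiveRoot z n) :
    (starRingEnd ℂ) z ≠ z := by
  intro h
  have h1 : ‖z‖ = 1 := hz.norm'_eq_one (by omega)
  have h2 : z * (starRingEnd ℂ) z = 1 := by
    rw [Complex.mul_conj, Complex.normSq_eq_norm_sq, h1]; simp
  rw [h] at h2
  have h3 : n ∣ 2 := hz.dvd_of_pow_eq_one 2 (by rw [pow_two, h2])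
  have := Nat.le_of_dvd (by norm_num) h3
  omega

theorem NiceU_conj_sqrt (z : ℂ) (hz : z ^ 2 = 2) : (starRingEnd ℂ) z = z := by
  have h0 : ((Real.sqrt 2 : ℝ) : ℂ) ^ 2 = 2 := by
    rw [← Complex.ofReal_pow, Real.sq_sqrt (by norm_num)]; simp
  have h1 : (z - (Real.sqrt 2 : ℝ)) * (z + (Real.sqrt 2 : ℝ)) = 0 := by
    linear_combination hz - h0
  rcases mul_eq_zero.mp h1 with h | h
  · rw [sub_eq_zero.mp h, Complex.conj_ofReal]
  · rw [eq_neg_of_add_eq_zero_left h, map_neg, Complex.conj_ofReal]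

theorem NiceU_rat (b : ℚ) : b ^ 2 ≠ 2 := by
  intro h
  have h1 : ((b : ℝ)) ^ 2 = 2 := by exact_mod_cast h
  have h2 : Real.sqrt 2 = ((|b| : ℚ) : ℝ) := by
    rw [← h1, Real.sqrt_sq_eq_abs]; simp
  exact irrational_sqrt_two ⟨|b|, h2.symm⟩

theorem NiceU_emb (E : Type) [Field E] [NumberField E] (s : E) (hs : s ^ 2 = 2) (φ : E →+* ℂ) :
    ∃ ψ : E →+* ℂ, ψ s = -φ s := by
  have hirr : Irreducible (Polynomial.X ^ 2 - Polynomial.C (2 : ℚ)) :=
    X_pow_sub_C_irreducible_of_prime Nat.prime_two NiceU_rat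
  have hmon : (Polynomial.X ^ 2 - Polynomial.C (2 : ℚ)).Monic :=
    Polynomial.monic_X_pow_sub_C _ (by norm_num)
  have hmin : Polynomial.X ^ 2 - Polynomial.C (2 : ℚ) = minpoly ℚ s :=
    minpoly.eq_of_irreducible_of_monic hirr (by simp [hs]) hmon
  have hφ : φ s ^ 2 = 2 := by rw [← map_pow, hs]; simp [map_ofNat]
  have : -φ s ∈ (minpoly ℚ s).rootSet ℂ := by
    rw [← hmin, Polynomial.mem_rootSet]
    exact ⟨hmon.ne_zero, by simp [hφ]⟩
  rw [← NumberField.Embeddings.range_eval_eq_rootSet_minpoly E ℂ s] at this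
  exact this

theorem units_sep (F E : Type) [Field F] [NumberField F] [Field E] [NumberField E] [Algebra F E]
    [IsGalois F E] (s : F) (hs : s ^ 2 = 2) (ω : F) (n : ℕ) (hn : 2 < n)
    (hω : IsPrimitiveRoot ω n) (ν : (E ≃ₐ[F] E) → ℤ) (hν : ν ≠ 0) :
    ∃ ε : E, ε ≠ 0 ∧ IsIntegral ℤ ε ∧ IsIntegral ℤ ε⁻¹ ∧
      ∀ N : ℕ, 0 < N → (∏ σ : E ≃ₐ[F] E, σ ε ^ ν σ) ^ N ≠ 1 := by
  classical
  obtain ⟨φ⟩ : Nonempty (E →+* ℂ) := inferInstance
  have hωE : IsPrimitiveRoot (algebraMap F E ω) n := hω.map_of_injective (algebraMap F E).injective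
  have hcx : ∀ ψ : E →+* ℂ, (starRingEnd ℂ) (ψ (algebraMap F E ω)) ≠ ψ (algebraMap F E ω) :=
    fun ψ => NiceU_conj_ne _ n hn (hωE.map_of_injective ψ.injective)
  have hsE : (algebraMap F E s) ^ 2 = 2 := by rw [← map_pow, hs]; simp [map_ofNat]
  have hφs : φ (algebraMap F E s) ^ 2 = 2 := by rw [← map_pow, hsE]; simp [map_ofNat]
  let f : (E ≃ₐ[F] E) → NumberField.InfinitePlace E := fun σ =>
    NumberField.InfinitePlace.mk (φ.comp (σ : E →+* E))
  have hf : Function.Injective f := by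
    intro σ τ h
    rcases NumberField.InfinitePlace.mk_eq_iff.mp h with h | h
    · ext x
      exact φ.injective (RingHom.congr_fun h x)
    · exfalso
      have := RingHom.congr_fun h (algebraMap F E ω)
      simp only [NumberField.ComplexEmbedding.conjugate_coe_eq, RingHom.coe_comp, RingHom.coe_coe,
        Function.comp_apply, AlgEquiv.commutes] at this
      exact hcx φ this
  obtain ⟨ψ, hψ⟩ := NiceU_emb E _ hsE φ
  have hw0 : ∀ σ, f σ ≠ NumberField.InfinitePlace.mk ψ := by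
    intro σ h
    have key : φ (algebraMap F E s) = -φ (algebraMap F E s) := by
      rcases NumberField.InfinitePlace.mk_eq_iff.mp h with h | h
      · have := RingHom.congr_fun h (algebraMap F E s)
        simpa only [RingHom.coe_comp, RingHom.coe_coe, Function.comp_apply, AlgEquiv.commutes,
          hψ] using this
      · have := RingHom.congr_fun h (algebraMap F E s)
        simpa only [NumberField.ComplexEmbedding.conjugate_coe_eq, RingHom.coe_comp,
          RingHom.coe_coe, Function.comp_apply, AlgEquiv.commutes, hψ,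
          NiceU_conj_sqrt _ hφs] using this
    have h0 : φ (algebraMap F E s) = 0 := by linear_combination key / 2
    rw [h0] at hφs
    norm_num at hφs
  have hmult : ∀ w : NumberField.InfinitePlace E, w.mult = 2 := by
    intro w
    have : ¬ w.IsReal := by
      intro hw
      have h1 := NumberField.InfinitePlace.isReal_iff.mp hw
      rw [NumberField.ComplexEmbedding.isReal_iff] at h1
      have := RingHom.congr_fun h1 (algebraMap F E ω)
      exact hcx w.embedding this
    simp [NumberField.InfinitePlace.mult, this]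
  -- a unit with nonzero weighted logarithm
  have main : ∀ μ : (E ≃ₐ[F] E) → ℤ, (∃ σ, 0 < μ σ) → ∃ u : (NumberField.RingOfIntegers E)ˣ,
      0 < ∑ σ, (μ σ : ℝ) * Real.log (f σ (u : E)) := by
    rintro μ ⟨σ0, hσ0⟩
    obtain ⟨σ1, -, hσ1⟩ := Finset.exists_max_image Finset.univ μ ⟨σ0, Finset.mem_univ _⟩
    obtain ⟨u, hu⟩ := NumberField.Units.dirichletUnitTheorem.exists_unit E (f σ1)
    refine ⟨u, NiceU_sum f hf _ hw0 μ σ1 (fun g => hσ1 g (Finset.mem_univ _))
      (lt_of_lt_of_le hσ0 (hσ1 _ (Finset.mem_univ _))) (fun w => Real.log (w (u : E))) hu ?_⟩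
    have := NumberField.Units.sum_mult_mul_log u
    simp only [hmult, ← Finset.mul_sum] at this
    simpa using this
  obtain ⟨u, hu⟩ : ∃ u : (NumberField.RingOfIntegers E)ˣ,
      ∑ σ, (ν σ : ℝ) * Real.log (f σ (u : E)) ≠ 0 := by
    obtain ⟨σ, hσ⟩ := Function.ne_iff.mp hν
    rcases lt_or_gt_of_ne hσ with h | h
    · obtain ⟨u, hu⟩ := main (-ν) ⟨σ, by simpa using h⟩
      refine ⟨u, fun h0 => ?_⟩
      simp only [Pi.neg_apply, Int.cast_neg, neg_mul, Finset.sum_neg_distrib, h0] at hu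
      simp at hu
    · obtain ⟨u, hu⟩ := main ν ⟨σ, by simpa using h⟩
      exact ⟨u, hu.ne'⟩
  have hu0 : (u : E) ≠ 0 := NumberField.Units.coe_ne_zero u
  refine ⟨(u : E), hu0, ?_, ?_, fun N hN h => hu ?_⟩
  · exact (u : NumberField.RingOfIntegers E).isIntegral_coe
  · have : ((u : E))⁻¹ = ((u⁻¹ : (NumberField.RingOfIntegers E)ˣ) : E) := by
      simp
    rw [this]
    exact ((u⁻¹ : (NumberField.RingOfIntegers E)ˣ) : NumberField.RingOfIntegers E).isIntegral_coe
  · have h1 := congrArg (fun x => Real.log ‖φ x‖) h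
    simp only [map_pow, map_prod, map_zpow₀, norm_pow, norm_prod, norm_zpow, map_one, norm_one,
      Real.log_one, Real.log_pow] at h1
    rw [Real.log_prod] at h1
    · simp only [Real.log_zpow] at h1
      have hN' : (N : ℝ) ≠ 0 := by exact_mod_cast hN.ne'
      have h2 := (mul_eq_zero.mp h1).resolve_left hN'
      rw [← h2]
      refine Finset.sum_congr rfl fun σ _ => ?_
      simp only [f, NumberField.InfinitePlace.apply, RingHom.coe_comp, RingHom.coe_coe,
        Function.comp_apply]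
    · intro σ _
      refine zpow_ne_zero _ ?_
      simp

end Crest.Agent.R3

end
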