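import Crest.Agent.R3.MvDel
import Crest.Agent.R3.MvE3
import Crest.Agent.R3.MvDist
import Crest.Agent.R3.MvT
import Crest.Agent.R3.MvIns
import Crest.Agent.R3.Loc

set_option autoImplicit false

noncomputable section

namespace Crest.Agent.R3

open Matrix Filter Topology

/-! Elimination of the top rank. -/

variable {O : Subring ℂ} {ρ : ℕ}

/-- The induction hypothesis below measure `k`. -/
def IH (O : Subring ℂ) (ρ k : ℕ) : Prop :=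
  ∀ S : Sys O, mu ρ S < k → WF S → Top ρ S → ∀ x : Val ℂ, Sat x S → Lift S x

theorem IH.red {k : ℕ} (h : IH O ρ k) {S S' : Sys O} {x x' : Val ℂ} (hr : Red ρ S x S' x')
    (hk : mu ρ S' < k) : Lift S x := hr.lift (h S' hk hr.wf hr.top x' hr.sat)

theorem mu_grid {Γ : Grid O} (h : Γ.n22 = ρ) : (Vx.grid Γ).mu ρ = 1 + 2 * nvar Γ.c2.m := by
  simp [Vx.mu, h]

theorem mu_grid_lt {Γ : Grid O} (h : Γ.n22 < ρ) : (Vx.grid Γ).mu ρ = 0 := by
  simp [Vx.mu, h.ne]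

theorem seam_cases {k : ℕ} (ih : IH O ρ k) (Γ : Grid O) (rest : Sys O) (x : Val ℂ)
    (hk : mu ρ (.grid Γ ::ₘ rest) ≤ k) (hW : WF (.grid Γ ::ₘ rest))
    (hT : Top ρ (.grid Γ ::ₘ rest)) (hx : Sat x (.grid Γ ::ₘ rest)) (hρ : Γ.n22 = ρ)
    (hm : nvar Γ.c2.m = 0)
    (hc : ∀ (Γ' : Grid O) (rest' : Sys O) (g : Var), rest = .grid Γ' ::ₘ rest' → Γ'.n22 = ρ →
      Γ.c2.var = some g → Γ'.r2.var = some g → Lift (.grid Γ ::ₘ rest) x) :
    Lift (.grid Γ ::ₘ rest) x := by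
  have hp : Γ.proper := (hT _ (Multiset.mem_cons_self _ _)).2 hρ
  have hok : Γ.ok := hW.ok _ (Multiset.mem_cons_self _ _)
  obtain ⟨j, hj⟩ : ∃ j, Γ.c2.x = some j := by
    cases h : Γ.c2.x with
    | none => have := hok.c2 h; have := hp.1; have := hp.2.1; omega
    | some j => exact ⟨j, rfl⟩
  have hg : Γ.c2.var = some ⟨Γ.n12, Γ.n32, Γ.n22, j, Γ.c2.h⟩ := by simp [HL.var, hj]
  rw [mu_cons, mu_grid hρ] at hk
  by_cases ho : ((⟨Γ.n12, Γ.n32, Γ.n22, j, Γ.c2.h⟩ : Var), false) ∈ occ (.grid Γ ::ₘ rest)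
  · obtain ⟨Γ', h1, h2, h3⟩ := loc_seam hT _ hρ hp.1 hp.2.1 ho
    rcases Multiset.mem_cons.1 h1 with h | h
    · cases h
      obtain ⟨N, hr, hN⟩ := mv_E5 Γ hW hT hx hρ hm _ hg h3
      exact ih.red hr (by rw [mu_add, hN]; omega)
    · obtain ⟨rest', rfl⟩ := Multiset.exists_cons_of_mem h
      exact hc Γ' rest' _ rfl h2 hg h3
  · exact ih.red (mv_del_seam Γ hW hT hx hρ _ hg ho) (by omega)

theorem nested_step {k : ℕ} (ih : IH O ρ k) (Γ : Grid O) (rest : Sys O) (x : Val ℂ)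
    (hk : mu ρ (.grid Γ ::ₘ rest) ≤ k) (hW : WF (.grid Γ ::ₘ rest))
    (hT : Top ρ (.grid Γ ::ₘ rest)) (hx : Sat x (.grid Γ ::ₘ rest)) (hρ : Γ.n22 = ρ)
    (hm : nvar Γ.c2.m = 0) (hn : Γ.n13 = 0 ∨ Γ.n31 = 0) : Lift (.grid Γ ::ₘ rest) x := by
  refine seam_cases ih Γ rest x hk hW hT hx hρ hm ?_
  rintro Γ' rest' g rfl - hg hg'
  obtain ⟨N, x', hr, hN⟩ := mv_dist Γ Γ' hW hT hx hρ hm g hg hg' hn
  refine ih.red hr ?_
  simp only [mu_cons, mu_add] at hk ⊢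
  omega

theorem letter_step {k : ℕ} (hρ0 : 0 < ρ) (ih : IH O ρ k) (Γ : Grid O) (rest : Sys O) (x : Val ℂ)
    (hk : mu ρ (.grid Γ ::ₘ rest) ≤ k) (hW : WF (.grid Γ ::ₘ rest))
    (hT : Top ρ (.grid Γ ::ₘ rest)) (hx : Sat x (.grid Γ ::ₘ rest)) (hρ : Γ.n22 = ρ)
    (hm : nvar Γ.c2.m ≠ 0) : Lift (.grid Γ ::ₘ rest) x := by
  obtain ⟨⟨φ, ε⟩, ho⟩ := Multiset.exists_mem_of_ne_zero
    (fun h => hm (Multiset.card_eq_zero.2 h) : vocc Γ.c2.m ≠ 0)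
  obtain ⟨w1, w2, hw⟩ := List.append_of_mem (mem_vocc.1 ho)
  have hk' := hk
  rw [mu_cons] at hk'
  have hpos : 0 < (Vx.grid Γ).mu ρ := by rw [mu_grid hρ]; omega
  by_cases hp : (letterVar ρ φ, !ε) ∈ occ (.grid Γ ::ₘ rest)
  · obtain ⟨Γ', h1, h2, h3⟩ := loc_letter hT hρ0 φ (!ε) hp
    rcases Multiset.mem_cons.1 h1 with h | h
    · cases h
      rw [hw] at h3
      rcases List.mem_append.1 h3 with h4 | h4
      · obtain ⟨a, b, rfl⟩ := List.append_of_mem h4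
        obtain ⟨N, x', hr, hN⟩ := mv_E3b Γ hW hT hx hρ a b w2 φ (!ε) (by simp [hw])
        exact ih.red hr (by rw [mu_add]; omega)
      · rcases List.mem_cons.1 h4 with h5 | h5
        · cases ε <;> simp at h5
        · obtain ⟨a, b, rfl⟩ := List.append_of_mem h5
          obtain ⟨N, x', hr, hN⟩ := mv_E3b Γ hW hT hx hρ w1 a b φ ε hw
          exact ih.red hr (by rw [mu_add]; omega)
    · obtain ⟨rest', rfl⟩ := Multiset.exists_cons_of_mem h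
      obtain ⟨a, b, hab⟩ := List.append_of_mem h3
      obtain ⟨N, x', hr, hN⟩ := mv_E3a Γ Γ' hW hT hx hρ h2 w1 w2 a b φ ε hw hab
      refine ih.red hr ?_
      simp only [mu_cons, mu_add] at hk ⊢
      omega
  · exact ih.red (mv_del_letter Γ hW hT hx hρ w1 w2 φ ε hw hp) (by omega)

theorem ins_step {k : ℕ} (ih : IH O ρ k) (Γ : Grid O) (rest : Sys O) (x : Val ℂ)
    (hk : mu ρ (.grid Γ ::ₘ rest) ≤ k) (hW : WF (.grid Γ ::ₘ rest))
    (hT : Top ρ (.grid Γ ::ₘ rest)) (hx : Sat x (.grid Γ ::ₘ rest)) (hρ : Γ.n22 = ρ)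
    (hm : nvar Γ.c2.m = 0) (hn : 0 < Γ.n11 ∨ 0 < Γ.n33) : Lift (.grid Γ ::ₘ rest) x := by
  refine seam_cases ih Γ rest x hk hW hT hx hρ hm ?_
  rintro Γ' rest' g rfl hρ' hg hg'
  obtain ⟨Γa, Γb, U, x1, hr, ha, hb, hU, ham, hbm, hbv, han, hbn⟩ := mv_ins Γ hW hT hx hρ hn
  have e1 : (Vx.grid Γb ::ₘ Vx.grid Γa ::ₘ Vx.grid U ::ₘ Vx.grid Γ' ::ₘ rest' : Sys O) =
      Vx.grid Γb ::ₘ Vx.grid Γ' ::ₘ (Vx.grid Γa ::ₘ Vx.grid U ::ₘ rest') := by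
    simp only [← Multiset.singleton_add]; abel
  rw [e1] at hr
  obtain ⟨N, x2, hr2, hN⟩ := mv_dist Γb Γ' hr.wf hr.top hr.sat hb (by rw [hbm, hm]) g
    (hbv.trans hg) hg' hbn
  have e2 : N + (Vx.grid Γa ::ₘ Vx.grid U ::ₘ rest') =
      Vx.grid Γa ::ₘ (N + Vx.grid U ::ₘ rest') := by
    simp only [← Multiset.singleton_add]; abel
  rw [e2] at hr2
  refine hr.lift (hr2.lift (nested_step ih Γa _ x2 ?_ hr2.wf hr2.top hr2.sat ha
    (by rw [ham]; rfl) han))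
  simp only [mu_cons, mu_add] at hk ⊢
  rw [mu_grid ha, mu_grid_lt hU, ham, nvar_nil]
  rw [mu_grid hb, hbm] at hN
  rw [mu_grid hρ] at hk
  omega

theorem pa'_succ (hA : PA O ρ) : PA' O (ρ + 1) := by
  suffices h : ∀ k, IH O (ρ + 1) k from fun S hW hT x hx => h _ S (Nat.lt_succ_self _) hW hT x hx
  intro k
  induction k with
  | zero => intro S h; omega
  | succ k ih =>
    intro S hk hW hT x hx
    have hk' : mu (ρ + 1) S ≤ k := by omega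
    by_cases h1 : ∃ Γ : Grid O, Vx.grid Γ ∈ S ∧ Γ.n22 = ρ + 1 ∧ nvar Γ.c2.m ≠ 0
    · obtain ⟨Γ, hΓ, hρ, hm⟩ := h1
      obtain ⟨rest, rfl⟩ := Multiset.exists_cons_of_mem hΓ
      exact letter_step (Nat.succ_pos _) ih Γ rest x hk' hW hT hx hρ hm
    push Not at h1
    by_cases h2 : ∃ Γ : Grid O, Vx.grid Γ ∈ S ∧ Γ.n22 = ρ + 1 ∧ (0 < Γ.n11 ∨ 0 < Γ.n33)
    · obtain ⟨Γ, hΓ, hρ, hn⟩ := h2
      have hm := h1 Γ hΓ hρ
      obtain ⟨rest, rfl⟩ := Multiset.exists_cons_of_mem hΓ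
      exact ins_step ih Γ rest x hk' hW hT hx hρ hm hn
    push Not at h2
    by_cases h3 : ∃ Γ : Grid O, Vx.grid Γ ∈ S ∧ Γ.n22 = ρ + 1
    · obtain ⟨Γ, hΓ, hρ⟩ := h3
      have hm := h1 Γ hΓ hρ
      have hn := h2 Γ hΓ hρ
      obtain ⟨rest, rfl⟩ := Multiset.exists_cons_of_mem hΓ
      refine seam_cases ih Γ rest x hk' hW hT hx hρ hm ?_
      rintro Γ' rest' g rfl hρ' hg hg'
      have hn' := h2 Γ' (by simp) hρ'
      obtain ⟨N, x', hr, hN⟩ := mv_T Γ Γ' hW hT hx hρ hm g hg hg' (by omega) (by omega)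
        (by omega) (by omega)
      refine ih.red hr ?_
      simp only [mu_cons, mu_add] at hk' ⊢
      omega
    · refine hA S hW (fun v hv => ?_) x hx
      obtain ⟨h4, h5⟩ := hT v hv
      by_contra h6
      have h7 : v.rank = ρ + 1 := by omega
      cases v with
      | grid Γ => exact h3 ⟨Γ, hv, h7⟩
      | closed n w => exact h5 h7

end Crest.Agent.R3

end
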