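import Crest.Agent.R3.Defs

/-! Row 3: Zariski closure, part A. -/

set_option autoImplicit false

noncomputable section

namespace Crest.Agent.R3.ZarA

open MvPolynomial

variable {O : Subring ℂ}

theorem eval_bind {σ τ : Type*} (Φ : τ → MvPolynomial σ ℂ) (y : σ → ℂ) (P : MvPolynomial τ ℂ) :
    eval y (bind₁ Φ P) = eval (fun t => eval y (Φ t)) P := by
  induction P using MvPolynomial.induction_on with
  | C a => simp
  | add p q hp hq => simp [hp, hq]
  | mul_X p t hp => simp [hp]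

theorem pull {σ τ : Type*} {X : Set (σ → ℂ)} {x : σ → ℂ} (h : ZCl X x)
    (Φ : τ → MvPolynomial σ ℂ) {Y : Set (τ → ℂ)}
    (hY : ∀ y ∈ X, (fun t => eval y (Φ t)) ∈ Y) : ZCl Y (fun t => eval x (Φ t)) := by
  intro P hP
  rw [← eval_bind]
  exact h _ fun y hy => by rw [eval_bind]; exact hP _ (hY y hy)

theorem pull' {σ τ : Type*} {X : Set (σ → ℂ)} {x : σ → ℂ} (h : ZCl X x)
    (Φ : τ → MvPolynomial σ ℂ) {Y : Set (τ → ℂ)} {x' : τ → ℂ} (hx : ∀ t, eval x (Φ t) = x' t)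
    (hY : ∀ y ∈ X, (fun t => eval y (Φ t)) ∈ Y) : ZCl Y x' := by
  rw [← funext hx]
  exact pull h Φ hY

theorem prod {σ τ : Type*} {X : Set (σ → ℂ)} {x : σ → ℂ} {Y : Set (τ → ℂ)} {y : τ → ℂ}
    (hx : ZCl X x) (hy : ZCl Y y) :
    ZCl {z : σ ⊕ τ → ℂ | (fun s => z (.inl s)) ∈ X ∧ (fun t => z (.inr t)) ∈ Y}
      (Sum.elim x y) := by
  have h2 : ZCl {z : σ ⊕ τ → ℂ | ∃ y' ∈ Y, z = Sum.elim x y'} (Sum.elim x y) := by
    refine pull' hy (Sum.elim (fun s => C (x s)) MvPolynomial.X) ?_ fun y' hy' => ⟨y', hy', ?_⟩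
    · rintro (s | t) <;> simp
    · funext t
      rcases t with s | t <;> simp
  intro P hP
  refine h2 P ?_
  rintro _ ⟨y', hy', rfl⟩
  refine pull' hx (Sum.elim MvPolynomial.X fun t => C (y' t)) ?_ (fun x' hx' => ?_) P hP
  · rintro (s | t) <;> simp
  · simpa using ⟨hx', hy'⟩

theorem exists_red {σ : Type*} (r : ℕ) (δ : σ) (P : MvPolynomial (Option σ) ℂ) :
    ∃ Q : ℕ → MvPolynomial σ ℂ, ∀ w : Option σ → ℂ, w none ^ (r + 1) = w (some δ) →
      eval w P = ∑ k ∈ Finset.range (r + 1), eval (fun s => w (some s)) (Q k) * w none ^ k := by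
  induction P using MvPolynomial.induction_on with
  | C a =>
    refine ⟨fun k => if k = 0 then C a else 0, fun w _ => ?_⟩
    rw [Finset.sum_range_succ']
    simp
  | add p q hp hq =>
    obtain ⟨Q, hQ⟩ := hp
    obtain ⟨Q', hQ'⟩ := hq
    refine ⟨fun k => Q k + Q' k, fun w hw => ?_⟩
    rw [map_add, hQ w hw, hQ' w hw, ← Finset.sum_add_distrib]
    simp only [map_add, add_mul]
  | mul_X p t hp =>
    obtain ⟨Q, hQ⟩ := hp
    rcases t with _ | s
    · refine ⟨fun k => Nat.casesOn k (Q r * X δ) Q, fun w hw => ?_⟩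
      rw [map_mul, eval_X, hQ w hw, Finset.sum_range_succ, Finset.sum_range_succ', add_mul,
        Finset.sum_mul]
      congr 1
      · exact Finset.sum_congr rfl fun k _ => by rw [pow_succ, mul_assoc]
      · show _ = eval (fun s => w (some s)) (Q r * X δ) * w none ^ 0
        rw [map_mul, eval_X, ← hw, pow_zero, mul_one, pow_succ, mul_assoc]
    · refine ⟨fun k => Q k * X s, fun w hw => ?_⟩
      rw [map_mul, eval_X, hQ w hw, Finset.sum_mul]
      refine Finset.sum_congr rfl fun k _ => ?_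
      rw [map_mul, eval_X]
      ring

theorem root1 {σ : Type*} {r : ℕ} (hr : 0 < r) (δ : σ) {X : Set (σ → ℂ)} {x : σ → ℂ}
    (h : ZCl X x) (hX : ∀ y ∈ X, y δ ≠ 0) (z : ℂ) (hz : z ^ r = x δ) :
    ZCl {w : Option σ → ℂ | (fun s => w (some s)) ∈ X ∧ w none ^ r = w (some δ)}
      (fun o => o.elim z x) := by
  obtain ⟨r, rfl⟩ : ∃ k, r = k + 1 := ⟨r - 1, by omega⟩
  intro P hP
  obtain ⟨Q, hQ⟩ := exists_red r δ P
  rw [hQ _ hz]
  refine Finset.sum_eq_zero fun k hk => mul_eq_zero_of_left (h _ fun y hy => ?_) _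
  obtain ⟨α, hα⟩ := IsAlgClosed.exists_pow_nat_eq (y δ) hr
  have hα0 : α ≠ 0 := by
    rintro rfl
    exact hX y hy (by rw [← hα, zero_pow hr.ne'])
  have hζ := Complex.isPrimitiveRoot_exp (r + 1) hr.ne'
  set ζ := Complex.exp (2 * Real.pi * Complex.I / (r + 1 : ℕ))
  have hinj : Function.Injective fun j : Fin (r + 1) => ζ ^ (j : ℕ) * α := fun i j hij =>
    Fin.ext (hζ.pow_inj i.2 j.2 (mul_right_cancel₀ hα0 hij))
  have hv := Matrix.eq_zero_of_forall_index_sum_mul_pow_eq_zero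
    (v := fun i : Fin (r + 1) => eval y (Q i)) hinj fun j => by
      have hw : (ζ ^ (j : ℕ) * α) ^ (r + 1) = y δ := by
        rw [mul_pow, ← pow_mul, mul_comm (j : ℕ), pow_mul, hζ.pow_eq_one, one_pow, one_mul, hα]
      have h1 := hQ (fun o => o.elim (ζ ^ (j : ℕ) * α) y) hw
      rw [hP _ ⟨hy, hw⟩, Finset.sum_range] at h1
      exact h1.symm
  exact congrFun hv ⟨k, Finset.mem_range.1 hk⟩

theorem root {σ ι : Type} [Finite ι] {r : ℕ} (hr : 0 < r) (δ : ι → σ) {X : Set (σ → ℂ)}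
    {x : σ → ℂ} (h : ZCl X x) (hX : ∀ y ∈ X, ∀ v, y (δ v) ≠ 0) (z : ι → ℂ)
    (hz : ∀ v, z v ^ r = x (δ v)) :
    ZCl {w : σ ⊕ ι → ℂ | (fun s => w (.inl s)) ∈ X ∧ ∀ v, w (.inr v) ^ r = w (.inl (δ v))}
      (Sum.elim x z) := by
  classical
  have key : ∀ s : Finset ι, ZCl {w : σ ⊕ ι → ℂ | (fun s => w (.inl s)) ∈ X ∧
      ∀ v ∈ s, w (.inr v) ^ r = w (.inl (δ v))} (Sum.elim x z) := by
    intro s
    induction s using Finset.induction_on with
    | empty =>
      refine pull' h (Sum.elim MvPolynomial.X fun t => C (z t)) ?_ fun y hy => ?_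
      · rintro (s | t) <;> simp
      · simpa using hy
    | insert v₀ s _ ih =>
      refine pull' (root1 hr (Sum.inl (δ v₀) : σ ⊕ ι) ih (fun y hy => hX _ hy.1 v₀) (z v₀) (hz v₀))
        (Sum.elim (fun t => MvPolynomial.X (some (.inl t)))
          fun v => if v = v₀ then MvPolynomial.X none else MvPolynomial.X (some (.inr v))) ?_ ?_
      · rintro (t | v)
        · simp
        · by_cases hv : v = v₀ <;> simp [hv]
      · rintro w ⟨⟨hw1, hw2⟩, hw3⟩
        refine ⟨by simpa using hw1, fun v hv => ?_⟩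
        by_cases hv0 : v = v₀
        · simpa [hv0] using hw3
        · simpa [hv0] using hw2 v ((Finset.mem_insert.1 hv).resolve_left hv0)
  have := Fintype.ofFinite ι
  intro P hP
  exact key Finset.univ P fun w hw => hP w ⟨hw.1, fun v => hw.2 v (Finset.mem_univ v)⟩

theorem of_closure {σ α : Type*} [TopologicalSpace α] {X : Set (σ → ℂ)} (F : α → σ → ℂ)
    (hF : ∀ s, Continuous fun a => F a s) {Z : Set α} (hZ : ∀ z ∈ Z, ZCl X (F z)) {a : α}
    (ha : a ∈ closure Z) : ZCl X (F a) := by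
  intro P hP
  have hc : IsClosed {a | eval (F a) P = 0} :=
    isClosed_eq ((continuous_eval P).comp (continuous_pi hF)) continuous_const
  exact closure_minimal (fun z hz => hZ z hz P hP) hc ha

theorem exists_lin {A : Type*} [CommMonoid A] (P : MvPolynomial A ℂ) :
    ∃ l : A →₀ ℂ, ∀ φ : A →* ℂ, eval φ P = l.sum fun a c => c * φ a := by
  refine ⟨∑ m ∈ P.support, Finsupp.single (∏ a ∈ m.support, a ^ m a) (coeff m P), fun φ => ?_⟩
  have e : ∀ l : A →₀ ℂ, (l.sum fun a c => c * φ a) = Finsupp.linearCombination ℂ φ l :=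
    fun l => by rw [Finsupp.linearCombination_apply]; rfl
  rw [e, map_sum, eval_eq]
  refine Finset.sum_congr rfl fun m _ => ?_
  rw [Finsupp.linearCombination_single, smul_eq_mul, map_prod]
  simp only [map_pow]

theorem hom_iff {A : Type} [CommRing A] [Algebra O A] (H : Set (A →ₐ[O] O)) (θ : A →ₐ[O] ℂ) :
    ZCl ((fun (π : A →ₐ[O] O) (a : A) => (π a : ℂ)) '' H) θ ↔
      ∀ l : A →₀ ℂ, (∀ π ∈ H, (l.sum fun a c => c * (π a : ℂ)) = 0) →
        (l.sum fun a c => c * θ a) = 0 := by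
  constructor
  · intro h l hl
    have e : ∀ y : A → ℂ, eval y (l.sum fun a c => C c * X a) = l.sum fun a c => c * y a := by
      intro y
      rw [map_finsuppSum]
      simp only [map_mul, eval_C, eval_X]
    rw [← e]
    refine h _ ?_
    rintro _ ⟨π, hπ, rfl⟩
    rw [e]
    exact hl π hπ
  · intro h P hP
    obtain ⟨l, hl⟩ := exists_lin P
    refine (hl (θ : A →* ℂ)).trans (h l fun π hπ => ?_)
    exact (hl (O.subtype.comp (π : A →+* O) : A →* ℂ)).symm.trans (hP _ ⟨π, hπ, rfl⟩)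

theorem eval_map_coe {σ : Type} (y : σ → O) (Q : MvPolynomial σ O) :
    eval (fun s => (y s : ℂ)) (map (algebraMap O ℂ) Q) = ((aeval y Q : O) : ℂ) := by
  induction Q using MvPolynomial.induction_on with
  | C a => rw [map_C, eval_C, aeval_C]; rfl
  | add p q hp hq => simp [hp, hq]
  | mul_X p t hp => simp [hp]

theorem eval_map_aeval {σ : Type} (x : σ → ℂ) (Q : MvPolynomial σ O) :
    eval x (map (algebraMap O ℂ) Q) = aeval x Q := by
  rw [eval_map, aeval_def]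

theorem exists_lift {R B C : Type} [CommRing R] [CommRing B] [CommRing C] [Algebra R B]
    [Algebra R C] (I : Ideal B) (f : B →ₐ[R] C) (hf : ∀ b ∈ I, f b = 0) :
    ∃ g : (B ⧸ I) →ₐ[R] C, ∀ b, g (Ideal.Quotient.mk I b) = f b :=
  ⟨Ideal.Quotient.liftₐ I f hf, fun _ => rfl⟩

/-- The quotient by the common kernel of a family of homomorphisms. -/
theorem exists_quot {R B C D : Type} {κ : Type} [CommRing R] [CommRing B] [CommRing C] [CommRing D]
    [Algebra R B] [Algebra R C] [Algebra R D] (f : κ → (B →ₐ[R] C)) (g : B →ₐ[R] D)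
    (hg : ∀ b, (∀ k, f k b = 0) → g b = 0) :
    ∃ (A : Type) (_ : CommRing A) (_ : Algebra R A) (q : B → A) (π : κ → (A →ₐ[R] C))
      (θ : A →ₐ[R] D), Function.Surjective q ∧ (∀ k b, π k (q b) = f k b) ∧
        (∀ b, θ (q b) = g b) ∧ ∀ a, (∀ k, π k a = 0) → a = 0 := by
  obtain ⟨I, hI⟩ : ∃ I : Ideal B, ∀ b, b ∈ I ↔ ∀ k, f k b = 0 :=
    ⟨⨅ k, RingHom.ker (f k), fun _ => Ideal.mem_iInf⟩
  choose π hπ using fun k => exists_lift I (f k) fun b hb => (hI b).1 hb k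
  obtain ⟨θ, hθ⟩ := exists_lift I g fun b hb => hg b ((hI b).1 hb)
  refine ⟨B ⧸ I, inferInstance, inferInstance, Ideal.Quotient.mk I, π, θ,
    Ideal.Quotient.mk_surjective, hπ, hθ, fun a ha => ?_⟩
  obtain ⟨b, rfl⟩ := Ideal.Quotient.mk_surjective (I := I) a
  exact Ideal.Quotient.eq_zero_iff_mem.2 ((hI b).2 fun k => (hπ k b).symm.trans (ha k))

theorem univ {σ : Type} (X : Set (σ → O)) (x : σ → ℂ)
    (h : ZCl ((fun (y : σ → O) (s : σ) => (y s : ℂ)) '' X) x) :
    ∃ (L : GR O) (x' : σ → L.A) (π : X → (L.A →ₐ[O] O)), (∀ s, L.θ (x' s) = x s) ∧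
      (∀ y s, π y (x' s) = y.1 s) ∧ ∀ a, (∀ y, π y a = 0) → a = 0 := by
  obtain ⟨A, _, _, q, π, θ, hq, hπ, hθ, h0⟩ :=
    exists_quot (fun y : X => (aeval y.1 : MvPolynomial σ O →ₐ[O] O))
      (aeval x : MvPolynomial σ O →ₐ[O] ℂ) fun Q hQ => by
        rw [← eval_map_aeval]
        refine h _ ?_
        rintro _ ⟨y, hy, rfl⟩
        rw [eval_map_coe, hQ ⟨y, hy⟩]
        rfl
  choose out hout using hq
  have good : ZCl (OPts O A) θ := by
    refine pull' h (fun a => map (algebraMap O ℂ) (out a)) (fun a => ?_) ?_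
    · rw [eval_map_aeval, ← hθ, hout]
    · rintro _ ⟨y, hy, rfl⟩
      refine ⟨π ⟨y, hy⟩, funext fun a => ?_⟩
      show ((π ⟨y, hy⟩ a : O) : ℂ) = _
      rw [eval_map_coe, ← hπ ⟨y, hy⟩, hout]
  exact ⟨{ A := A, θ := θ, good := good }, fun s => q (MvPolynomial.X s), π,
    fun s => (hθ _).trans (aeval_X _ _), fun y s => (hπ _ _).trans (aeval_X _ _), h0⟩

end Crest.Agent.R3.ZarA

end
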