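import Crest.Agent.R3.Defs
import Crest.Agent.R3.ZarAuxA

set_option autoImplicit false

noncomputable section

namespace Crest.Agent.R3

open Matrix Filter Topology

/-! Zariski closure; products, localisations and existence of lifting rings. -/

variable {O : Subring ℂ}

theorem ZCl.mono {σ : Type*} {X Y : Set (σ → ℂ)} {x : σ → ℂ} (h : X ⊆ Y) (hx : ZCl X x) :
    ZCl Y x := fun P hP => hx P fun y hy => hP y (h hy)

theorem ZCl.trans {σ : Type*} {X Y : Set (σ → ℂ)} {x : σ → ℂ} (h : ∀ y ∈ Y, ZCl X y)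
    (hx : ZCl Y x) : ZCl X x := fun P hP => hx P fun y hy => h y hy P hP

theorem ZCl.pull {σ τ : Type*} {X : Set (σ → ℂ)} {x : σ → ℂ} (h : ZCl X x)
    (Φ : τ → MvPolynomial σ ℂ) {Y : Set (τ → ℂ)}
    (hY : ∀ y ∈ X, (fun t => MvPolynomial.eval y (Φ t)) ∈ Y) :
    ZCl Y (fun t => MvPolynomial.eval x (Φ t)) := by
  exact ZarA.pull h Φ hY

theorem ZCl.prod {σ τ : Type*} {X : Set (σ → ℂ)} {x : σ → ℂ} {Y : Set (τ → ℂ)} {y : τ → ℂ}
    (hx : ZCl X x) (hy : ZCl Y y) :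
    ZCl {z : σ ⊕ τ → ℂ | (fun s => z (.inl s)) ∈ X ∧ (fun t => z (.inr t)) ∈ Y}
      (Sum.elim x y) := by
  exact ZarA.prod hx hy

/-- Adjoining `r`-th roots. -/
theorem ZCl.root {σ ι : Type} [Finite ι] {r : ℕ} (hr : 0 < r) (δ : ι → σ) {X : Set (σ → ℂ)}
    {x : σ → ℂ} (h : ZCl X x) (hX : ∀ y ∈ X, ∀ v, y (δ v) ≠ 0) (z : ι → ℂ)
    (hz : ∀ v, z v ^ r = x (δ v)) :
    ZCl {w : σ ⊕ ι → ℂ | (fun s => w (.inl s)) ∈ X ∧ ∀ v, w (.inr v) ^ r = w (.inl (δ v))}
      (Sum.elim x z) := by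
  exact ZarA.root hr δ h hX z hz

theorem ZCl.of_closure {σ α : Type*} [TopologicalSpace α] {X : Set (σ → ℂ)} (F : α → σ → ℂ)
    (hF : ∀ s, Continuous fun a => F a s) {Z : Set α} (hZ : ∀ z ∈ Z, ZCl X (F z)) {a : α}
    (ha : a ∈ closure Z) : ZCl X (F a) := by
  exact ZarA.of_closure F hF hZ ha

/-- For sets of homomorphisms linear test functions suffice. -/
theorem zcl_hom_iff {A : Type} [CommRing A] [Algebra O A] (H : Set (A →ₐ[O] O))
    (θ : A →ₐ[O] ℂ) :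
    ZCl ((fun (π : A →ₐ[O] O) (a : A) => (π a : ℂ)) '' H) θ ↔
      ∀ l : A →₀ ℂ, (∀ π ∈ H, (l.sum fun a c => c * (π a : ℂ)) = 0) →
        (l.sum fun a c => c * θ a) = 0 := by
  exact ZarA.hom_iff H θ

/-- Localisation. -/
theorem good_loc {B : Type} [CommRing B] [Algebra O B] (M : Submonoid B) (θ : B →ₐ[O] ℂ)
    (hθ : ∀ s ∈ M, θ s ≠ 0)
    (h : ZCl ((fun (π : B →ₐ[O] O) (a : B) => (π a : ℂ)) '' {π | ∀ s ∈ M, IsUnit (π s)}) θ) :
    ∃ (L : GR O) (f : B →ₐ[O] L.A), (∀ a, L.θ (f a) = θ a) ∧ ∀ s ∈ M, IsUnit (f s) := by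
  classical
  have hu : ∀ y : M, IsUnit (θ y) := fun y => (hθ y y.2).isUnit
  let θ' : Localization M →ₐ[O] ℂ := IsLocalization.liftAlgHom (M := M) hu
  have e : ∀ a, θ' (algebraMap B (Localization M) a) = θ a := fun a =>
    IsLocalization.lift_eq (M := M) hu a
  refine ⟨⟨Localization M, θ', ?_⟩, IsScalarTower.toAlgHom O B (Localization M), e,
    fun s hs => IsLocalization.map_units (Localization M) (⟨s, hs⟩ : M)⟩
  rw [OPts, ← Set.image_univ, zcl_hom_iff]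
  intro l hl
  obtain ⟨s, hs⟩ := IsLocalization.exist_integer_multiples_of_finset M l.support
  choose! b hb using hs
  have key : ∀ (C : Type) [CommRing C] [Algebra O C] (φ : Localization M →ₐ[O] C) (g : C → ℂ),
      (∀ x y, g (x * y) = g x * g y) →
      ∑ a ∈ l.support, l a * g (φ (algebraMap B _ (b a))) =
        g (φ (algebraMap B _ (s : B))) * l.sum fun a c => c * g (φ a) := by
    intro C _ _ φ g hg
    rw [Finsupp.sum, Finset.mul_sum]
    refine Finset.sum_congr rfl fun a ha => ?_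
    rw [hb a ha, Algebra.smul_def, map_mul, hg]
    ring
  have h1 := h (∑ a ∈ l.support, MvPolynomial.C (l a) * MvPolynomial.X (b a)) (by
    rintro _ ⟨π, hπ, rfl⟩
    have hu' : ∀ y : M, IsUnit (π y) := fun y => hπ y y.2
    let π' : Localization M →ₐ[O] O := IsLocalization.liftAlgHom (M := M) hu'
    have e' : ∀ a, π' (algebraMap B (Localization M) a) = π a := fun a =>
      IsLocalization.lift_eq (M := M) hu' a
    have h2 := key O π' (fun x => (x : ℂ)) fun x y => Subring.coe_mul _ x y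
    rw [hl π' trivial, mul_zero] at h2
    simpa [e'] using h2)
  have h2 := key ℂ θ' id fun _ _ => rfl
  simp only [id, e] at h2
  simp only [map_sum, map_mul, MvPolynomial.eval_C, MvPolynomial.eval_X] at h1
  rw [h1] at h2
  exact (mul_eq_zero.1 h2.symm).resolve_left (hθ s s.2)

theorem GR.prod (L₁ L₂ : GR O) : ∃ (L : GR O) (f₁ : L₁.A →ₐ[O] L.A) (f₂ : L₂.A →ₐ[O] L.A),
    (∀ a, L.θ (f₁ a) = L₁.θ a) ∧ ∀ a, L.θ (f₂ a) = L₂.θ a := by
  have hΦ : ∀ u : TensorProduct O L₁.A L₂.A, ∃ P : MvPolynomial (L₁.A ⊕ L₂.A) ℂ,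
      ∀ (φ₁ : L₁.A →ₐ[O] ℂ) (φ₂ : L₂.A →ₐ[O] ℂ), MvPolynomial.eval (Sum.elim φ₁ φ₂) P =
        Algebra.TensorProduct.productMap φ₁ φ₂ u := by
    intro u
    induction u using TensorProduct.induction_on with
    | zero => exact ⟨0, fun _ _ => by simp⟩
    | tmul a b => exact ⟨MvPolynomial.X (.inl a) * MvPolynomial.X (.inr b), fun _ _ => by simp⟩
    | add x y hx hy =>
      obtain ⟨P, hP⟩ := hx
      obtain ⟨Q, hQ⟩ := hy
      exact ⟨P + Q, fun _ _ => by rw [map_add, map_add, hP, hQ]⟩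
  choose Φ hΦ using hΦ
  refine ⟨⟨TensorProduct O L₁.A L₂.A, Algebra.TensorProduct.productMap L₁.θ L₂.θ, ?_⟩,
    Algebra.TensorProduct.includeLeft, Algebra.TensorProduct.includeRight,
    fun a => Algebra.TensorProduct.productMap_left_apply _ _ a,
    fun a => Algebra.TensorProduct.productMap_right_apply _ _ a⟩
  have h := (L₁.good.prod L₂.good).pull Φ (Y := OPts O (TensorProduct O L₁.A L₂.A)) (by
    rintro z ⟨⟨π₁, h₁⟩, π₂, h₂⟩
    refine ⟨Algebra.TensorProduct.productMap π₁ π₂, funext fun u => ?_⟩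
    have hz : z = Sum.elim ((Algebra.ofId O ℂ).comp π₁) ((Algebra.ofId O ℂ).comp π₂) := by
      funext v
      rcases v with a | a
      exacts [(congrFun h₁ a).symm, (congrFun h₂ a).symm]
    have e : Algebra.TensorProduct.productMap ((Algebra.ofId O ℂ).comp π₁)
        ((Algebra.ofId O ℂ).comp π₂) =
        (Algebra.ofId O ℂ).comp (Algebra.TensorProduct.productMap π₁ π₂) := by
      ext <;> simp
    rw [hz, hΦ, e]
    rfl)
  simpa only [hΦ] using h

theorem LR.prod (L₁ : GR O) (L₂ : LR O) :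
    ∃ (L : LR O) (f₁ : L₁.A →ₐ[O] L.A) (f₂ : L₂.A →ₐ[O] L.A),
      (∀ a, L.θ (f₁ a) = L₁.θ a) ∧ ∀ a, L.θ (f₂ a) = L₂.θ a := by
  obtain ⟨L, f₁, f₂, h₁, h₂⟩ := L₁.prod L₂.toGR
  refine ⟨⟨L, fun c hc => ?_⟩, f₁, f₂, h₁, h₂⟩
  obtain ⟨u, hu⟩ := L₂.rich c hc
  exact ⟨Units.map (f₂ : L₂.A →* L.A) u, (h₂ u).trans hu⟩

theorem LR.prod_fin {N : ℕ} (L₀ : LR O) (Ls : Fin N → LR O) :
    ∃ (L : LR O) (f₀ : L₀.A →ₐ[O] L.A) (f : ∀ t, (Ls t).A →ₐ[O] L.A),
      (∀ a, L.θ (f₀ a) = L₀.θ a) ∧ ∀ t a, L.θ (f t a) = (Ls t).θ a := by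
  induction N with
  | zero => exact ⟨L₀, AlgHom.id _ _, fun t => t.elim0, fun _ => rfl, fun t => t.elim0⟩
  | succ N ih =>
    obtain ⟨L, f₀, f, h₀, h⟩ := ih fun t => Ls t.succ
    obtain ⟨L', g₁, g₂, h₁, h₂⟩ := LR.prod (Ls 0).toGR L
    refine ⟨L', g₂.comp f₀, fun t => Fin.cases g₁ (fun t => g₂.comp (f t)) t,
      fun a => (h₂ _).trans (h₀ a), fun t => ?_⟩
    refine Fin.cases (fun a => h₁ a) (fun t a => ?_) t
    exact (h₂ _).trans (h t a)

theorem LR.nonempty (h : Infinite Oˣ) : Nonempty (LR O) := by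
  let θ : MvPolynomial ℂˣ O →ₐ[O] ℂ := MvPolynomial.aeval fun c : ℂˣ => (c : ℂ)
  let M : Submonoid (MvPolynomial ℂˣ O) := Submonoid.closure (Set.range MvPolynomial.X)
  have hM : ∀ {C : Type} [CommRing C] [Algebra O C] (φ : MvPolynomial ℂˣ O →ₐ[O] C),
      (∀ c, IsUnit (φ (MvPolynomial.X c))) → ∀ s ∈ M, IsUnit (φ s) := by
    intro C _ _ φ hφ s hs
    induction hs using Submonoid.closure_induction with
    | mem x hx => obtain ⟨c, rfl⟩ := hx; exact hφ c
    | one => simp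
    | mul x y _ _ hx hy => rw [map_mul]; exact hx.mul hy
  have hU : (Set.range fun u : Oˣ => ((u : O) : ℂ)).Infinite :=
    Set.infinite_range_of_injective (Subtype.val_injective.comp Units.val_injective)
  have h0 : ZCl (Set.pi Set.univ fun _ : ℂˣ => Set.range fun u : Oˣ => ((u : O) : ℂ))
      (fun c : ℂˣ => (c : ℂ)) := fun P hP => by
    rw [MvPolynomial.funext_set (p := P) (q := 0) _ (fun _ => hU) fun y hy => by rw [hP y hy, map_zero],
      map_zero]
  have ev : ∀ (y : ℂˣ → ℂ) (b : MvPolynomial ℂˣ O),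
      MvPolynomial.eval y (MvPolynomial.map (algebraMap O ℂ) b) = MvPolynomial.aeval y b :=
    fun y b => by rw [MvPolynomial.eval_map, MvPolynomial.aeval_def]
  have h1 := h0.pull (fun b : MvPolynomial ℂˣ O => MvPolynomial.map (algebraMap O ℂ) b)
    (Y := (fun (π : MvPolynomial ℂˣ O →ₐ[O] O) a => (π a : ℂ)) '' {π | ∀ s ∈ M, IsUnit (π s)}) (by
      intro y hy
      choose u hu using fun c => hy c trivial
      refine ⟨MvPolynomial.aeval fun c => (u c : O), hM _ fun c => by simp, funext fun b => ?_⟩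
      have e : (Algebra.ofId O ℂ).comp (MvPolynomial.aeval fun c => (u c : O)) =
          MvPolynomial.aeval y := by
        ext c
        rw [AlgHom.comp_apply, MvPolynomial.aeval_X, MvPolynomial.aeval_X]
        exact hu c
      rw [ev, ← e]
      rfl)
  simp only [ev] at h1
  obtain ⟨L, f, hf, hf'⟩ := good_loc M θ
    (fun s hs => (hM θ (fun c => by simp [θ]) s hs).ne_zero) h1
  refine ⟨⟨L, fun c hc => ?_⟩⟩
  obtain ⟨u, hu⟩ := hf' (MvPolynomial.X (Units.mk0 c hc)) (Submonoid.subset_closure ⟨_, rfl⟩)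
  exact ⟨u, by rw [hu, hf]; simp [θ]⟩

theorem Nice.infinite {r : ℕ} (h : Nice O r) : Infinite Oˣ := by
  by_contra hf
  rw [not_infinite_iff_finite] at hf
  have := Fintype.ofFinite Oˣ
  have h1 := h.dd 1 Polynomial.X Polynomial.monic_X Polynomial.natDegree_X
    (by rw [Polynomial.map_X]; exact Polynomial.separable_X)
    (∏ u : Oˣ, (MvPolynomial.X 0 - MvPolynomial.C ((u : O) : ℂ))) (by
      rintro c ⟨p', hp⟩
      rw [Polynomial.X_dvd_iff] at hp
      have h2 : c 0 * p'.coeff 0 = 1 := by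
        simpa [sub_eq_zero] using hp
      rw [map_prod]
      exact Finset.prod_eq_zero (Finset.mem_univ (Units.mkOfMulEqOne _ _ h2)) (by simp))
  have h2 := congrArg (MvPolynomial.eval fun _ => (0 : ℂ)) h1
  rw [map_prod, map_zero, Finset.prod_eq_zero_iff] at h2
  obtain ⟨u, -, hu⟩ := h2
  simp at hu

/-- The coordinate ring of a set of `O`-points. -/
theorem exists_univ {σ : Type} (X : Set (σ → O)) (x : σ → ℂ)
    (h : ZCl ((fun (y : σ → O) (s : σ) => (y s : ℂ)) '' X) x) :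
    ∃ (L : GR O) (x' : σ → L.A) (π : X → (L.A →ₐ[O] O)), (∀ s, L.θ (x' s) = x s) ∧
      (∀ y s, π y (x' s) = y.1 s) ∧ ∀ a, (∀ y, π y a = 0) → a = 0 := by
  exact ZarA.univ X x h

end Crest.Agent.R3

end
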